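import Mathlib.Analysis.Complex.CauchyIntegral
import Mathlib.MeasureTheory.Integral.IntegralEqImproper
import Mathlib.Analysis.SpecialFunctions.Gamma.Beta
import Mathlib.Analysis.SpecialFunctions.Gamma.Deriv
import Mathlib.Analysis.SpecialFunctions.Trigonometric.Bounds
import Mathlib.Analysis.Real.Pi.Bounds

/-!
P026, block VOR: shifting a vertical contour for functions of exponential type in a strip
(Gaussian regularisation), and crude bounds for the Gamma function.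
-/

namespace Vale.Agent.P026Z.Vor

open MeasureTheory Filter Topology Set Complex
open scoped Real Interval

/-- the rectangle, for a function that tends to zero on horizontal segments -/
theorem shift_of_decay {F : ℂ → ℂ} {σ0 σ1 : ℝ} (h01 : σ0 ≤ σ1)
    (hd : ∀ s : ℂ, σ0 ≤ s.re → s.re ≤ σ1 → DifferentiableAt ℂ F s)
    {g : ℝ → ℝ} (hg : Tendsto g atTop (𝓝 0))
    (hb : ∀ s : ℂ, σ0 ≤ s.re → s.re ≤ σ1 → 1 ≤ |s.im| → ‖F s‖ ≤ g |s.im|)
    (h0 : Integrable fun t : ℝ => F (σ0 + t * I)) (h1 : Integrable fun t : ℝ => F (σ1 + t * I)) :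
    ∫ t : ℝ, F (σ0 + t * I) = ∫ t : ℝ, F (σ1 + t * I) := by
  have hrect : ∀ T : ℝ, (∫ x : ℝ in σ0..σ1, F (x + (-T : ℝ) * I)) - (∫ x : ℝ in σ0..σ1, F (x + T * I))
      + I • (∫ y : ℝ in (-T)..T, F (σ1 + y * I)) - I • ∫ y : ℝ in (-T)..T, F (σ0 + y * I) = 0 := by
    intro T
    have h := integral_boundary_rect_eq_zero_of_differentiableOn F ⟨σ0, -T⟩ ⟨σ1, T⟩ (by
      intro s hs
      have hs1 : s.re ∈ [[σ0, σ1]] := hs.1
      rw [uIcc_of_le h01] at hs1
      exact (hd s hs1.1 hs1.2).differentiableWithinAt)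
    simpa using h
  have hhor : ∀ T : ℝ, 1 ≤ |T| → ‖∫ x : ℝ in σ0..σ1, F (x + T * I)‖ ≤ g |T| * |σ1 - σ0| := by
    intro T hT
    refine intervalIntegral.norm_integral_le_of_norm_le_const fun x hx => ?_
    rw [uIoc_of_le h01] at hx
    have h := hb (x + T * I) (by simpa using hx.1.le) (by simpa using hx.2) (by simpa using hT)
    simpa using h
  have t0 : Tendsto (fun T : ℝ => ∫ y : ℝ in (-T)..T, F (σ0 + y * I)) atTop
      (𝓝 (∫ t : ℝ, F (σ0 + t * I))) :=
    intervalIntegral_tendsto_integral h0 tendsto_neg_atTop_atBot tendsto_id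
  have t1 : Tendsto (fun T : ℝ => ∫ y : ℝ in (-T)..T, F (σ1 + y * I)) atTop
      (𝓝 (∫ t : ℝ, F (σ1 + t * I))) :=
    intervalIntegral_tendsto_integral h1 tendsto_neg_atTop_atBot tendsto_id
  have hg' : Tendsto (fun T : ℝ => g T * |σ1 - σ0|) atTop (𝓝 0) := by
    simpa using hg.mul_const |σ1 - σ0|
  have t2 : Tendsto (fun T : ℝ => ∫ x : ℝ in σ0..σ1, F (x + T * I)) atTop (𝓝 0) := by
    refine squeeze_zero_norm' ?_ hg'
    filter_upwards [eventually_ge_atTop 1] with T hT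
    have h := hhor T (by rwa [abs_of_nonneg (by linarith)])
    rwa [abs_of_nonneg (show (0 : ℝ) ≤ T by linarith)] at h
  have t3 : Tendsto (fun T : ℝ => ∫ x : ℝ in σ0..σ1, F (x + (-T : ℝ) * I)) atTop (𝓝 0) := by
    refine squeeze_zero_norm' ?_ hg'
    filter_upwards [eventually_ge_atTop 1] with T hT
    have h := hhor (-T) (by rwa [abs_neg, abs_of_nonneg (by linarith)])
    rwa [abs_neg, abs_of_nonneg (show (0 : ℝ) ≤ T by linarith)] at h
  have t4 := ((t3.sub t2).add (t1.const_smul I)).sub (t0.const_smul I)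
  simp only [hrect] at t4
  have h5 := tendsto_nhds_unique t4 tendsto_const_nhds
  simp only [sub_self, zero_add, smul_eq_mul] at h5
  have h6 : I * ((∫ t : ℝ, F (σ1 + t * I)) - ∫ t : ℝ, F (σ0 + t * I)) = 0 := by
    rw [mul_sub]; exact h5
  have h7 := (mul_eq_zero.1 h6).resolve_left I_ne_zero
  exact (sub_eq_zero.1 h7).symm

theorem norm_gauss (δ : ℝ) (s : ℂ) : ‖cexp (δ * s ^ 2)‖ = Real.exp (δ * (s.re ^ 2 - s.im ^ 2)) := by
  rw [norm_exp]
  congr 1
  simp [sq]

theorem tendsto_line {F : ℂ → ℂ} (σ : ℝ) (h0 : Integrable fun t : ℝ => F (σ + t * I)) :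
    Tendsto (fun n : ℕ => ∫ t : ℝ, F (σ + t * I) * cexp ((1 / ((n : ℝ) + 1) : ℝ) * (σ + t * I) ^ 2))
      atTop (𝓝 (∫ t : ℝ, F (σ + t * I))) := by
  refine tendsto_integral_of_dominated_convergence (fun t => ‖F (σ + t * I)‖ * Real.exp (σ ^ 2))
    (fun n => h0.aestronglyMeasurable.mul (Continuous.aestronglyMeasurable (by fun_prop)))
    (h0.norm.mul_const _) (fun n => ae_of_all _ fun t => ?_) (ae_of_all _ fun t => ?_)
  · rw [norm_mul, norm_gauss]
    refine mul_le_mul_of_nonneg_left (Real.exp_le_exp.2 ?_) (norm_nonneg _)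
    have h1 : (0 : ℝ) < 1 / ((n : ℝ) + 1) := by positivity
    have h2 : 1 / ((n : ℝ) + 1) ≤ 1 := by
      rw [div_le_one (by positivity)]; linarith [(Nat.cast_nonneg n : (0 : ℝ) ≤ n)]
    simp only [add_re, ofReal_re, mul_re, I_re, mul_zero, ofReal_im, I_im, mul_one, sub_self,
      add_zero, add_im, mul_im, zero_add]
    nlinarith [sq_nonneg σ, sq_nonneg t]
  · have h1 : Tendsto (fun n : ℕ => ((1 / ((n : ℝ) + 1) : ℝ) : ℂ)) atTop (𝓝 ((0 : ℝ) : ℂ)) :=
      (continuous_ofReal.tendsto _).comp tendsto_one_div_add_atTop_nhds_zero_nat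
    have h2 : Tendsto (fun n : ℕ => cexp (((1 / ((n : ℝ) + 1) : ℝ) : ℂ) * (σ + t * I) ^ 2)) atTop
        (𝓝 (cexp (((0 : ℝ) : ℂ) * (σ + t * I) ^ 2))) :=
      (continuous_exp.tendsto _).comp (h1.mul_const _)
    simpa using h2.const_mul (F (σ + t * I))

/-- **contour shift** for functions of exponential type in the strip -/
theorem shift {F : ℂ → ℂ} {σ0 σ1 C B : ℝ} (h01 : σ0 ≤ σ1)
    (hd : ∀ s : ℂ, σ0 ≤ s.re → s.re ≤ σ1 → DifferentiableAt ℂ F s)
    (hb : ∀ s : ℂ, σ0 ≤ s.re → s.re ≤ σ1 → 1 ≤ |s.im| → ‖F s‖ ≤ C * Real.exp (B * |s.im|))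
    (h0 : Integrable fun t : ℝ => F (σ0 + t * I)) (h1 : Integrable fun t : ℝ => F (σ1 + t * I)) :
    ∫ t : ℝ, F (σ0 + t * I) = ∫ t : ℝ, F (σ1 + t * I) := by
  have key : ∀ δ : ℝ, 0 < δ → δ ≤ 1 →
      ∫ t : ℝ, F (σ0 + t * I) * cexp (δ * (σ0 + t * I) ^ 2) =
        ∫ t : ℝ, F (σ1 + t * I) * cexp (δ * (σ1 + t * I) ^ 2) := by
    intro δ hδ hδ1
    have hint : ∀ σ : ℝ, (Integrable fun t : ℝ => F (σ + t * I)) →
        Integrable fun t : ℝ => F (σ + t * I) * cexp (δ * (σ + t * I) ^ 2) := by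
      intro σ h
      refine h.mul_bdd (c := Real.exp (σ ^ 2)) (Continuous.aestronglyMeasurable (by fun_prop))
        (ae_of_all _ fun t => ?_)
      rw [norm_gauss]
      refine Real.exp_le_exp.2 ?_
      simp only [add_re, ofReal_re, mul_re, I_re, mul_zero, ofReal_im, I_im, mul_one, sub_self,
        add_zero, add_im, mul_im, zero_add]
      nlinarith [sq_nonneg σ, sq_nonneg t]
    refine shift_of_decay (F := fun s => F s * cexp (δ * s ^ 2)) h01
      (fun s hs0 hs1 => (hd s hs0 hs1).mul (by fun_prop))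
      (g := fun T => |C| * Real.exp (σ0 ^ 2 + σ1 ^ 2) * Real.exp (B * T - δ * T ^ 2)) ?_ ?_
      (hint σ0 h0) (hint σ1 h1)
    · have h2 : Tendsto (fun T : ℝ => B * T - δ * T ^ 2) atTop atBot := by
        have h3 : Tendsto (fun T : ℝ => T * (B - δ * T)) atTop atBot := by
          refine Tendsto.atTop_mul_atBot₀ tendsto_id ?_
          have := (tendsto_id.const_mul_atTop hδ)
          simpa [sub_eq_add_neg] using
            tendsto_atBot_add_const_left atTop B (tendsto_neg_atTop_atBot.comp this)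
        refine h3.congr fun T => ?_
        ring
      simpa using (Real.tendsto_exp_atBot.comp h2).const_mul (|C| * Real.exp (σ0 ^ 2 + σ1 ^ 2))
    · intro s hs0 hs1 hs
      rw [norm_mul, norm_gauss]
      have h2 := hb s hs0 hs1 hs
      have h3 : s.re ^ 2 ≤ σ0 ^ 2 + σ1 ^ 2 := by
        rcases le_total 0 s.re with h | h
        · nlinarith [sq_nonneg σ0]
        · nlinarith [sq_nonneg σ1]
      have h4 : Real.exp (δ * (s.re ^ 2 - s.im ^ 2)) ≤
          Real.exp (σ0 ^ 2 + σ1 ^ 2) * Real.exp (-(δ * |s.im| ^ 2)) := by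
        rw [← Real.exp_add, sq_abs]
        refine Real.exp_le_exp.2 ?_
        nlinarith [sq_nonneg s.re]
      calc ‖F s‖ * Real.exp (δ * (s.re ^ 2 - s.im ^ 2))
          ≤ (|C| * Real.exp (B * |s.im|)) *
            (Real.exp (σ0 ^ 2 + σ1 ^ 2) * Real.exp (-(δ * |s.im| ^ 2))) := by
            refine mul_le_mul (h2.trans ?_) h4 (by positivity) (by positivity)
            exact mul_le_mul_of_nonneg_right (le_abs_self C) (by positivity)
        _ = _ := by rw [sub_eq_add_neg (B * |s.im|), Real.exp_add (B * |s.im|)]; ring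
  have t0 := tendsto_line σ0 h0
  have t1 := tendsto_line σ1 h1
  refine tendsto_nhds_unique (t0.congr fun n => ?_) t1
  refine key _ (by positivity) ?_
  rw [div_le_one (by positivity)]; linarith [(Nat.cast_nonneg n : (0 : ℝ) ≤ n)]

/-! ### the Gamma function -/

theorem norm_Gamma_le {s : ℂ} (hs : 0 < s.re) : ‖Gamma s‖ ≤ Real.Gamma s.re := by
  rw [Gamma_eq_integral hs, GammaIntegral, Real.Gamma_eq_integral hs]
  refine (norm_integral_le_integral_norm _).trans (le_of_eq ?_)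
  refine setIntegral_congr_fun measurableSet_Ioi fun x hx => ?_
  have hx : (0 : ℝ) < x := hx
  simp only [norm_mul, norm_real, Real.norm_eq_abs, abs_of_pos (Real.exp_pos _),
    norm_cpow_eq_rpow_re_of_pos hx, sub_re, one_re]

theorem exists_Gamma_bound {a b : ℝ} (ha : 0 < a) : ∃ C : ℝ, 0 ≤ C ∧ ∀ s : ℂ, a ≤ s.re → s.re ≤ b →
    ‖Gamma s‖ ≤ C := by
  have hc : ContinuousOn Real.Gamma (Icc a b) := by
    intro x hx
    refine (Real.differentiableAt_Gamma fun m => ?_).continuousAt.continuousWithinAt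
    have : (0 : ℝ) ≤ m := Nat.cast_nonneg m
    intro h
    have := hx.1
    linarith
  obtain ⟨C, hC⟩ := isCompact_Icc.exists_bound_of_continuousOn hc
  refine ⟨|C|, abs_nonneg _, fun s h1 h2 => (norm_Gamma_le (by linarith)).trans ?_⟩
  exact ((le_abs_self _).trans (hC s.re ⟨h1, h2⟩)).trans (le_abs_self C)

theorem norm_sin_le (z : ℂ) : ‖sin z‖ ≤ Real.exp |z.im| := by
  have h1 : ‖cexp (-z * I)‖ ≤ Real.exp |z.im| := by
    rw [norm_exp]; refine Real.exp_le_exp.2 ?_; simpa using le_abs_self z.im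
  have h2 : ‖cexp (z * I)‖ ≤ Real.exp |z.im| := by
    rw [norm_exp]; refine Real.exp_le_exp.2 ?_; simpa using neg_le_abs z.im
  rw [Complex.sin, norm_div, norm_mul, norm_I, mul_one]
  have h3 := norm_sub_le (cexp (-z * I)) (cexp (z * I))
  have h4 : ‖(2 : ℂ)‖ = 2 := by simp
  rw [h4]
  linarith

/-- `1/Γ` is of exponential type in the strip `-1 ≤ Re z ≤ 3` -/
theorem exists_inv_Gamma_bound : ∃ C : ℝ, 0 ≤ C ∧ ∀ z : ℂ, -1 ≤ z.re → z.re ≤ 3 → 1 ≤ |z.im| →
    ‖(Gamma z)⁻¹‖ ≤ C * Real.exp (π * |z.im|) := by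
  obtain ⟨C, hC0, hC⟩ := exists_Gamma_bound (a := 1) (b := 5) one_pos
  refine ⟨C, hC0, fun z h1 h2 h3 => ?_⟩
  have hne : ∀ w : ℂ, |w.im| = |z.im| → w ≠ 0 := by
    intro w hw h0
    rw [h0] at hw
    simp at hw
    linarith
  have hge : ∀ w : ℂ, |w.im| = |z.im| → 1 ≤ ‖w‖ := fun w hw =>
    h3.trans (hw ▸ abs_im_le_norm w)
  have e1 : Gamma (4 - z) = (3 - z) * ((2 - z) * ((1 - z) * Gamma (1 - z))) := by
    rw [show (4 : ℂ) - z = (3 - z) + 1 by ring, Gamma_add_one _ (hne _ (by simp)),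
      show (3 : ℂ) - z = (2 - z) + 1 by ring, Gamma_add_one _ (hne _ (by simp)),
      show (2 : ℂ) - z = (1 - z) + 1 by ring, Gamma_add_one _ (hne _ (by simp))]
  have hG : Gamma z ≠ 0 := by
    refine Gamma_ne_zero fun m hm => ?_
    rw [hm] at h3
    simp at h3
    linarith
  have hG' : Gamma (1 - z) ≠ 0 := by
    refine Gamma_ne_zero fun m hm => ?_
    have := congrArg Complex.im hm
    simp at this
    rw [this] at h3
    simp at h3
    linarith
  have e2 := Gamma_mul_Gamma_one_sub z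
  have hsin : sin (π * z) ≠ 0 := by
    intro h0
    rw [h0, div_zero] at e2
    exact mul_ne_zero hG hG' e2
  have hpi : (π : ℂ) ≠ 0 := by exact_mod_cast Real.pi_ne_zero
  have e3 : (Gamma z)⁻¹ = Gamma (1 - z) * sin (π * z) / π := by
    rw [eq_div_iff hsin] at e2
    rw [eq_div_iff hpi, inv_mul_eq_div, div_eq_iff hG]
    linear_combination -e2
  have h4 : ‖Gamma (1 - z)‖ ≤ C := by
    have h5 : ‖Gamma (4 - z)‖ ≤ C := hC _ (by simp; linarith) (by simp; linarith)
    rw [e1, norm_mul, norm_mul, norm_mul] at h5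
    have a1 := hge (3 - z) (by simp)
    have a2 := hge (2 - z) (by simp)
    have a3 := hge (1 - z) (by simp)
    have a4 := norm_nonneg (Gamma (1 - z))
    refine le_trans ?_ h5
    calc ‖Gamma (1 - z)‖ = 1 * (1 * (1 * ‖Gamma (1 - z)‖)) := by ring
      _ ≤ _ := by gcongr
  have h5 : ‖sin (π * z)‖ ≤ Real.exp (π * |z.im|) := by
    refine (norm_sin_le _).trans (le_of_eq ?_)
    simp [abs_mul, abs_of_pos Real.pi_pos]
  rw [e3, norm_div, norm_mul, norm_real, Real.norm_eq_abs, abs_of_pos Real.pi_pos,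
    div_le_iff₀ Real.pi_pos]
  have h6 : (1 : ℝ) ≤ π := by linarith [Real.pi_gt_three]
  calc ‖Gamma (1 - z)‖ * ‖sin (π * z)‖ ≤ C * Real.exp (π * |z.im|) * 1 := by
        rw [mul_one]; gcongr
    _ ≤ _ := by gcongr

end Vale.Agent.P026Z.Vor
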