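import Vale.Agent.P026Z.Vor.Defs
import Vale.Agent.P026Z.Poi.Defs
import Vale.Agent.P006.CLS.PChar

/-!
P026, block VOR: interfaces. `ThmT` is the output of the block (mean square of the twisted theta
sums over squarefree `h`), `V4Stmt` is the cusp decomposition with the kernel identities.
-/

namespace Vale.Agent.P026Z.Vor

open Vale.Agent.P006 Vale.Agent.P006.SG
open scoped ComplexConjugate

open Classical in
/-- `∑_{k primary} θ(k) N(k)^{1/6} α(k) f(k) conj χ(k) W(N k / X) (N k / X)^{it}` -/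
noncomputable def TT (θ f χ : O → ℂ) (W : ℝ → ℂ) (X t : ℝ) : ℂ :=
  ∑' k : O, if Primary k then cf θ k * alp k * f k * conj (χ k) * Poi.wt W t (N k / X) else 0

/-- the mean square of the twisted theta sums; `chi h k = (k/h)_6` -/
def ThmT (θ : O → ℂ) (chi : O → O → ℂ) : Prop :=
  ∀ W : ℝ → ℂ, Poi.IsWt W → ∀ ε : ℝ, 0 < ε → ∃ (C : ℝ) (A : ℕ), 0 ≤ C ∧
    ∀ (t X Y : ℝ) (M : O) (f : O → O → ℂ) (S : Finset O), 1 ≤ X → 1 ≤ Y → M ≠ 0 →
      (∀ h k, ‖f h k‖ ≤ 1) → (∀ h, V1.Per M (f h)) →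
      (∀ h ∈ S, Primary h ∧ Squarefree h ∧ IsCoprime h (2 * M) ∧ (N h : ℝ) ≤ Y) →
      ∑ h ∈ S, ‖TT θ (f h) (chi h) W X t‖ ^ 2 ≤
        C * (1 + |t|) ^ A * (X * Y * N M) ^ ε * (X * N M * (Y + Y ^ 2 * (N M : ℝ) ^ 2 / X))

open Classical in
/-- the cusp decomposition: for every modulus `M` a set `I` of dual cusps `- d i / c i`, not
depending on `h` and `f`, such that the twisted sum is a combination of sums with a kernel
identity -/
def V4Stmt (θ : O → ℂ) : Prop :=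
  ∃ K : ℝ, ∀ M : O, M ≠ 0 → ∃ (I : Finset O) (c d : O → O), (I.card : ℝ) ≤ K * N M ∧
    (∀ i ∈ I, c i ≠ 0 ∧ (N (c i) : ℝ) ≤ K * N M) ∧
    ∀ (h : O) (χ ρ : O → ℂ), Primary h → IsCoprime h M → CLS.PChar h χ → CLS.PChar h ρ →
      (∀ y, χ y ^ 2 = toC (sym y h)) → (∀ y, ρ y = χ y ^ 3) →
      ∀ f : O → ℂ, V1.Per M f → (∀ x, ‖f x‖ ≤ 1) →
        ∃ (b : O → ℂ) (a : O → O → ℂ), ∑ i ∈ I, ‖b i‖ ^ 2 ≤ K ∧
          (∀ i k, ‖a i k‖ ≤ ‖cf θ k‖) ∧ (∀ i, a i 0 = 0) ∧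
          (∀ g : ℝ → ℂ, (∃ B : ℝ, ∀ x, B < x → g x = 0) →
            (∑' k : O, if Primary k then cf θ k * alp k * f k * conj (χ k) * g (27 * N k) else 0) =
              ∑ i ∈ I, b i * ∑' k : O, a i k * g (N k)) ∧
          ∀ i ∈ I, ∀ U : ℝ, 0 < U →
            ∑' k : O, a i k * (KK (qq * N k / (N (c i) * N h) * U) : ℂ) =
              (U : ℂ)⁻¹ * ∑' k : O, bd θ (c i) (d i) ρ k * (KK (qq * N k / (N (c i) * N h) / U) : ℂ)

end Vale.Agent.P026Z.Vor
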