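import Vale.Agent.P026Z.Vor.Dual
import Vale.Agent.P026Z.Vor.Iface
import Vale.Agent.P026Z.V6.Iface

/-!
P026, block VOR: the mean square of the dual sums (V5) and the theorem `ThmT`.
-/

namespace Vale.Agent.P026Z.Vor

open MeasureTheory Filter Topology Set Complex
open Vale.Agent.P006 Vale.Agent.P006.HB Vale.Agent.P026Z.QLS Vale.Agent.P026Z.TH
open Vale.Agent.P006.SG (qq qq_pos)
open Vale.Agent.P006.KER (Nice)
open scoped Real ContDiff ComplexConjugate

theorem min_le_rpow {r γ : ℝ} (hr : 0 < r) (h0 : 0 ≤ γ) (h2 : γ ≤ 2) : min 1 (r ^ 2) ≤ r ^ γ := by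
  rcases le_total 1 r with h | h
  · exact (min_le_left _ _).trans (Real.one_le_rpow h h0)
  · refine (min_le_right _ _).trans ?_
    have := Real.rpow_le_rpow_of_exponent_ge hr h h2
    rwa [Real.rpow_two] at this

theorem block_real {ε L Y Z : ℝ} (hε : 0 < ε) (hε1 : ε ≤ 1 / 2) (hL : 1 ≤ L) (hY : 1 ≤ Y)
    (hZ : 0 < Z) : (2 * L * Y) ^ ε * (2 * L + Y) * min 1 ((Z / L) ^ 2) ≤
      4 * (Y ^ ε * Z ^ (2 * ε) * (Y + Z)) * L ^ (-ε) := by
  have hL0 : 0 < L := by linarith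
  have hY0 : 0 < Y := by linarith
  have hr : 0 < Z / L := by positivity
  have h1 := min_le_rpow hr (γ := 2 * ε) (by positivity) (by linarith)
  have h2 := min_le_rpow hr (γ := 1 + 2 * ε) (by positivity) (by linarith)
  rw [Real.rpow_add hr, Real.rpow_one] at h2
  have h3 : (2 * L + Y) * min 1 ((Z / L) ^ 2) ≤ 2 * (Y + Z) * (Z / L) ^ (2 * ε) := by
    have h4 : 0 ≤ (Z / L) ^ (2 * ε) := by positivity
    calc (2 * L + Y) * min 1 ((Z / L) ^ 2)
        = 2 * L * min 1 ((Z / L) ^ 2) + Y * min 1 ((Z / L) ^ 2) := by ring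
      _ ≤ 2 * L * (Z / L * (Z / L) ^ (2 * ε)) + Y * (Z / L) ^ (2 * ε) := by gcongr
      _ = (2 * Z + Y) * (Z / L) ^ (2 * ε) := by field_simp
      _ ≤ _ := by gcongr; linarith
  have h5 : (2 : ℝ) ^ ε ≤ 2 := by
    have := Real.rpow_le_rpow_of_exponent_le (show (1 : ℝ) ≤ 2 by norm_num) (show ε ≤ 1 by linarith)
    rwa [Real.rpow_one] at this
  have h6 : L ^ ε * (L ^ (2 * ε))⁻¹ = L ^ (-ε) := by
    rw [← Real.rpow_neg hL0.le, ← Real.rpow_add hL0]
    congr 1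
    ring
  rw [mul_assoc, Real.mul_rpow (by positivity) hY0.le, Real.mul_rpow (by norm_num) hL0.le]
  calc (2 : ℝ) ^ ε * L ^ ε * Y ^ ε * ((2 * L + Y) * min 1 ((Z / L) ^ 2))
      ≤ 2 * L ^ ε * Y ^ ε * (2 * (Y + Z) * (Z / L) ^ (2 * ε)) := by gcongr
    _ = 4 * (Y ^ ε * Z ^ (2 * ε) * (Y + Z)) * (L ^ ε * (L ^ (2 * ε))⁻¹) := by
        rw [Real.div_rpow hZ.le hL0.le]; ring
    _ = _ := by rw [h6]

/-- **V5**: the mean square of the dual sums -/
theorem dual_ms {ρ : O → O → ℂ} {C ε : ℝ} (hC : 0 < C) (hε : 0 < ε) (hε1 : ε ≤ 1 / 2)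
    (hL : LSh ρ C ε) {W : ℝ → ℂ} {a b : ℝ} (H : Nice W a b) : ∃ C' : ℝ, 0 ≤ C' ∧
    ∀ (t0 X Y q0 : ℝ) (S : Finset O) (q : O → ℝ) (β T : O → ℂ), 0 < X → 1 ≤ Y → 0 < q0 →
      (∀ h ∈ S, Od h ∧ (N h : ℝ) ≤ Y ∧ q0 ≤ q h) → (∀ k, ‖β k‖ ≤ cfT k) →
      (∀ h ∈ S, HasSum (fun k : O =>
        β k * ρ h k * What (-1 / 2) (Wsc W t0 (X * q h)) (q h * N k)) (T h)) →
      ∑ h ∈ S, ‖T h‖ ^ 2 ≤ C' * (1 + |t0|) ^ 8 *
        (X * (Y ^ ε * ((X * q0 ^ 2)⁻¹) ^ (2 * ε) * (Y + (X * q0 ^ 2)⁻¹))) := by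
  obtain ⟨C1, hC1, h1⟩ := muL_bound H (σ := 1 / 2) (by norm_num) (fun t =>
    (norm_Gr_half t).trans (one_le_pow₀ (by linarith [abs_nonneg t])))
  obtain ⟨C2, hC2, h2⟩ := muL_bound H (σ := -1 / 2) (by norm_num) norm_Gr_neg_half
  set r : ℝ := (2 : ℝ) ^ (-(ε / 2)) with hr
  have hr0 : 0 < r := by positivity
  have hr1 : r < 1 := Real.rpow_lt_one_of_one_lt_of_neg (by norm_num) (by linarith)
  refine ⟨8 * C * (C1 + C2) ^ 2 * ((1 - r)⁻¹) ^ 2, by positivity, ?_⟩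
  intro t0 X Y q0 S q β T hX hY hq0 hS hβ hT
  set Z : ℝ := (X * q0 ^ 2)⁻¹ with hZ
  have hZ0 : 0 < Z := by positivity
  set A : ℝ := (C1 + C2) * (1 + |t0|) ^ 4 with hA
  have hT4 : 0 < (1 + |t0|) ^ 4 := by positivity
  have hA0 : 0 < A := by positivity
  set Q : ℝ := 8 * C * A ^ 2 * (X * (Y ^ ε * Z ^ (2 * ε) * (Y + Z))) with hQ
  have hY0 : 0 < Y := by linarith
  have hQ0 : 0 < Q := by positivity
  have hβ0 : β 0 = 0 := by
    have := hβ 0
    rw [cfT_zero] at this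
    exact norm_le_zero_iff.1 this
  have key := l2_tsum S (fun h k => β k * ρ h k * What (-1 / 2) (Wsc W t0 (X * q h)) (q h * N k)) T
    hT (fun h => by simp [hβ0]) (fun j => √Q * r ^ j) (fun j => by positivity)
    (E := √Q * (1 - r)⁻¹) (fun J => ?_) (fun j => ?_)
  · refine key.trans (le_of_eq ?_)
    rw [mul_pow, Real.sq_sqrt hQ0.le, hQ, hA]
    ring
  · rw [← Finset.mul_sum]
    refine mul_le_mul_of_nonneg_left ?_ (Real.sqrt_nonneg _)
    rw [← tsum_geometric_of_lt_one hr0.le hr1]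
    exact (summable_geometric_of_lt_one hr0.le hr1).sum_le_tsum _ fun j _ => by positivity
  · set L : ℝ := 2 ^ j with hLdef
    have hL1 : 1 ≤ L := one_le_pow₀ (by norm_num)
    have hL0 : 0 < L := by linarith
    have b1 := block_bound hC hL (σ := 1 / 2) (A := A) le_rfl (h1 t0).1
      ((h1 t0).2.trans (by rw [hA]; gcongr; linarith)) hX hY hq0 S q hS β hβ j
    have b2 := block_bound hC hL (σ := -1 / 2) (A := A) (by norm_num) (h2 t0).1
      ((h2 t0).2.trans (by rw [hA]; gcongr; linarith)) hX hY hq0 S q hS β hβ j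
    rw [← hLdef] at b1 b2
    have e1 : ∀ h ∈ S, ∑ k ∈ blk j, β k * ρ h k * What (1 / 2) (Wsc W t0 (X * q h)) (q h * N k) =
        ∑ k ∈ blk j, β k * ρ h k * What (-1 / 2) (Wsc W t0 (X * q h)) (q h * N k) := by
      intro h hh
      have hq : 0 < q h := hq0.trans_le (hS h hh).2.2
      refine Finset.sum_congr rfl fun k hk => ?_
      have hN : (0 : ℝ) < N k := hL0.trans_le (blk_bounds hk).1
      rw [What_shift (nice_Wsc H t0 (mul_pos hX hq)) (mul_pos hq hN)]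
    rw [Finset.sum_congr rfl fun h hh => by rw [e1 h hh]] at b1
    have f1 : (X ^ (1 / 2 : ℝ) * q0 ^ (2 * (1 / 2 : ℝ) - 1) * L ^ ((1 / 2 : ℝ) - 1)) ^ 2 =
        X / L := by
      rw [show 2 * (1 / 2 : ℝ) - 1 = 0 by norm_num, Real.rpow_zero, mul_one, mul_pow,
        ← Real.rpow_natCast, ← Real.rpow_natCast, ← Real.rpow_mul hX.le, ← Real.rpow_mul hL0.le]
      norm_num
      rw [Real.rpow_neg_one, div_eq_mul_inv]
    have f2 : (X ^ (-1 / 2 : ℝ) * q0 ^ (2 * (-1 / 2 : ℝ) - 1) * L ^ ((-1 / 2 : ℝ) - 1)) ^ 2 =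
        X / L * (Z / L) ^ 2 := by
      rw [mul_pow, mul_pow, ← Real.rpow_natCast, ← Real.rpow_natCast, ← Real.rpow_natCast (L ^ _),
        ← Real.rpow_mul hX.le, ← Real.rpow_mul hL0.le, ← Real.rpow_mul hq0.le,
        show (-1 / 2 : ℝ) * (2 : ℕ) = -((1 : ℕ) : ℝ) by norm_num,
        show (2 * (-1 / 2 : ℝ) - 1) * (2 : ℕ) = -((4 : ℕ) : ℝ) by norm_num,
        show ((-1 / 2 : ℝ) - 1) * (2 : ℕ) = -((3 : ℕ) : ℝ) by norm_num,
        Real.rpow_neg hX.le, Real.rpow_neg hq0.le, Real.rpow_neg hL0.le, Real.rpow_natCast,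
        Real.rpow_natCast, Real.rpow_natCast, hZ]
      field_simp
    rw [f1] at b1
    rw [f2] at b2
    have b3 : ∑ h ∈ S, ‖∑ k ∈ blk j, β k * ρ h k *
        What (-1 / 2) (Wsc W t0 (X * q h)) (q h * N k)‖ ^ 2 ≤
        2 * C * A ^ 2 * X * ((2 * L * Y) ^ ε * (2 * L + Y) * min 1 ((Z / L) ^ 2)) := by
      rcases min_choice 1 ((Z / L) ^ 2) with h | h
      · rw [h]
        refine b1.trans (le_of_eq ?_)
        field_simp
      · rw [h]
        refine b2.trans (le_of_eq ?_)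
        field_simp
    have f3 : (r ^ j) ^ 2 = L ^ (-ε) := by
      rw [hr, hLdef, ← pow_mul, ← Real.rpow_natCast, ← Real.rpow_natCast,
        ← Real.rpow_mul (by norm_num), ← Real.rpow_mul (by norm_num)]
      congr 1
      push_cast
      ring
    refine b3.trans ?_
    rw [mul_pow √Q, Real.sq_sqrt hQ0.le, f3, hQ]
    calc 2 * C * A ^ 2 * X * ((2 * L * Y) ^ ε * (2 * L + Y) * min 1 ((Z / L) ^ 2))
        ≤ 2 * C * A ^ 2 * X * (4 * (Y ^ ε * Z ^ (2 * ε) * (Y + Z)) * L ^ (-ε)) :=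
          mul_le_mul_of_nonneg_left (block_real hε hε1 hL1 hY hZ0) (by positivity)
      _ = _ := by ring

theorem norm_cf_eq (k : O) : ‖cf th k‖ = cfT k := by
  rw [cf, cfT, norm_mul, norm_real, Real.norm_of_nonneg (by positivity)]

/-- the data of a series with theta-shaped coefficients -/
theorem dat_of_le {a : O → ℂ} (ha : ∀ k, ‖a k‖ ≤ cfT k) {q : ℝ} (hq : 0 < q) :
    Dat a (fun k => q * max 1 (N k : ℝ)) q where
  m_pos := hq
  le := fun k => le_mul_of_one_le_right hq.le (le_max_left _ _)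
  summ := by
    refine Summable.of_nonneg_of_le (fun k => by positivity) (fun k => ?_)
      ((summable_cfT (s := 3 / 2) (by norm_num)).mul_left (q ^ (-(3 / 2) : ℝ)))
    by_cases hk : k = 0
    · subst hk
      have h0 := ha 0
      rw [cfT_zero] at h0 ⊢
      rw [le_antisymm h0 (norm_nonneg _)]
      simp
    · have hN : (1 : ℝ) ≤ N k := by exact_mod_cast N_pos hk
      rw [max_eq_right hN, Real.mul_rpow hq.le (by linarith)]
      calc ‖a k‖ * (q ^ (-(3 / 2) : ℝ) * (N k : ℝ) ^ (-(3 / 2) : ℝ))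
          ≤ cfT k * (q ^ (-(3 / 2) : ℝ) * (N k : ℝ) ^ (-(3 / 2) : ℝ)) := by
            gcongr
            exact ha k
        _ = _ := by ring

theorem mul_max_eq {a : O → ℂ} (ha : ∀ k, ‖a k‖ ≤ cfT k) (F : ℝ → ℂ) (k : O) :
    a k * F (max 1 (N k : ℝ)) = a k * F (N k) := by
  by_cases hk : k = 0
  · subst hk
    have h0 := ha 0
    rw [cfT_zero] at h0
    rw [norm_le_zero_iff.1 h0, zero_mul, zero_mul]
  · have hN : (1 : ℝ) ≤ N k := by exact_mod_cast N_pos hk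
    rw [max_eq_right hN]

/-- Voronoi summation for theta-shaped coefficients -/
theorem voronoi_O {a b : O → ℂ} (ha : ∀ k, ‖a k‖ ≤ cfT k) (hb : ∀ k, ‖b k‖ ≤ cfT k) {q : ℝ}
    (hq : 0 < q) (hfe : ∀ U : ℝ, 0 < U → ∑' k : O, a k * (KK (q * N k * U) : ℂ) =
      (U : ℂ)⁻¹ * ∑' k : O, b k * (KK (q * N k / U) : ℂ))
    {W : ℝ → ℂ} {α β : ℝ} (H : Nice W α β) :
    HasSum (fun k : O => b k * What (-1 / 2) W (q * N k)) (∑' k : O, a k * W (q * N k)) := by
  have : Countable O := H9.countable_O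
  have h := voronoi (dat_of_le ha hq) (dat_of_le hb hq) (fun u hu => by
    have e1 : Phi a (fun k => q * max 1 (N k : ℝ)) u = ∑' k : O, a k * (KK (q * N k * u) : ℂ) :=
      tsum_congr fun k => mul_max_eq ha (fun x => Kc (q * x * u)) k
    have e2 : Phi b (fun k => q * max 1 (N k : ℝ)) u⁻¹ = ∑' k : O, b k * (KK (q * N k / u) : ℂ) :=
      tsum_congr fun k => mul_max_eq hb (fun x => Kc (q * x * u⁻¹)) k
    rw [e1, e2, hfe u hu]) H
  have e3 : (fun k : O => b k * What (-1 / 2) W (q * max 1 (N k : ℝ))) =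
      fun k : O => b k * What (-1 / 2) W (q * N k) :=
    funext fun k => mul_max_eq hb (fun x => What (-1 / 2) W (q * x)) k
  have e4 : (∑' k : O, a k * W (q * max 1 (N k : ℝ))) = ∑' k : O, a k * W (q * N k) :=
    tsum_congr fun k => mul_max_eq ha (fun x => W (q * x)) k
  rwa [e3, e4] at h

theorem nice_of_isWt {W : ℝ → ℂ} (hW : Poi.IsWt W) : ∃ a b : ℝ, Nice W a b := by
  obtain ⟨h1, a, b, ha, hab⟩ := hW
  refine ⟨a, max a b, h1, ha, le_max_left _ _, fun x hx => ?_⟩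
  by_contra hne
  exact hx ⟨(hab x hne).1, (hab x hne).2.trans (le_max_right _ _)⟩

/-- the properties of the sextic and quadratic symbols used in this block -/
def SymHyp (chi rho : O → O → ℂ) : Prop :=
  ∀ h : O, Primary h → Squarefree h → IsCoprime h 2 →
    CLS.PChar h (chi h) ∧ CLS.PChar h (rho h) ∧ (∀ y, chi h y ^ 2 = toC (sym y h)) ∧
      ∀ y, rho h y = chi h y ^ 3

theorem isCoprime_two_of_od {n : O} (h : Od n) : IsCoprime n 2 := by
  have hp : Prime (2 : O) := by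
    have h1 : N (2 : O) = 4 := by decide
    refine ⟨by decide, by rw [isUnit_iff_N, h1]; decide, ?_⟩
    intro x y hxy
    have hd : ∀ z : O, (2 : O) ∣ z ↔ (2 : ℤ) ∣ z.re ∧ (2 : ℤ) ∣ z.im := by
      intro z
      constructor
      · rintro ⟨w, rfl⟩
        have e1 : (2 : O).re = 2 := rfl
        have e2 : (2 : O).im = 0 := rfl
        constructor
        · simp [QuadraticAlgebra.re_mul, e1, e2]
        · simp [QuadraticAlgebra.im_mul, e1, e2]
      · rintro ⟨⟨u, hu⟩, ⟨v, hv⟩⟩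
        refine ⟨⟨u, v⟩, ?_⟩
        have e1 : (2 : O).re = 2 := rfl
        have e2 : (2 : O).im = 0 := rfl
        ext
        · simp [QuadraticAlgebra.re_mul, e1, e2, hu]
        · simp [QuadraticAlgebra.im_mul, e1, e2, hv]
    simp only [hd, QuadraticAlgebra.re_mul, QuadraticAlgebra.im_mul] at hxy ⊢
    obtain ⟨h2, h3⟩ := hxy
    rcases Int.emod_two_eq_zero_or_one x.re with a1 | a1 <;>
    rcases Int.emod_two_eq_zero_or_one x.im with a2 | a2 <;>
    rcases Int.emod_two_eq_zero_or_one y.re with a3 | a3 <;>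
    rcases Int.emod_two_eq_zero_or_one y.im with a4 | a4 <;>
    simp [Int.dvd_iff_emod_eq_zero, Int.add_emod, Int.mul_emod, Int.neg_emod_two,
      a1, a2, a3, a4] at h2 h3 ⊢
  exact ((hp.coprime_iff_not_dvd).2 h.2.2).symm

theorem od_of {h M : O} (h1 : Primary h) (h2 : Squarefree h) (h3 : IsCoprime h (2 * M)) : Od h := by
  refine ⟨h1, h2, fun h4 => ?_⟩
  have h5 : IsUnit (2 : O) := h3.of_mul_right_left.isUnit_of_dvd' h4 dvd_rfl
  rw [isUnit_iff_N] at h5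
  revert h5
  decide

theorem final_real {ε ε' X Y m n K : ℝ} (hε' : 0 < ε') (h1 : ε' ≤ 1 / 2) (h5 : 5 * ε' ≤ ε)
    (hX : 1 ≤ X) (hY : 1 ≤ Y) (hm : 1 ≤ m) (hn : 0 < n) (hK : 1 ≤ K) (hnm : n ≤ K * m) :
    27 * X * (Y ^ ε' * ((27 * X * (qq / (n * Y)) ^ 2)⁻¹) ^ (2 * ε') *
      (Y + (27 * X * (qq / (n * Y)) ^ 2)⁻¹)) ≤
      27 * (K ^ 2 / qq ^ 2 + 1) ^ 2 * ((X * Y * m) ^ ε * (X * (Y + Y ^ 2 * m ^ 2 / X))) := by
  have hq := qq_pos
  have hX0 : 0 < X := by linarith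
  have hY0 : 0 < Y := by linarith
  have hm0 : 0 < m := by linarith
  set κ : ℝ := K ^ 2 / qq ^ 2 + 1 with hκ
  have hκ0 : 0 ≤ K ^ 2 / qq ^ 2 := by positivity
  have hκ1 : 1 ≤ κ := by linarith
  set Z : ℝ := (27 * X * (qq / (n * Y)) ^ 2)⁻¹ with hZ
  have hZ0 : 0 < Z := by positivity
  have hZ1 : Z ≤ κ * (Y ^ 2 * m ^ 2 / X) := by
    have e : Z = n ^ 2 / qq ^ 2 / 27 * (Y ^ 2 / X) := by rw [hZ]; field_simp
    rw [e]
    calc n ^ 2 / qq ^ 2 / 27 * (Y ^ 2 / X) ≤ (K * m) ^ 2 / qq ^ 2 / 1 * (Y ^ 2 / X) := by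
          gcongr; norm_num
      _ = K ^ 2 / qq ^ 2 * (Y ^ 2 * m ^ 2 / X) := by ring
      _ ≤ _ := by gcongr; linarith
  set P : ℝ := X * Y * m with hP
  have hP1 : 1 ≤ P := one_le_mul_of_one_le_of_one_le (one_le_mul_of_one_le_of_one_le hX hY) hm
  have hYP : Y ≤ P := by
    calc Y = 1 * Y * 1 := by ring
      _ ≤ X * Y * m := by gcongr
  have hZ2 : Z ≤ κ * P ^ 2 := by
    refine hZ1.trans (mul_le_mul_of_nonneg_left ?_ (by linarith))
    calc Y ^ 2 * m ^ 2 / X ≤ Y ^ 2 * m ^ 2 / 1 := by gcongr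
      _ = (1 * Y * m) ^ 2 := by ring
      _ ≤ (X * Y * m) ^ 2 := by gcongr
  have h2 : Z ^ (2 * ε') ≤ κ * P ^ (4 * ε') := by
    calc Z ^ (2 * ε') ≤ (κ * P ^ 2) ^ (2 * ε') := by gcongr
      _ = κ ^ (2 * ε') * P ^ (4 * ε') := by
          rw [Real.mul_rpow (by linarith) (by positivity), ← Real.rpow_natCast,
            ← Real.rpow_mul (by linarith)]
          congr 2
          push_cast
          ring
      _ ≤ κ ^ (1 : ℝ) * P ^ (4 * ε') := by
          gcongr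
          linarith
      _ = _ := by rw [Real.rpow_one]
  have h3 : Y ^ ε' * Z ^ (2 * ε') ≤ κ * P ^ ε := by
    calc Y ^ ε' * Z ^ (2 * ε') ≤ P ^ ε' * (κ * P ^ (4 * ε')) := by gcongr
      _ = κ * P ^ (5 * ε') := by
          rw [show 5 * ε' = ε' + 4 * ε' by ring, Real.rpow_add (by linarith)]; ring
      _ ≤ κ * P ^ ε := by gcongr
  have h4 : Y + Z ≤ κ * (Y + Y ^ 2 * m ^ 2 / X) := by
    have : Y ≤ κ * Y := le_mul_of_one_le_left hY0.le hκ1
    rw [mul_add]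
    linarith
  calc 27 * X * (Y ^ ε' * Z ^ (2 * ε') * (Y + Z))
      ≤ 27 * X * (κ * P ^ ε * (κ * (Y + Y ^ 2 * m ^ 2 / X))) := by gcongr
    _ = _ := by ring

/-- **the mean square of the twisted theta sums** -/
theorem thmT_of {chi rho : O → O → ℂ} (h4 : V4Stmt th) (hQ : QLSmod rho) (hS : SymHyp chi rho) :
    V6.ThmT (fun k => cf th k * alp k) chi := by
  classical
  intro W hW ε hε
  obtain ⟨a, b, H⟩ := nice_of_isWt hW
  obtain ⟨K0, hK0⟩ := h4
  set K : ℝ := max K0 1 with hKdef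
  have hK1 : 1 ≤ K := le_max_right _ _
  have hKK : K0 ≤ K := le_max_left _ _
  set ε' : ℝ := min (ε / 5) (1 / 2) with hε'
  have hε0 : 0 < ε' := lt_min (by positivity) (by norm_num)
  have hPr : ∀ n : O, Od n → CLS.PChar n (rho n) := fun n hn =>
    (hS n hn.1 hn.2.1 (isCoprime_two_of_od hn)).2.1
  obtain ⟨C, hC, hL⟩ := shape_ls hQ (fun n x y hn => (hPr n hn).mul x y)
    (fun n x hn => (hPr n hn).norm_le x) hε0
  obtain ⟨C', hC', hD⟩ := dual_ms hC hε0 (min_le_right _ _) hL H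
  refine ⟨K * K * (C' * (27 * (K ^ 2 / qq ^ 2 + 1) ^ 2)), 8, ?_⟩
  intro t X Y M f S hX hY hM hf1 hf2 hSS
  have hX0 : 0 < X := by linarith
  have hY0 : 0 < Y := by linarith
  have hq := qq_pos
  have hm : (1 : ℝ) ≤ N M := by exact_mod_cast N_pos hM
  obtain ⟨I, c, d, hI, hc, hV⟩ := hK0 M hM
  have hV' := fun (h : O) (hh : h ∈ S) =>
    hV h (chi h) (rho h) (hSS h hh).1 (hSS h hh).2.2.1.of_mul_right_right
      (hS h (hSS h hh).1 (hSS h hh).2.1 (hSS h hh).2.2.1.of_mul_right_left).1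
      (hS h (hSS h hh).1 (hSS h hh).2.1 (hSS h hh).2.2.1.of_mul_right_left).2.1
      (hS h (hSS h hh).1 (hSS h hh).2.1 (hSS h hh).2.2.1.of_mul_right_left).2.2.1
      (hS h (hSS h hh).1 (hSS h hh).2.1 (hSS h hh).2.2.1.of_mul_right_left).2.2.2
      (f h) (hf2 h) (hf1 h)
  choose! bb aa hb ha _ hsum hker using hV'
  set q : O → O → ℝ := fun i h => qq / (N (c i) * N h) with hqdef
  set T : O → O → ℂ := fun i h => ∑' k : O, aa h i k * Wsc W t (27 * X * q i h) (q i h * N k)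
    with hT
  have hNh : ∀ h ∈ S, (0 : ℝ) < N h := fun h hh => by
    exact_mod_cast N_pos (hSS h hh).1.ne_zero
  have hNc : ∀ i ∈ I, (0 : ℝ) < N (c i) := fun i hi => by exact_mod_cast N_pos (hc i hi).1
  have hqpos : ∀ i ∈ I, ∀ h ∈ S, 0 < q i h := fun i hi h hh => by
    have := hNh h hh
    have := hNc i hi
    simp only [hqdef]
    positivity
  -- the decomposition
  have e1 : ∀ h ∈ S, V6.Csum (fun k => cf th k * alp k) (f h) (chi h) W X t =
      ∑ i ∈ I, bb h i * T i h := by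
    intro h hh
    have h1 := hsum h hh (fun x => Poi.wt W t (x / (27 * X))) ⟨27 * X * b, fun x hx => by
      have : W (x / (27 * X)) = 0 := H.supp _ fun h2 => by
        have h3 := h2.2
        rw [div_le_iff₀ (by positivity)] at h3
        linarith
      rw [Poi.wt, this, zero_mul]⟩
    rw [V6.Csum]
    have e2 : ∀ k : O, (27 * (N k : ℝ)) / (27 * X) = N k / X := fun k => by field_simp
    simp only [e2] at h1
    rw [h1]
    refine Finset.sum_congr rfl fun i hi => ?_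
    congr 1
    refine tsum_congr fun k => ?_
    have := hqpos i hi h hh
    rw [Wsc]
    congr 2
    field_simp
  -- the mean square for one cusp
  have e2 : ∀ i ∈ I, ∑ h ∈ S, ‖T i h‖ ^ 2 ≤ C' * (1 + |t|) ^ 8 * (27 * (K ^ 2 / qq ^ 2 + 1) ^ 2 *
      ((X * Y * N M) ^ ε * (X * (Y + Y ^ 2 * (N M : ℝ) ^ 2 / X)))) := by
    intro i hi
    have hn := hNc i hi
    have h1 := hD t (27 * X) Y (qq / (N (c i) * Y)) S (q i)
      (fun k => cf th k * conj (alp k) * PO.eT (-(nu k * (toC (d i) / toC (c i))))) (T i)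
      (by positivity) hY (by positivity) (fun h hh => ⟨od_of (hSS h hh).1 (hSS h hh).2.1
        (hSS h hh).2.2.1, (hSS h hh).2.2.2, by
          have := hNh h hh
          simp only [hqdef]
          gcongr
          exact (hSS h hh).2.2.2⟩) (fun k => by
        have h2 := norm_bd_le th (c i) (d i) (ρ := fun _ => 1) (fun _ => by simp) k
        rw [bd, mul_one, norm_cf_eq] at h2
        exact h2) (fun h hh => by
        have hr : ∀ k, ‖rho h k‖ ≤ 1 := (hPr h (od_of (hSS h hh).1 (hSS h hh).2.1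
          (hSS h hh).2.2.1)).norm_le
        refine voronoi_O (b := bd th (c i) (d i) (rho h)) (fun k => norm_cf_eq k ▸ ha h hh i k)
          (fun k => norm_cf_eq k ▸ norm_bd_le th (c i) (d i) hr k) (hqpos i hi h hh)
          (fun U hU => ?_) (nice_Wsc H t (mul_pos (by positivity) (hqpos i hi h hh)))
        have e3 : ∀ k : O, q i h * N k = qq * N k / (N (c i) * N h) := fun k => by
          simp only [hqdef]; ring
        simp only [e3]
        exact hker h hh i hi U hU)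
    refine h1.trans (mul_le_mul_of_nonneg_left ?_ (by positivity))
    exact final_real hε0 (min_le_right _ _) (by have := min_le_left (ε / 5) (1 / 2); linarith)
      hX hY hm hn hK1 ((hc i hi).2.trans (by gcongr))
  have e3 : ∀ h ∈ S, ‖V6.Csum (fun k => cf th k * alp k) (f h) (chi h) W X t‖ ^ 2 ≤
      K * ∑ i ∈ I, ‖T i h‖ ^ 2 := by
    intro h hh
    rw [e1 h hh]
    calc ‖∑ i ∈ I, bb h i * T i h‖ ^ 2 ≤ (∑ i ∈ I, ‖bb h i‖ * ‖T i h‖) ^ 2 := by
          gcongr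
          refine (norm_sum_le _ _).trans (le_of_eq ?_)
          simp only [norm_mul]
      _ ≤ (∑ i ∈ I, ‖bb h i‖ ^ 2) * ∑ i ∈ I, ‖T i h‖ ^ 2 := Finset.sum_mul_sq_le_sq_mul_sq _ _ _
      _ ≤ _ := by
          gcongr
          exact (hb h hh).trans hKK
  set B : ℝ := C' * (1 + |t|) ^ 8 * (27 * (K ^ 2 / qq ^ 2 + 1) ^ 2 *
      ((X * Y * N M) ^ ε * (X * (Y + Y ^ 2 * (N M : ℝ) ^ 2 / X)))) with hB
  have hB0 : 0 ≤ B := by positivity
  calc ∑ h ∈ S, ‖V6.Csum (fun k => cf th k * alp k) (f h) (chi h) W X t‖ ^ 2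
      ≤ ∑ h ∈ S, K * ∑ i ∈ I, ‖T i h‖ ^ 2 := Finset.sum_le_sum e3
    _ = K * ∑ i ∈ I, ∑ h ∈ S, ‖T i h‖ ^ 2 := by rw [← Finset.mul_sum, Finset.sum_comm]
    _ ≤ K * ∑ i ∈ I, B := by gcongr with i hi; exact e2 i hi
    _ = K * (I.card * B) := by rw [Finset.sum_const, nsmul_eq_mul]
    _ ≤ K * (K * N M * B) := by
        gcongr
        exact hI.trans (by gcongr)
    _ = _ := by rw [hB]; ring

end Vale.Agent.P026Z.Vor
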