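import Vale.Agent.P026Z.Vor.Defs
import Mathlib.Analysis.Calculus.DSlope
import Mathlib.Analysis.Normed.Group.Tannery

/-!
P026, block VOR (V2): the horizontal derivative of the automorphy relation of the cubic theta
function, by symmetric differences.
-/

open Filter Topology Set
open scoped Real

namespace Vale.Agent.P026Z.Vor

open Vale.Agent.P006 Vale.Agent.P006.PO Vale.Agent.P006.SG Vale.Agent.P006.H9

theorem norm_nu_le (k : O) : ‖nu k‖ ≤ N k := by
  by_cases hk : k = 0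
  · simp [hk, nu]
  have h1 : (1 : ℝ) ≤ √(N k) := sqrt_N_one_le hk
  have h3 : (1 : ℝ) ≤ √3 := by rw [Real.one_le_sqrt]; norm_num
  rw [nu, norm_div, norm_mul, norm_toC_rt3, norm_toC]
  have h4 : ‖(3 : ℂ)‖ = 3 := by norm_num
  rw [h4, div_le_iff₀ (by positivity)]
  have h5 : √(N k : ℝ) * √(N k : ℝ) = N k := Real.mul_self_sqrt (Nat.cast_nonneg _)
  nlinarith

@[simp] theorem nu_zero : nu 0 = 0 := by simp [nu]

theorem abs_TrC_le (z : ℂ) : |TrC z| ≤ 2 * ‖z‖ := by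
  rw [TrC, abs_mul]
  have := Complex.abs_re_le_norm z
  norm_num
  exact this

theorem norm_e_sub_one_le (y : ℝ) : ‖e y - 1‖ ≤ 2 * π * |y| := by
  have h := Real.norm_exp_I_mul_ofReal_sub_one_le (x := 2 * π * y)
  have e1 : e y = Complex.exp (Complex.I * ((2 * π * y : ℝ) : ℂ)) := by
    rw [e]; congr 1; push_cast; ring
  rw [e1]
  refine h.trans (le_of_eq ?_)
  rw [Real.norm_eq_abs, abs_mul, abs_of_pos (by positivity : (0 : ℝ) < 2 * π)]

theorem norm_e_symm_le (y : ℝ) : ‖e y - e (-y)‖ ≤ 4 * π * |y| := by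
  have h1 := norm_e_sub_one_le y
  have h2 := norm_e_sub_one_le (-y)
  rw [abs_neg] at h2
  calc ‖e y - e (-y)‖ = ‖(e y - 1) - (e (-y) - 1)‖ := by congr 1; ring
    _ ≤ ‖e y - 1‖ + ‖e (-y) - 1‖ := norm_sub_le _ _
    _ ≤ _ := by linarith

theorem hasDerivAt_e_symm : HasDerivAt (fun y : ℝ => e y - e (-y)) (4 * π * Complex.I) 0 := by
  have h1 : ∀ c : ℂ, HasDerivAt (fun y : ℝ => Complex.exp (c * y)) c 0 := by
    intro c
    have h := ((Complex.ofRealCLM.hasDerivAt (x := (0 : ℝ))).const_mul c).cexp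
    simpa using h
  have h2 := (h1 (2 * π * Complex.I)).sub (h1 (-(2 * π * Complex.I)))
  have e1 : (fun y : ℝ => e y - e (-y)) = fun y : ℝ => Complex.exp (2 * π * Complex.I * y) -
      Complex.exp (-(2 * π * Complex.I) * y) := by
    funext y
    rw [e, e]
    congr 2
    push_cast; ring
  rw [e1]
  have e2 : (4 * π * Complex.I : ℂ) = 2 * π * Complex.I - -(2 * π * Complex.I) := by ring
  rw [e2]
  exact h2

theorem tendsto_e_symm {T : ℝ → ℝ} {T₀ : ℝ} (hT : Tendsto T (𝓝[≠] 0) (𝓝 T₀)) :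
    Tendsto (fun s : ℝ => (e (s * T s) - e (-(s * T s))) / (s : ℂ)) (𝓝[≠] 0)
      (𝓝 (4 * π * Complex.I * T₀)) := by
  set φ : ℝ → ℂ := fun y => e y - e (-y) with hφ
  have hd : HasDerivAt φ (4 * π * Complex.I) 0 := hasDerivAt_e_symm
  have hc : ContinuousAt (dslope φ 0) 0 := continuousAt_dslope_same.2 hd.differentiableAt
  have h0 : dslope φ 0 0 = 4 * π * Complex.I := by rw [dslope_same, hd.deriv]
  have hs : Tendsto (fun s : ℝ => s * T s) (𝓝[≠] 0) (𝓝 0) := by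
    have h1 : Tendsto (fun s : ℝ => s) (𝓝[≠] (0 : ℝ)) (𝓝 0) := tendsto_nhdsWithin_of_tendsto_nhds
      tendsto_id
    simpa using h1.mul hT
  have h1 : Tendsto (fun s : ℝ => dslope φ 0 (s * T s)) (𝓝[≠] 0) (𝓝 (4 * π * Complex.I)) := by
    rw [← h0]; exact hc.tendsto.comp hs
  have h2 : Tendsto (fun s : ℝ => ((T s : ℝ) : ℂ)) (𝓝[≠] 0) (𝓝 (T₀ : ℂ)) :=
    (Complex.continuous_ofReal.tendsto T₀).comp hT
  refine (h1.mul h2).congr' ?_
  filter_upwards [self_mem_nhdsWithin] with s hs0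
  have hs0 : (s : ℂ) ≠ 0 := by exact_mod_cast hs0
  have h3 := sub_smul_dslope φ 0 (s * T s)
  have h4 : φ 0 = 0 := by simp [hφ]
  rw [h4, sub_zero, sub_zero, Complex.real_smul] at h3
  show _ = φ (s * T s) / s
  rw [← h3]
  push_cast
  field_simp

section
variable {θ : O → ℂ} {C : ℝ} {A : ℕ} {δ : ℝ} {c₀ : ℝ}

/-- automorphy of the theta function under `Γ(3)` -/
theorem ThH_aut (hθ : SharpHyp θ C A δ) (hδ : 0 < δ) (hδ1 : δ < 1 / 3) (h0 : ConstHyp c₀)
    {g : Matrix.SpecialLinearGroup (Fin 2) O} (hg : g ∈ KU.Gamma3 O) (w : H3) :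
    ThH c₀ θ (g • w) = (starRingEnd ℂ) (toC (sym (g 1 0) (g 1 1))) * ThH c₀ θ w := by
  have h1 := tendsto_E_S hθ hδ hδ1 h0 (g • w)
  have h2 := (tendsto_E_S hθ hδ hδ1 h0 w).const_mul (chiOf R1.eta g)
  have hg' : KU.Smat O * g * (KU.Smat O)⁻¹ ∈ Gam 1 := Gamma3_le_Gam_one (conj_mem_Gamma3 hg _)
  have h3 : ∀ X : ℝ, E 1 R1.eta (fX X) (KU.Smat O • g • w) / lX X =
      chiOf R1.eta g * (E 1 R1.eta (fX X) (KU.Smat O • w) / lX X) := by
    intro X
    have h4 := E_aut R1.rowChar_eta 1 (fX X) _ hg' (KU.Smat O • w)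
    rw [R1.chiOf_eta_S g hg, smul_smul, inv_mul_cancel_right, mul_smul] at h4
    rw [h4, mul_div_assoc]
  simp only [h3] at h1
  exact tendsto_nhds_unique h1 h2

theorem continuousAt_Tk (θ : O → ℂ) (k : O) {v : ℝ} (hv : 0 < v) :
    ContinuousAt (fun v => Tk θ v k) v := by
  unfold Tk
  refine continuousAt_const.mul (Complex.continuous_ofReal.continuousAt.comp ?_)
  refine (Real.continuousAt_rpow_const _ _ (Or.inl hv.ne')).mul ?_
  have h1 : ContinuousOn (fun v : ℝ => G ((aa * √(N k) * v) ^ 2)) univ :=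
    continuousOn_G.comp (by fun_prop) fun p _ => show (0 : ℝ) ≤ _ by positivity
  exact h1.continuousAt univ_mem

theorem summable_Tk_nu (hθ : SharpHyp θ C A δ) {v : ℝ} (hv : 0 < v) :
    Summable fun k : O => ‖Tk θ v k‖ * ‖nu k‖ := by
  obtain ⟨K, hK0, hK⟩ := norm_Tk_le hθ
  have ha := aa_pos
  have h1 := (summable_pow_exp_sqrt (A + 1) (show 0 < aa * v by positivity)).mul_left
    (K * v ^ (2 / 3 : ℝ))
  refine Summable.of_nonneg_of_le (fun _ => by positivity) (fun k => ?_) h1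
  by_cases hk : k = 0
  · subst hk
    rw [nu_zero, norm_zero, mul_zero]; positivity
  · calc ‖Tk θ v k‖ * ‖nu k‖
        ≤ K * v ^ (2 / 3 : ℝ) * ((N k : ℝ) ^ A * Real.exp (-(aa * v * √(N k)))) * N k :=
          mul_le_mul (hK v v k hv le_rfl hk) (norm_nu_le k) (norm_nonneg _) (by positivity)
      _ = _ := by ring

/-- the limit of the symmetric difference quotients -/
theorem tendsto_symm (hθ : SharpHyp θ C A δ) (c₀ : ℝ) (x : ℂ) {v₀ : ℝ} (hv₀ : 0 < v₀) {ξ₀ : ℂ}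
    {v : ℝ → ℝ} {ξ : ℝ → ℂ} (hv : Tendsto v (𝓝[≠] 0) (𝓝 v₀)) (hξ : Tendsto ξ (𝓝[≠] 0) (𝓝 ξ₀)) :
    Tendsto (fun s : ℝ => (Th c₀ θ (x + s * ξ s) (v s) - Th c₀ θ (x - s * ξ s) (v s)) / (s : ℂ))
      (𝓝[≠] 0) (𝓝 (∑' k : O, Tk θ v₀ k * eT (x * nu k) * (4 * π * Complex.I * TrC (ξ₀ * nu k)))) := by
  obtain ⟨K, hK0, hK⟩ := norm_Tk_le hθ
  have ha := aa_pos
  have hπ := Real.pi_pos
  set f : ℝ → O → ℂ := fun s k => Tk θ (v s) k * eT (x * nu k) *
    ((e (s * TrC (ξ s * nu k)) - e (-(s * TrC (ξ s * nu k)))) / (s : ℂ)) with hf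
  have hv1 : ∀ᶠ s in 𝓝[≠] (0 : ℝ), v₀ / 2 < v s := hv.eventually (lt_mem_nhds (by linarith))
  have hv2 : ∀ᶠ s in 𝓝[≠] (0 : ℝ), v s < 2 * v₀ := hv.eventually (gt_mem_nhds (by linarith))
  have hξ1 : ∀ᶠ s in 𝓝[≠] (0 : ℝ), ‖ξ s‖ < ‖ξ₀‖ + 1 :=
    hξ.norm.eventually (gt_mem_nhds (by linarith))
  have hlim : Tendsto (fun s => ∑' k, f s k) (𝓝[≠] 0)
      (𝓝 (∑' k : O, Tk θ v₀ k * eT (x * nu k) * (4 * π * Complex.I * TrC (ξ₀ * nu k)))) := by
    refine tendsto_tsum_of_dominated_convergence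
      (bound := fun k => (K * (2 * v₀) ^ (2 / 3 : ℝ) * (8 * π * (‖ξ₀‖ + 1))) *
        ((N k : ℝ) ^ (A + 1) * Real.exp (-(aa * (v₀ / 2) * √(N k)))))
      ((summable_pow_exp_sqrt (A + 1) (show 0 < aa * (v₀ / 2) by positivity)).mul_left _) ?_ ?_
    · intro k
      refine (((continuousAt_Tk θ k hv₀).tendsto.comp hv).mul_const _).mul (tendsto_e_symm ?_)
      have hc : Continuous fun z : ℂ => TrC (z * nu k) := by unfold TrC; fun_prop
      exact (hc.tendsto ξ₀).comp hξ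
    · filter_upwards [hv1, hv2, hξ1, self_mem_nhdsWithin] with s h1 h2 h3 hs0 k
      have hs0 : s ≠ 0 := hs0
      by_cases hk : k = 0
      · subst hk
        simp only [hf, nu_zero, mul_zero, TrC, Complex.zero_re, neg_zero, sub_self, zero_div,
          norm_zero]
        positivity
      have h4 := hK (v₀ / 2) (v s) k (by positivity) h1.le hk
      have h5 : (v s) ^ (2 / 3 : ℝ) ≤ (2 * v₀) ^ (2 / 3 : ℝ) :=
        Real.rpow_le_rpow (by linarith) h2.le (by norm_num)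
      have h6 : ‖(e (s * TrC (ξ s * nu k)) - e (-(s * TrC (ξ s * nu k)))) / (s : ℂ)‖ ≤
          8 * π * (‖ξ₀‖ + 1) * N k := by
        rw [norm_div, Complex.norm_real, Real.norm_eq_abs, div_le_iff₀ (abs_pos.2 hs0)]
        refine (norm_e_symm_le _).trans ?_
        rw [abs_mul]
        have h7 : |TrC (ξ s * nu k)| ≤ 2 * ((‖ξ₀‖ + 1) * N k) := by
          refine (abs_TrC_le _).trans ?_
          rw [norm_mul]
          have := norm_nu_le k
          gcongr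
        calc 4 * π * (|s| * |TrC (ξ s * nu k)|) ≤ 4 * π * (|s| * (2 * ((‖ξ₀‖ + 1) * N k))) := by
              gcongr
          _ = _ := by ring
      simp only [hf]
      rw [norm_mul, norm_mul, norm_eT, mul_one]
      calc ‖Tk θ (v s) k‖ * ‖(e (s * TrC (ξ s * nu k)) - e (-(s * TrC (ξ s * nu k)))) / (s : ℂ)‖
          ≤ (K * (2 * v₀) ^ (2 / 3 : ℝ) * ((N k : ℝ) ^ A * Real.exp (-(aa * (v₀ / 2) * √(N k))))) *
            (8 * π * (‖ξ₀‖ + 1) * N k) := by
            refine mul_le_mul (h4.trans ?_) h6 (norm_nonneg _) (by positivity)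
            gcongr
        _ = _ := by ring
  refine hlim.congr' ?_
  filter_upwards [hv1] with s h1
  have hvs : 0 < v s := by linarith
  have h2 := ((hasSum_Th hθ c₀ hvs (x + s * ξ s)).sub (hasSum_Th hθ c₀ hvs (x - s * ξ s))).div_const
    (s : ℂ)
  rw [← h2.tsum_eq]
  refine tsum_congr fun k => ?_
  simp only [hf]
  by_cases hk : k = 0
  · subst hk; simp [nu, TrC]
  rw [Tk0, if_neg hk]
  have e1 : (x + s * ξ s) * (toC k / (3 * toC rt3)) = x * nu k + s * (ξ s * nu k) := by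
    rw [nu]; ring
  have e2 : (x - s * ξ s) * (toC k / (3 * toC rt3)) = x * nu k + -(s * (ξ s * nu k)) := by
    rw [nu]; ring
  have e3 : eT (s * (ξ s * nu k)) = e (s * TrC (ξ s * nu k)) := by rw [eT, TrC_ofReal_mul]
  have e4 : eT (-(s * (ξ s * nu k))) = e (-(s * TrC (ξ s * nu k))) := by
    rw [eT, TrC_neg, TrC_ofReal_mul]
  rw [e1, e2, eT_add, eT_add, e3, e4]
  ring

/-- the holomorphic derivative series -/
noncomputable def PP (θ : O → ℂ) (x : ℂ) (v : ℝ) : ℂ := ∑' k : O, Tk θ v k * nu k * eT (x * nu k)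

/-- the antiholomorphic derivative series -/
noncomputable def PM (θ : O → ℂ) (x : ℂ) (v : ℝ) : ℂ :=
  ∑' k : O, Tk θ v k * (starRingEnd ℂ) (nu k) * eT (x * nu k)

theorem summable_PP (hθ : SharpHyp θ C A δ) (x : ℂ) {v : ℝ} (hv : 0 < v) :
    Summable fun k : O => Tk θ v k * nu k * eT (x * nu k) := by
  refine Summable.of_norm_bounded (summable_Tk_nu hθ hv) fun k => ?_
  rw [norm_mul, norm_mul, norm_eT, mul_one]

theorem summable_PM (hθ : SharpHyp θ C A δ) (x : ℂ) {v : ℝ} (hv : 0 < v) :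
    Summable fun k : O => Tk θ v k * (starRingEnd ℂ) (nu k) * eT (x * nu k) := by
  refine Summable.of_norm_bounded (summable_Tk_nu hθ hv) fun k => ?_
  rw [norm_mul, norm_mul, norm_eT, mul_one, RCLike.norm_conj]

theorem TrC_eq (z : ℂ) : ((TrC z : ℝ) : ℂ) = z + (starRingEnd ℂ) z := by
  rw [Complex.add_conj, TrC]

theorem tsum_dir (hθ : SharpHyp θ C A δ) (x ξ : ℂ) {v : ℝ} (hv : 0 < v) :
    ∑' k : O, Tk θ v k * eT (x * nu k) * (4 * π * Complex.I * TrC (ξ * nu k)) =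
      4 * π * Complex.I * (ξ * PP θ x v + (starRingEnd ℂ) ξ * PM θ x v) := by
  have h1 := (((summable_PP hθ x hv).hasSum.mul_left ξ).add
    ((summable_PM hθ x hv).hasSum.mul_left ((starRingEnd ℂ) ξ))).mul_left (4 * π * Complex.I)
  rw [PP, PM, ← h1.tsum_eq]
  refine tsum_congr fun k => ?_
  rw [TrC_eq, map_mul]
  ring

/-- the action near the point `-d/c` -/
theorem smul_near {g : Matrix.SpecialLinearGroup (Fin 2) O} (hc : g 1 0 ≠ 0) (ζ : ℂ) {v : ℝ}
    (hv : 0 < v) :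
    (g • H3.mk (-(toC (g 1 1) / toC (g 1 0)) + ζ) v hv).z = toC (g 0 0) / toC (g 1 0) -
        (starRingEnd ℂ) ζ / (toC (g 1 0) ^ 2 * ((Complex.normSq ζ + v ^ 2 : ℝ) : ℂ)) ∧
      (g • H3.mk (-(toC (g 1 1) / toC (g 1 0)) + ζ) v hv).v =
        v / (N (g 1 0) * (Complex.normSq ζ + v ^ 2)) := by
  have hdet := congrArg toC (KU.det_eq g)
  rw [map_sub, map_mul, map_mul, map_one] at hdet
  set a := toC (g 0 0)
  set b := toC (g 0 1)
  set c := toC (g 1 0) with hcdef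
  set d := toC (g 1 1)
  have hc' : c ≠ 0 := by simpa [hcdef] using hc
  have hcc : (starRingEnd ℂ) c ≠ 0 := by simpa using hc'
  have hlin : c * (-(d / c) + ζ) + d = c * ζ := by field_simp; ring
  have hden : den (H3.mk (-(d / c) + ζ) v hv) c d =
      Complex.normSq c * (Complex.normSq ζ + v ^ 2) := by
    rw [den, H3.mk_z, H3.mk_v, hlin, Complex.normSq_mul]; ring
  have hpos : 0 < Complex.normSq ζ + v ^ 2 := by
    have := Complex.normSq_nonneg ζ; positivity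
  constructor
  · rw [smul_eq, z_smulC]
    simp only [toSLC_apply]
    rw [hden, H3.mk_z, H3.mk_v, hlin]
    have e1 : ((Complex.normSq c * (Complex.normSq ζ + v ^ 2) : ℝ) : ℂ) =
        c * (starRingEnd ℂ) c * ((Complex.normSq ζ + v ^ 2 : ℝ) : ℂ) := by
      rw [Complex.mul_conj]; push_cast; ring
    have e2 : ((Complex.normSq ζ + v ^ 2 : ℝ) : ℂ) = ζ * (starRingEnd ℂ) ζ + (v : ℂ) ^ 2 := by
      rw [Complex.mul_conj]; push_cast; ring
    have hne : ζ * (starRingEnd ℂ) ζ + (v : ℂ) ^ 2 ≠ 0 := by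
      rw [← e2]; exact_mod_cast hpos.ne'
    rw [e1, e2, map_mul]
    field_simp
    linear_combination (-((starRingEnd ℂ) c * (starRingEnd ℂ) ζ)) * hdet
  · rw [v_smul, Q, hden, H3.mk_v, N_cast_real, one_div_div]

/-- **the derivative of the automorphy relation** -/
theorem PP_eq (hθ : SharpHyp θ C A δ) (hδ : 0 < δ) (hδ1 : δ < 1 / 3) (h0 : ConstHyp c₀)
    {g : Matrix.SpecialLinearGroup (Fin 2) O} (hg : g ∈ KU.Gamma3 O) (hc : g 1 0 ≠ 0) {v : ℝ}
    (hv : 0 < v) :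
    PP θ (toC (g 0 0) / toC (g 1 0)) (1 / (N (g 1 0) * v)) =
      -(toC (g 1 0) ^ 2 * (v : ℂ) ^ 2) * (starRingEnd ℂ) (toC (sym (g 1 0) (g 1 1))) *
        PM θ (-(toC (g 1 1) / toC (g 1 0))) v := by
  set κ := (starRingEnd ℂ) (toC (sym (g 1 0) (g 1 1))) with hκ
  set c := toC (g 1 0) with hcdef
  set x := toC (g 0 0) / c with hx
  set y := -(toC (g 1 1) / c) with hy
  have hc' : c ≠ 0 := by simpa [hcdef] using hc
  have hN : (0 : ℝ) < N (g 1 0) := by exact_mod_cast N_pos hc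
  have hv' : 0 < 1 / (N (g 1 0) * v) := by positivity
  have hvC : (v : ℂ) ≠ 0 := by exact_mod_cast hv.ne'
  have key : ∀ η : ℂ, Complex.normSq η = 1 →
      (-((starRingEnd ℂ) η / (c ^ 2 * (v : ℂ) ^ 2))) * PP θ x (1 / (N (g 1 0) * v)) +
        (starRingEnd ℂ) (-((starRingEnd ℂ) η / (c ^ 2 * (v : ℂ) ^ 2))) *
          PM θ x (1 / (N (g 1 0) * v)) =
      κ * (η * PP θ y v + (starRingEnd ℂ) η * PM θ y v) := by
    intro η hη
    have hs : Tendsto (fun s : ℝ => s) (𝓝[≠] (0 : ℝ)) (𝓝 0) :=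
      tendsto_nhdsWithin_of_tendsto_nhds tendsto_id
    have hq : Tendsto (fun s : ℝ => s ^ 2 + v ^ 2) (𝓝[≠] (0 : ℝ)) (𝓝 (v ^ 2)) := by
      simpa using (hs.pow 2).add_const (v ^ 2)
    have hv1 : Tendsto (fun s : ℝ => v / (N (g 1 0) * (s ^ 2 + v ^ 2))) (𝓝[≠] (0 : ℝ))
        (𝓝 (1 / (N (g 1 0) * v))) := by
      have := (tendsto_const_nhds (x := v)).div (hq.const_mul (N (g 1 0) : ℝ)) (by positivity)
      have e1 : 1 / (N (g 1 0) * v) = v / (N (g 1 0) * v ^ 2) := by field_simp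
      rw [e1]
      exact this
    have hξ1 : Tendsto (fun s : ℝ => -((starRingEnd ℂ) η / (c ^ 2 * ((s ^ 2 + v ^ 2 : ℝ) : ℂ))))
        (𝓝[≠] (0 : ℝ)) (𝓝 (-((starRingEnd ℂ) η / (c ^ 2 * (v : ℂ) ^ 2)))) := by
      have h1 : Tendsto (fun s : ℝ => ((s ^ 2 + v ^ 2 : ℝ) : ℂ)) (𝓝[≠] (0 : ℝ))
          (𝓝 ((v : ℂ) ^ 2)) := by
        have := (Complex.continuous_ofReal.tendsto _).comp hq
        rw [Complex.ofReal_pow] at this
        exact this
      exact ((tendsto_const_nhds).div (h1.const_mul _) (by positivity)).neg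
    have hL := tendsto_symm hθ c₀ x hv' hv1 hξ1
    have hR := (tendsto_symm hθ c₀ y hv (v := fun _ => v) (ξ := fun _ => η) tendsto_const_nhds
      tendsto_const_nhds).const_mul κ
    have heq : ∀ s : ℝ, ∀ t : ℝ, t ^ 2 = s ^ 2 →
        Th c₀ θ (x + t * -((starRingEnd ℂ) η / (c ^ 2 * ((s ^ 2 + v ^ 2 : ℝ) : ℂ))))
          (v / (N (g 1 0) * (s ^ 2 + v ^ 2))) = κ * Th c₀ θ (y + t * η) v := by
      intro s t hts
      have h1 := ThH_aut hθ hδ hδ1 h0 hg (H3.mk (y + t * η) v hv)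
      obtain ⟨h2, h3⟩ := smul_near hc (t * η) hv
      have h4 : Complex.normSq (t * η) = s ^ 2 := by
        rw [Complex.normSq_mul, hη, Complex.normSq_ofReal, ← hts]; ring
      rw [ThH, ThH, h2, h3, h4, H3.mk_z, H3.mk_v] at h1
      rw [← h1]
      congr 1
      rw [map_mul, Complex.conj_ofReal]
      ring
    have hLR : (fun s : ℝ => (Th c₀ θ (x + s * -((starRingEnd ℂ) η /
        (c ^ 2 * ((s ^ 2 + v ^ 2 : ℝ) : ℂ)))) (v / (N (g 1 0) * (s ^ 2 + v ^ 2))) -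
        Th c₀ θ (x - s * -((starRingEnd ℂ) η / (c ^ 2 * ((s ^ 2 + v ^ 2 : ℝ) : ℂ))))
          (v / (N (g 1 0) * (s ^ 2 + v ^ 2)))) / (s : ℂ)) =
        fun s : ℝ => κ * ((Th c₀ θ (y + s * η) v - Th c₀ θ (y - s * η) v) / (s : ℂ)) := by
      funext s
      have h1 := heq s s rfl
      have h2 := heq s (-s) (by ring)
      push_cast at h1 h2 ⊢
      rw [neg_mul, neg_mul, ← sub_eq_add_neg, ← sub_eq_add_neg] at h2
      rw [h1, h2]
      ring
    rw [hLR] at hL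
    have h5 := tendsto_nhds_unique hL hR
    rw [tsum_dir hθ _ _ hv', tsum_dir hθ _ _ hv] at h5
    have hπ : (4 * π * Complex.I : ℂ) ≠ 0 := by
      have := Real.pi_pos
      refine mul_ne_zero (mul_ne_zero (by norm_num) ?_) Complex.I_ne_zero
      exact_mod_cast this.ne'
    apply mul_left_cancel₀ hπ
    rw [h5]; ring
  have k1 := key 1 (by simp)
  have k2 := key Complex.I (by simp)
  simp only [map_one, map_neg, map_div₀, Complex.conj_I] at k1 k2
  set P1 := PP θ x (1 / (N (g 1 0) * v))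
  set M1 := PM θ x (1 / (N (g 1 0) * v))
  set P2 := PP θ y v
  set M2 := PM θ y v
  set D := c ^ 2 * (v : ℂ) ^ 2 with hD
  set D' := (starRingEnd ℂ) D
  have hD0 : D ≠ 0 := by positivity
  have k3 : -(1 / D) * P1 = κ * M2 := by
    have hI := Complex.I_mul_I
    linear_combination (1 / 2) * k1 + (Complex.I / 2) * k2 +
      (-(1 / D) * P1 / 2 + (1 / D') * M1 / 2 + κ * P2 / 2 - κ * M2 / 2) * hI
  have k4 : P1 = -D * (-(1 / D) * P1) := by field_simp
  rw [k4, k3]; ring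

end

end Vale.Agent.P026Z.Vor
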