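import Vale.Agent.P006.SG.Inv2

/-!
P026, block VOR: common definitions for the Voronoi formula of the cubic theta function.
-/

open scoped Real

namespace Vale.Agent.P026Z.Vor

open Vale.Agent.P006 Vale.Agent.P006.PO Vale.Agent.P006.SG

/-- the kernel `K x = x^{1/3} G x`, with Mellin transform `Γ(s+1/3) Γ(s+2/3)` -/
noncomputable def KK (x : ℝ) : ℝ := x ^ (1 / 3 : ℝ) * G x

/-- the argument `k/|k|` (zero at `k = 0`) -/
noncomputable def alp (k : O) : ℂ := toC k / (‖toC k‖ : ℂ)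

/-- the normalised coefficient `θ(k) N(k)^{1/6}` -/
noncomputable def cf (θ : O → ℂ) (k : O) : ℂ := θ k * (((N k : ℝ) ^ (1 / 6 : ℝ) : ℝ) : ℂ)

/-- the frequency `k/(3√-3)` -/
noncomputable def nu (k : O) : ℂ := toC k / (3 * toC rt3)

/-- the dual coefficients -/
noncomputable def bd (θ : O → ℂ) (c d : O) (ρ : O → ℂ) (k : O) : ℂ :=
  cf θ k * (starRingEnd ℂ) (alp k) * eT (-(nu k * (toC d / toC c))) * ρ k

@[simp] theorem alp_zero : alp 0 = 0 := by simp [alp]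

theorem norm_toC_pos {k : O} (hk : k ≠ 0) : 0 < ‖toC k‖ := by
  rw [norm_pos_iff]
  simpa using hk

theorem norm_alp {k : O} (hk : k ≠ 0) : ‖alp k‖ = 1 := by
  have := norm_toC_pos hk
  rw [alp, norm_div, Complex.norm_real, Real.norm_of_nonneg this.le, div_self this.ne']

theorem norm_alp_le (k : O) : ‖alp k‖ ≤ 1 := by
  by_cases hk : k = 0
  · simp [hk]
  · exact (norm_alp hk).le

theorem alp_mul (x y : O) : alp (x * y) = alp x * alp y := by
  simp only [alp, map_mul, norm_mul]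
  push_cast
  ring

theorem KK_nonneg {x : ℝ} (hx : 0 ≤ x) : 0 ≤ KK x :=
  mul_nonneg (Real.rpow_nonneg hx _) (F_nonneg _ _)

theorem norm_bd_le (θ : O → ℂ) (c d : O) {ρ : O → ℂ} (hρ : ∀ k, ‖ρ k‖ ≤ 1) (k : O) :
    ‖bd θ c d ρ k‖ ≤ ‖cf θ k‖ := by
  rw [bd, norm_mul, norm_mul, norm_mul, norm_eT, RCLike.norm_conj, mul_one]
  have h1 := norm_alp_le k
  have h2 := hρ k
  calc ‖cf θ k‖ * ‖alp k‖ * ‖ρ k‖ ≤ ‖cf θ k‖ * 1 * 1 := by gcongr
    _ = _ := by ring

end Vale.Agent.P026Z.Vor
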