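import Vale.Agent.P026Z.TH.Shift
import Vale.Agent.P026Z.Vor.Defs
import Vale.Agent.P006.CLS.PChar

/-!
P026, block VOR, part V4 (core): the transformation formula of the horizontal derivative of the
cubic theta function twisted by a sextic character modulo `h` and an additive character at the
cusp `a'/c₀`; the dual twist is the quadratic character modulo `h`.
-/

open Matrix
open scoped Real ComplexConjugate

namespace Vale.Agent.P026Z.Vor

open Vale.Agent.P006 Vale.Agent.P006.PO Vale.Agent.P006.SG Vale.Agent.P026Z.TH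
open Vale.Agent.P006.CLS (PChar)

/-- the untwisted transformation formula at the cusps equivalent to infinity under `Γ(3)` -/
def V2Hyp : Prop := ∃ ζ : O → ℂ, (∀ c : O, c ≠ 0 → ‖ζ c‖ = 1) ∧
  ∀ γ : SpecialLinearGroup (Fin 2) O, γ ∈ KU.Gamma3 O → γ 1 0 ≠ 0 → ∀ U : ℝ, 0 < U →
    ∑' k : O, cf th k * alp k * eT (nu k * (toC (γ 0 0) / toC (γ 1 0))) *
        (KK (qq * N k * U / N (γ 1 0)) : ℂ) =
      toC (sym (γ 1 0) (γ 0 0)) * ζ (γ 1 0) * (U : ℂ)⁻¹ *
        ∑' k : O, cf th k * conj (alp k) * eT (-(nu k * (toC (γ 1 1) / toC (γ 1 0)))) *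
          (KK (qq * N k / (N (γ 1 0) * U)) : ℂ)

/-! ### summability -/

theorem norm_cf_le : ∃ C : ℝ, 0 ≤ C ∧ ∀ k : O, ‖cf th k‖ ≤ C * (N k : ℝ) ^ (1 / 6 : ℝ) := by
  obtain ⟨C, hC, hS⟩ := exists_shape_th
  refine ⟨C, hC, fun k => ?_⟩
  by_cases hk : k = 0
  · subst hk; simp [cf]
  · rw [cf, norm_mul, Complex.norm_real, Real.norm_of_nonneg (by positivity)]
    exact mul_le_mul_of_nonneg_right (hS.norm_le hC hk) (by positivity)

theorem summable_cf_KK {r : ℝ} (hr : 0 < r) :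
    Summable fun k : O => ‖cf th k‖ * KK (r * N k) := by
  obtain ⟨C, hC, h1⟩ := norm_cf_le
  obtain ⟨K, hK, h2⟩ := G_le_exp
  have hs := (summable_pow_exp_sqrt 1 (Real.sqrt_pos.2 hr)).mul_left (C * K * r ^ (1 / 3 : ℝ))
  refine Summable.of_nonneg_of_le (fun k => mul_nonneg (norm_nonneg _)
    (KK_nonneg (by positivity))) (fun k => ?_) hs
  by_cases hk : k = 0
  · subst hk; simp [cf]
  have hN : (1 : ℝ) ≤ N k := one_le_N hk
  have h3 := h2 (r * N k) (by positivity)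
  rw [Real.sqrt_mul hr.le] at h3
  have h4 : (N k : ℝ) ^ (1 / 6 : ℝ) * (N k : ℝ) ^ (1 / 3 : ℝ) ≤ (N k : ℝ) ^ 1 := by
    rw [← Real.rpow_add (by linarith), pow_one]
    calc (N k : ℝ) ^ (1 / 6 + 1 / 3 : ℝ) ≤ (N k : ℝ) ^ (1 : ℝ) :=
          Real.rpow_le_rpow_of_exponent_le hN (by norm_num)
      _ = _ := Real.rpow_one _
  have hG : 0 ≤ G (r * N k) := F_nonneg _ _
  rw [KK, Real.mul_rpow hr.le (by positivity)]
  calc ‖cf th k‖ * (r ^ (1 / 3 : ℝ) * (N k : ℝ) ^ (1 / 3 : ℝ) * G (r * N k))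
      ≤ (C * (N k : ℝ) ^ (1 / 6 : ℝ)) * (r ^ (1 / 3 : ℝ) * (N k : ℝ) ^ (1 / 3 : ℝ) *
        (K * Real.exp (-(√r * √(N k))))) := by
        have := h1 k
        gcongr
    _ = C * K * r ^ (1 / 3 : ℝ) * (((N k : ℝ) ^ (1 / 6 : ℝ) * (N k : ℝ) ^ (1 / 3 : ℝ)) *
        Real.exp (-(√r * √(N k)))) := by ring
    _ ≤ _ := by gcongr

/-- summability of every series with coefficients dominated by `cf th` -/
theorem summable_of_le_cf {a : O → ℂ} (ha : ∀ k, ‖a k‖ ≤ ‖cf th k‖) {r : ℝ} (hr : 0 < r)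
    {x : O → ℝ} (hx : ∀ k, x k = r * N k) : Summable fun k : O => a k * (KK (x k) : ℂ) := by
  refine Summable.of_norm_bounded (summable_cf_KK hr) fun k => ?_
  rw [hx, norm_mul, Complex.norm_real, Real.norm_of_nonneg (KK_nonneg (by positivity))]
  exact mul_le_mul_of_nonneg_right (ha k) (KK_nonneg (by positivity))

/-! ### arithmetic -/

theorem psi3_three_mul (t : ℤ) (y : O) : psi3 (3 * t) y = 1 := by
  rw [psi3_eq, show ((3 * t * (2 * y.re - y.im) : ℤ) : ℝ) / 3 = ((t * (2 * y.re - y.im) : ℤ) : ℝ) by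
    push_cast; ring, e_int]

/-- `(c / (d + 3 t c))_3 = (c / d)_3` for `3 ∣ c` and `d` primary -/
theorem sym_add_three_mul {c d : O} (hc : (3 : O) ∣ c) (hd : Primary d) (t : O) :
    toC (sym c (d + 3 * t * c)) = toC (sym c d) := by
  obtain ⟨y, rfl⟩ := hc
  have h := sym_shear y (3 * (-t)) hd
  have him : (3 * (-t)).im = 3 * (-t).im := by
    simp [QuadraticAlgebra.im_mul, re_three, im_three]
  rw [him, psi3_three_mul, one_mul] at h
  rw [← h]
  congr 2
  ring

/-- sums of functions supported on the units -/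
theorem sum_eq_sum_units {R : Type*} [CommRing R] [Fintype R] [Fintype Rˣ] (F : R → ℂ)
    (hF : ∀ x, ¬ IsUnit x → F x = 0) : ∑ x : R, F x = ∑ u : Rˣ, F u := by
  classical
  have h1 : ∑ u : Rˣ, F u = ∑ x ∈ Finset.univ.map ⟨Units.val, Units.val_injective⟩, F x := by
    rw [Finset.sum_map]; rfl
  rw [h1]
  symm
  refine Finset.sum_subset (Finset.subset_univ _) fun x _ hx => hF x fun hu => hx ?_
  obtain ⟨u, rfl⟩ := hu
  exact Finset.mem_map.2 ⟨u, Finset.mem_univ _, rfl⟩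

theorem psi_mul_eq_eT (h k x : O) : psi h (rs h k * rs h x) = eT (toC k * toC x / toC h) := by
  rw [← map_mul, psi_rs, map_mul]; rfl

/-- Gauss sum expansion over the units -/
theorem PChar.gauss_units {h : O} {χ : O → ℂ} (hχ : PChar h χ) [NeZero h] [Fintype (Rs h)ˣ] :
    ∃ τ : ℂ, ‖τ‖ ^ 2 = N h ∧ ∀ n : O, χ n * τ =
      ∑ u : (Rs h)ˣ, conj (χ (outR h u)) * eT (toC n * toC (outR h u) / toC h) := by
  obtain ⟨τ, hτ, hg⟩ := hχ.gauss
  refine ⟨τ, hτ, fun n => ?_⟩
  have e1 : ∀ x : Rs h, conj (CLS.onRs h χ x) * psi h (rs h n * x) =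
      conj (χ (outR h x)) * eT (toC n * toC (outR h x) / toC h) := by
    intro x
    rw [← psi_mul_eq_eT, rs_outR]; rfl
  rw [hg n, Finset.sum_congr rfl fun x _ => e1 x]
  refine sum_eq_sum_units
    (fun x : Rs h => conj (χ (outR h x)) * eT (toC n * toC (outR h x) / toC h)) fun x hx => ?_
  rw [hχ.zero _ (fun hc => hx ?_), map_zero, zero_mul]
  rw [← rs_outR h x]
  exact isUnit_rs_iff.2 hc

theorem three_rt3_ne : (3 * toC rt3 : ℂ) ≠ 0 := mul_ne_zero (by norm_num) toC_rt3_ne_zero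

/-- the matrix attached to a pair `x, y` with `-27 c₀² x y ≡ 1 (mod h)` -/
theorem exists_matrix {c0 a' d0 h x y : O} (hc : (3 : O) ∣ c0) (ha : Primary a') (hh : Primary h)
    (hd : 3 * c0 ∣ a' * h ^ 2 * d0 - 1) (hxy : h ∣ -27 * c0 ^ 2 * x * y - 1) :
    ∃ γ : SpecialLinearGroup (Fin 2) O, γ ∈ KU.Gamma3 O ∧
      γ 0 0 = a' * h + 3 * (rt3 * x) * c0 ∧ γ 1 0 = c0 * h ∧
      γ 1 1 = d0 * h + 3 * (rt3 * y) * c0 := by
  have hr : rt3 * rt3 = -3 := rt3_sq
  have hcop : IsCoprime (3 * c0) h := by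
    obtain ⟨t, ht⟩ := hd
    exact ⟨-t, a' * h * d0, by linear_combination ht⟩
  have h1 : 3 * c0 ∣ (a' * h + 3 * (rt3 * x) * c0) * (d0 * h + 3 * (rt3 * y) * c0) - 1 := by
    obtain ⟨t, ht⟩ := hd
    exact ⟨t + a' * h * (rt3 * y) + rt3 * x * d0 * h + rt3 * x * (3 * (rt3 * y) * c0),
      by linear_combination ht⟩
  have h2 : h ∣ (a' * h + 3 * (rt3 * x) * c0) * (d0 * h + 3 * (rt3 * y) * c0) - 1 := by
    obtain ⟨t, ht⟩ := hxy
    exact ⟨t + a' * (d0 * h + 3 * (rt3 * y) * c0) + 3 * (rt3 * x) * c0 * d0,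
      by linear_combination ht + 9 * x * y * c0 ^ 2 * hr⟩
  obtain ⟨b, hb⟩ := hcop.mul_dvd h1 h2
  have hap : Primary (a' * h + 3 * (rt3 * x) * c0) := by
    rw [mul_assoc 3]; exact primary_add_three (ha.mul hh) _
  have hdp : Primary (d0 * h + 3 * (rt3 * y) * c0) := by
    refine Primary.of_mul hap ?_
    exact (dvd_mul_right 3 c0).trans h1
  refine ⟨KU.mk2 (a' * h + 3 * (rt3 * x) * c0) (3 * b) (c0 * h) (d0 * h + 3 * (rt3 * y) * c0)
    (by linear_combination hb), ?_, rfl, rfl, rfl⟩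
  rw [KU.mem_Gamma3]
  exact ⟨hap, dvd_mul_right 3 b, hc.mul_right h, hdp⟩

/-- the Kubota symbol of that matrix -/
theorem kubota_eq {c0 a' h : O} (x : O) (hc : (3 : O) ∣ c0) (ha : Primary a') (hh : Primary h) :
    toC (sym (c0 * h) (a' * h + 3 * (rt3 * x) * c0)) =
      toC (sym c0 (a' * h)) * toC (sym c0 h) * toC (sym x h) := by
  have hap : Primary (a' * h + 3 * (rt3 * x) * c0) := by
    rw [mul_assoc 3]; exact primary_add_three (ha.mul hh) _
  have h1 : sym h (a' * h + 3 * (rt3 * x) * c0) = sym c0 h * sym x h := by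
    rw [recip hh hap, sym_periodic (a' := (-rt3) ^ 3 * (c0 * x)) ⟨a', by
      have hr : rt3 * rt3 = -3 := rt3_sq
      linear_combination (rt3 * x * c0) * hr⟩, sym_mul_left, sym_pow_left,
      sym_cube (ram_rt3.isCoprime hh).neg_left, one_mul, sym_mul_left]
  rw [sym_mul_left, map_mul, sym_add_three_mul hc (ha.mul hh), h1, map_mul]
  ring

/-- **the twisted transformation formula** -/
theorem v4core (hV : V2Hyp) {c0 a' d0 h : O} (hc : (3 : O) ∣ c0) (hc0 : c0 ≠ 0) (ha : Primary a')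
    (hh : Primary h) (hd : 3 * c0 ∣ a' * h ^ 2 * d0 - 1) {χ ρ : O → ℂ} (hχ : PChar h χ)
    (hρ : PChar h ρ) (h2 : ∀ y, χ y ^ 2 = toC (sym y h)) (h3 : ∀ y, ρ y = χ y ^ 3) :
    ∃ z : ℂ, ‖z‖ = 1 ∧ ∀ U : ℝ, 0 < U →
      ∑' k : O, cf th k * alp k * eT (nu k * (toC a' / toC c0)) * conj (χ k) *
          (KK (qq * N k * U / (N c0 * N h)) : ℂ) =
        z * (U : ℂ)⁻¹ * ∑' k : O, bd th c0 d0 ρ k * (KK (qq * N k / (N c0 * N h * U)) : ℂ) := by
  classical
  obtain ⟨ζ, hζ, hV⟩ := hV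
  have hh0 : h ≠ 0 := hh.ne_zero
  have : NeZero h := ⟨hh0⟩
  have hhC : toC h ≠ 0 := by simpa using hh0
  have hcC : toC c0 ≠ 0 := by simpa using hc0
  have hr3 := toC_rt3_ne_zero
  have hNh : (0 : ℝ) < N h := by exact_mod_cast N_pos hh0
  have hNc : (0 : ℝ) < N c0 := by exact_mod_cast N_pos hc0
  have hq := qq_pos
  have hcop : IsCoprime (3 * c0) h := by
    obtain ⟨t, ht⟩ := hd
    exact ⟨-t, a' * h * d0, by linear_combination ht⟩
  have hcop' : IsCoprime c0 (a' * h) := by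
    obtain ⟨t, ht⟩ := hd
    exact ⟨-(3 * t), h * d0, by linear_combination ht⟩
  have hDcop : IsCoprime (-27 * c0 ^ 2) h := by
    have e : (-27 * c0 ^ 2 : O) = -(3 * ((3 * c0) * (3 * c0))) := by ring
    rw [e]
    exact (hh.isCoprime_three.mul_left (hcop.mul_left hcop)).neg_left
  obtain ⟨D, hD⟩ := isUnit_rs_iff.2 hDcop
  obtain ⟨τ, hτ, hg⟩ := PChar.gauss_units hχ.conj_char
  obtain ⟨σ, hσ, hgρ⟩ := PChar.gauss_units hρ
  simp only [Complex.conj_conj] at hg
  have hτ0 : τ ≠ 0 := by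
    intro h0; rw [h0, norm_zero] at hτ; linarith
  have hcu : ∀ u : (Rs h)ˣ, IsCoprime (outR h u) h := fun u =>
    isUnit_rs_iff.1 (by rw [rs_outR]; exact u.isUnit)
  -- the involution
  set φ : (Rs h)ˣ ≃ (Rs h)ˣ := (Equiv.inv _).trans (Equiv.mulRight D⁻¹) with hφ
  have hφ1 : ∀ u : (Rs h)ˣ, h ∣ -27 * c0 ^ 2 * outR h u * outR h (φ u) - 1 := by
    intro u
    rw [← rs_eq, map_mul, map_mul, rs_outR, rs_outR, ← hD, map_one, ← Units.val_mul,
      ← Units.val_mul, Units.val_eq_one]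
    simp only [hφ, Equiv.trans_apply, Equiv.inv_apply, Equiv.coe_mulRight]
    rw [mul_assoc, mul_inv_cancel_left, mul_inv_cancel]
  -- the quadratic character
  have hρu : ∀ u : (Rs h)ˣ, ρ (outR h u) = conj (ρ (-27 * c0 ^ 2)) * conj (ρ (outR h (φ u))) := by
    intro u
    have e1 : ρ (-27 * c0 ^ 2) * ρ (outR h u) * ρ (outR h (φ u)) = 1 := by
      rw [← hρ.mul, ← hρ.mul, hρ.congr _ 1 (hφ1 u), hρ.one]
    have e2 := hρ.conj_mul_self hDcop
    have e3 := hρ.conj_mul_self (hcu (φ u))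
    calc ρ (outR h u) = (conj (ρ (-27 * c0 ^ 2)) * ρ (-27 * c0 ^ 2)) *
          (conj (ρ (outR h (φ u))) * ρ (outR h (φ u))) * ρ (outR h u) := by rw [e2, e3]; ring
      _ = conj (ρ (-27 * c0 ^ 2)) * conj (ρ (outR h (φ u))) *
          (ρ (-27 * c0 ^ 2) * ρ (outR h u) * ρ (outR h (φ u))) := by ring
      _ = _ := by rw [e1, mul_one]
  have hdual : ∀ k : O, ∑ u : (Rs h)ˣ, ρ (outR h u) * eT (-(toC k * toC (outR h (φ u)) / toC h)) =
      conj (ρ (-27 * c0 ^ 2)) * ρ (-1) * σ * ρ k := by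
    intro k
    have e1 := hgρ (-k)
    rw [← φ.sum_comp] at e1
    have e2 : ρ (-k) = ρ (-1) * ρ k := by rw [← hρ.mul]; congr 1; ring
    rw [e2] at e1
    rw [mul_assoc, mul_assoc, mul_comm σ, ← mul_assoc (ρ (-1)), e1, Finset.mul_sum]
    refine Finset.sum_congr rfl fun u _ => ?_
    rw [hρu u, map_neg, neg_mul (toC k), neg_div, mul_assoc]
  set κ0 : ℂ := toC (sym c0 (a' * h)) * toC (sym c0 h) with hκ0
  refine ⟨κ0 * ζ (c0 * h) * (conj (ρ (-27 * c0 ^ 2)) * ρ (-1) * σ) / τ, ?_, fun U hU => ?_⟩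
  · have e1 : ‖σ‖ = ‖τ‖ := by
      have : ‖σ‖ ^ 2 = ‖τ‖ ^ 2 := by rw [hσ, hτ]
      exact (pow_left_inj₀ (norm_nonneg _) (norm_nonneg _) two_ne_zero).1 this
    rw [norm_div, norm_mul, norm_mul, norm_mul, norm_mul, norm_mul, norm_sym hcop',
      norm_sym (IsCoprime.of_mul_left_right hcop), hζ _ (mul_ne_zero hc0 hh0), Complex.norm_conj,
      hρ.norm _ hDcop, hρ.norm _ isCoprime_one_left.neg_left, e1]
    have : ‖τ‖ ≠ 0 := norm_ne_zero_iff.2 hτ0
    field_simp
  -- the two families of series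
  set A : O → ℂ := fun k => cf th k * alp k * eT (nu k * (toC a' / toC c0)) with hA
  set B : O → ℂ := fun k => cf th k * conj (alp k) * eT (-(nu k * (toC d0 / toC c0))) with hB
  set K1 : O → ℂ := fun k => (KK (qq * N k * U / (N c0 * N h)) : ℂ) with hK1
  set K2 : O → ℂ := fun k => (KK (qq * N k / (N c0 * N h * U)) : ℂ) with hK2
  have hAle : ∀ k, ‖A k‖ ≤ ‖cf th k‖ := by
    intro k
    simp only [hA]
    rw [norm_mul, norm_mul, norm_eT, mul_one]
    exact mul_le_of_le_one_right (norm_nonneg _) (norm_alp_le k)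
  have hBle : ∀ k, ‖B k‖ ≤ ‖cf th k‖ := by
    intro k
    simp only [hB]
    rw [norm_mul, norm_mul, norm_eT, mul_one, Complex.norm_conj]
    exact mul_le_of_le_one_right (norm_nonneg _) (norm_alp_le k)
  have hS1 : ∀ w : ℂ, Summable fun k : O => A k * eT (toC k * w / toC h) * K1 k := fun w =>
    summable_of_le_cf (a := fun k => A k * eT (toC k * w / toC h))
      (fun k => by rw [norm_mul, norm_eT, mul_one]; exact hAle k)
      (r := qq * U / (N c0 * N h)) (by positivity) (fun k => by ring)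
  have hS2 : ∀ w : ℂ, Summable fun k : O => B k * eT (-(toC k * w / toC h)) * K2 k := fun w =>
    summable_of_le_cf (a := fun k => B k * eT (-(toC k * w / toC h)))
      (fun k => by rw [norm_mul, norm_eT, mul_one]; exact hBle k)
      (r := qq / (N c0 * N h * U)) (by positivity) (fun k => by ring)
  -- the formula at one cusp
  have hone : ∀ u : (Rs h)ˣ, ∑' k : O, A k * eT (toC k * toC (outR h u) / toC h) * K1 k =
      κ0 * χ (outR h u) ^ 2 * ζ (c0 * h) * (U : ℂ)⁻¹ *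
        ∑' k : O, B k * eT (-(toC k * toC (outR h (φ u)) / toC h)) * K2 k := by
    intro u
    obtain ⟨γ, hγ, e00, e10, e11⟩ := exists_matrix hc ha hh hd (hφ1 u)
    have h4 := hV γ hγ (by rw [e10]; exact mul_ne_zero hc0 hh0) U hU
    rw [e00, e10, e11, kubota_eq _ hc ha hh, ← h2 (outR h u), N_mul, Nat.cast_mul] at h4
    refine Eq.trans (tsum_congr fun k => ?_) (h4.trans ?_)
    · simp only [hA, hK1]
      rw [mul_assoc (cf th k * alp k), ← eT_add]
      congr 3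
      simp only [nu, map_add, map_mul, map_ofNat]
      field_simp
    · congr 1
      refine tsum_congr fun k => ?_
      simp only [hB, hK2]
      rw [mul_assoc (cf th k * conj (alp k)) (eT _) (eT _), ← eT_add]
      congr 3
      simp only [nu, map_add, map_mul, map_ofNat]
      field_simp
      ring
  -- summation over the units
  have hL : τ * ∑' k : O, A k * conj (χ k) * K1 k =
      ∑ u : (Rs h)ˣ, χ (outR h u) *
        ∑' k : O, A k * eT (toC k * toC (outR h u) / toC h) * K1 k := by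
    rw [← tsum_mul_left]
    simp only [← tsum_mul_left]
    rw [← Summable.tsum_finsetSum (fun u _ => (hS1 _).mul_left _)]
    refine tsum_congr fun k => ?_
    calc τ * (A k * conj (χ k) * K1 k) = A k * K1 k * (conj (χ k) * τ) := by ring
      _ = _ := by
        rw [hg k, Finset.mul_sum]
        refine Finset.sum_congr rfl fun u _ => ?_
        ring
  have hR : ∑ u : (Rs h)ˣ, ρ (outR h u) *
      ∑' k : O, B k * eT (-(toC k * toC (outR h (φ u)) / toC h)) * K2 k =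
      (conj (ρ (-27 * c0 ^ 2)) * ρ (-1) * σ) * ∑' k : O, bd th c0 d0 ρ k * K2 k := by
    rw [← tsum_mul_left]
    simp only [← tsum_mul_left]
    rw [← Summable.tsum_finsetSum (fun u _ => (hS2 _).mul_left _)]
    refine tsum_congr fun k => ?_
    calc ∑ u : (Rs h)ˣ, ρ (outR h u) * (B k * eT (-(toC k * toC (outR h (φ u)) / toC h)) * K2 k)
        = B k * K2 k * ∑ u : (Rs h)ˣ, ρ (outR h u) *
          eT (-(toC k * toC (outR h (φ u)) / toC h)) := by
          rw [Finset.mul_sum]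
          refine Finset.sum_congr rfl fun u _ => ?_
          ring
      _ = _ := by
          rw [hdual k, bd]
          simp only [hB]
          ring
  have hfin : τ * ∑' k : O, A k * conj (χ k) * K1 k = κ0 * ζ (c0 * h) * (U : ℂ)⁻¹ *
      ((conj (ρ (-27 * c0 ^ 2)) * ρ (-1) * σ) * ∑' k : O, bd th c0 d0 ρ k * K2 k) := by
    rw [hL, ← hR, Finset.mul_sum]
    refine Finset.sum_congr rfl fun u _ => ?_
    rw [hone u, h3]
    ring
  apply mul_left_cancel₀ hτ0
  rw [show (∑' k : O, cf th k * alp k * eT (nu k * (toC a' / toC c0)) * conj (χ k) *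
    (KK (qq * N k * U / (N c0 * N h)) : ℂ)) = ∑' k : O, A k * conj (χ k) * K1 k from rfl, hfin]
  simp only [hK2]
  field_simp

end Vale.Agent.P026Z.Vor
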