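import Vale.Agent.P026Z.Vor.V4
import Vale.Agent.P026Z.Vor.V4core
import Vale.Agent.P026Z.Vor.Deriv

/-!
P026, block VOR: the transformation formula `V2Hyp` and the cusp decomposition `V4Stmt`,
unconditionally.
-/

open scoped Real ComplexConjugate

namespace Vale.Agent.P026Z.Vor

open Vale.Agent.P006 Vale.Agent.P006.PO Vale.Agent.P006.SG Vale.Agent.P026Z.TH

theorem aa_sq : aa ^ 2 = qq := by
  have h3 : √3 ^ 2 = (3 : ℝ) := Real.sq_sqrt (by norm_num)
  rw [aa, qq, div_pow, mul_pow, mul_pow, h3]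
  norm_num

/-- the coefficient functions in terms of the kernel `KK` -/
theorem Tk_mul_eq (θ : O → ℂ) {u : ℝ} (hu : 0 < u) (k : O) :
    Tk θ u k * (‖toC k‖ : ℂ) * ((qq ^ (1 / 3 : ℝ) : ℝ) : ℂ) =
      kap0 * (cf θ k * (KK (qq * N k * u ^ 2) : ℂ)) := by
  by_cases hk : k = 0
  · subst hk; simp [cf]
  have hN : (0 : ℝ) < N k := by exact_mod_cast N_pos hk
  have hq := qq_pos
  have e1 : (aa * √(N k) * u) ^ 2 = qq * N k * u ^ 2 := by
    rw [mul_pow, mul_pow, aa_sq, Real.sq_sqrt hN.le]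
  have e2 : u ^ (2 / 3 : ℝ) * √(N k) * qq ^ (1 / 3 : ℝ) =
      (N k : ℝ) ^ (1 / 6 : ℝ) * (qq * N k * u ^ 2) ^ (1 / 3 : ℝ) := by
    rw [Real.mul_rpow (by positivity) (by positivity), Real.mul_rpow hq.le hN.le,
      ← Real.rpow_natCast u 2, ← Real.rpow_mul hu.le, Real.sqrt_eq_rpow]
    have e3 : (N k : ℝ) ^ (1 / 2 : ℝ) = (N k : ℝ) ^ (1 / 6 : ℝ) * (N k : ℝ) ^ (1 / 3 : ℝ) := by
      rw [← Real.rpow_add hN]; norm_num
    rw [e3]
    norm_num
    ring
  have e4 := congrArg (fun x : ℝ => (x : ℂ)) e2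
  simp only [Complex.ofReal_mul] at e4
  rw [Tk, cf, KK, e1, norm_toC]
  simp only [Complex.ofReal_mul]
  linear_combination (kap0 * θ k * (G (qq * N k * u ^ 2) : ℂ)) * e4

theorem toC_eq_alp (k : O) : toC k = alp k * (‖toC k‖ : ℂ) := by
  by_cases hk : k = 0
  · simp [hk]
  have : (‖toC k‖ : ℂ) ≠ 0 := by exact_mod_cast (norm_toC_pos hk).ne'
  rw [alp]; field_simp

/-- the constant relating the two normalisations -/
noncomputable def L0 : ℂ := kap0 / (3 * toC rt3 * ((qq ^ (1 / 3 : ℝ) : ℝ) : ℂ))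

theorem qq_third_ne : ((qq ^ (1 / 3 : ℝ) : ℝ) : ℂ) ≠ 0 := by
  have := qq_pos
  exact_mod_cast (Real.rpow_pos_of_pos this _).ne'

theorem L0_ne_zero : L0 ≠ 0 := by
  have h1 : (kap0 : ℂ) ≠ 0 := by exact_mod_cast kap0_pos.ne'
  exact div_ne_zero h1 (mul_ne_zero (mul_ne_zero (by norm_num) toC_rt3_ne_zero) qq_third_ne)

theorem PP_eq_KK (θ : O → ℂ) (x : ℂ) {u : ℝ} (hu : 0 < u) :
    PP θ x u = L0 * ∑' k : O, cf θ k * alp k * eT (nu k * x) * (KK (qq * N k * u ^ 2) : ℂ) := by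
  rw [PP, ← tsum_mul_left]
  refine tsum_congr fun k => ?_
  have h1 := Tk_mul_eq θ hu k
  have h2 := qq_third_ne
  have h3 := toC_rt3_ne_zero
  have h4 : nu k = alp k * (‖toC k‖ : ℂ) / (3 * toC rt3) := by rw [← toC_eq_alp, nu]
  rw [mul_comm x (nu k), L0]
  generalize eT (nu k * x) = E
  rw [h4]
  field_simp
  linear_combination (alp k * E) * h1

theorem PM_eq_KK (θ : O → ℂ) (x : ℂ) {u : ℝ} (hu : 0 < u) :
    PM θ x u = -L0 * ∑' k : O, cf θ k * conj (alp k) * eT (nu k * x) *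
      (KK (qq * N k * u ^ 2) : ℂ) := by
  rw [PM, ← tsum_mul_left]
  refine tsum_congr fun k => ?_
  have h1 := Tk_mul_eq θ hu k
  have h2 := qq_third_ne
  have h3 := toC_rt3_ne_zero
  have h5 : conj (toC rt3) = -toC rt3 := by
    rw [toC_rt3, map_mul, Complex.conj_ofReal, Complex.conj_I]; ring
  have h4 : conj (nu k) = -(conj (alp k) * (‖toC k‖ : ℂ) / (3 * toC rt3)) := by
    have : nu k = alp k * (‖toC k‖ : ℂ) / (3 * toC rt3) := by rw [← toC_eq_alp, nu]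
    rw [this, map_div₀, map_mul, map_mul, Complex.conj_ofReal, h5, map_ofNat]
    field_simp
  rw [mul_comm x (nu k), L0, h4]
  generalize eT (nu k * x) = E
  field_simp
  linear_combination (-(conj (alp k) * E)) * h1

/-- **the transformation formula at the cusps equivalent to infinity** -/
theorem v2hyp : V2Hyp := by
  obtain ⟨C, A, δ, hδ, hδ1, hθ⟩ := th_sharp
  refine ⟨fun c => alp c ^ 2, fun c hc => by rw [norm_pow, norm_alp hc, one_pow], ?_⟩
  intro γ hγ hc U hU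
  have hN : (0 : ℝ) < N (γ 1 0) := by exact_mod_cast N_pos hc
  set v : ℝ := 1 / √(N (γ 1 0) * U) with hv
  have hv0 : 0 < v := by positivity
  have hv2 : v ^ 2 = 1 / (N (γ 1 0) * U) := by
    rw [hv, div_pow, Real.sq_sqrt (by positivity), one_pow]
  have hu0 : 0 < 1 / (N (γ 1 0) * v) := by positivity
  have hu2 : (1 / (N (γ 1 0) * v)) ^ 2 = U / N (γ 1 0) := by
    rw [div_pow, mul_pow, hv2]; field_simp
  have h1 := PP_eq hθ hδ hδ1 constHyp hγ hc hv0
  rw [PP_eq_KK _ _ hu0, PM_eq_KK _ _ hv0, sym_row_eq hγ, hu2, hv2] at h1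
  have e1 : ∀ k : O, qq * N k * (U / N (γ 1 0)) = qq * N k * U / N (γ 1 0) := fun k => by ring
  have e2 : ∀ k : O, qq * N k * (1 / (N (γ 1 0) * U)) = qq * N k / (N (γ 1 0) * U) :=
    fun k => by ring
  simp only [e1, e2, mul_neg] at h1
  have e3 : toC (γ 1 0) ^ 2 * (v : ℂ) ^ 2 = alp (γ 1 0) ^ 2 * (U : ℂ)⁻¹ := by
    have hNC : ((N (γ 1 0) : ℝ) : ℂ) ≠ 0 := by exact_mod_cast hN.ne'
    have hUC : (U : ℂ) ≠ 0 := by exact_mod_cast hU.ne'
    rw [← Complex.ofReal_pow, hv2]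
    conv_lhs => rw [toC_eq_alp (γ 1 0), mul_pow, ← Complex.ofReal_pow, ← N_eq_sq_norm]
    simp only [Complex.ofReal_div, Complex.ofReal_mul, Complex.ofReal_one]
    field_simp
  rw [e3] at h1
  apply mul_left_cancel₀ L0_ne_zero
  rw [h1]
  ring

theorem coreStmt : CoreStmt th := by
  intro h χ ρ hh hχ hρ h2 h3 a c d ha hc hc0 _ hd
  obtain ⟨z, hz, hU⟩ := v4core v2hyp hc hc0 ha hh hd hχ hρ h2 h3
  refine ⟨z, hz, fun U hU0 => ?_⟩
  have h4 := hU U hU0
  have e1 : ∀ k : O, qq * N k * U / (N c * N h) = qq * N k / (N c * N h) * U := fun k => by ring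
  have e2 : ∀ k : O, qq * N k / (N c * N h * U) = qq * N k / (N c * N h) / U := fun k => by
    rw [div_div]
  simp only [e1, e2] at h4
  rw [← h4]
  exact tsum_congr fun k => by ring

/-- **the cusp decomposition** -/
theorem v4 : V4Stmt th := v4_of_core coreStmt

end Vale.Agent.P026Z.Vor
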