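import Vale.Agent.P026Z.Vor.Wt

/-!
P026, block VOR: the abstract Voronoi formula. From the kernel identity
`∑ a_k K(x_k u) = u⁻¹ ∑ b_k K(y_k / u)` to `∑ a_k W(x_k) = ∑ b_k Ŵ(y_k)`.
-/

namespace Vale.Agent.P026Z.Vor

open MeasureTheory Filter Topology Set Complex Asymptotics
open Vale.Agent.P006.KER (Nice)
open scoped Real ContDiff

/-- coefficients and frequencies of a Dirichlet series converging absolutely at `3/2` -/
structure Dat {ι : Type} (a : ι → ℂ) (x : ι → ℝ) (m : ℝ) : Prop where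
  m_pos : 0 < m
  le : ∀ k, m ≤ x k
  summ : Summable fun k => ‖a k‖ * x k ^ (-(3 / 2) : ℝ)

/-- `∑ a_k K(x_k u)` -/
noncomputable def Phi {ι : Type} (a : ι → ℂ) (x : ι → ℝ) (u : ℝ) : ℂ := ∑' k, a k * Kc (x k * u)

/-- `∑ a_k x_k^{-s}` -/
noncomputable def Dser {ι : Type} (a : ι → ℂ) (x : ι → ℝ) (s : ℂ) : ℂ :=
  ∑' k, a k * (x k : ℂ) ^ (-s)

/-- the dual weight, as an integral over the line `Re s = σ` -/
noncomputable def What (σ : ℝ) (W : ℝ → ℂ) (y : ℝ) : ℂ :=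
  ((1 / (2 * π) : ℝ) : ℂ) *
    ∫ t : ℝ, mellin W (σ + t * I) * Gr (σ + t * I) * (y : ℂ) ^ (-(1 - ((σ : ℂ) + t * I)))

namespace Dat

variable {ι : Type} {a : ι → ℂ} {x : ι → ℝ} {m : ℝ}

theorem pos (D : Dat a x m) (k : ι) : 0 < x k := D.m_pos.trans_le (D.le k)

theorem summ2 (D : Dat a x m) : Summable fun k => ‖a k‖ * x k ^ (-2 : ℝ) := by
  refine Summable.of_nonneg_of_le (fun k => by have := D.pos k; positivity) (fun k => ?_)
    (D.summ.mul_left (m ^ (-(1 / 2) : ℝ)))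
  have h0 := D.pos k
  have h1 : x k ^ (-(1 / 2) : ℝ) ≤ m ^ (-(1 / 2) : ℝ) :=
    Real.rpow_le_rpow_of_nonpos D.m_pos (D.le k) (by norm_num)
  rw [show (-2 : ℝ) = -(1 / 2) + -(3 / 2) by norm_num, Real.rpow_add h0]
  calc ‖a k‖ * (x k ^ (-(1 / 2) : ℝ) * x k ^ (-(3 / 2) : ℝ))
      ≤ ‖a k‖ * (m ^ (-(1 / 2) : ℝ) * x k ^ (-(3 / 2) : ℝ)) := by gcongr
    _ = _ := by ring

theorem term_le (D : Dat a x m) : ∃ C : ℝ, 0 ≤ C ∧ ∀ (u0 u : ℝ) (k : ι), 0 < u0 → u0 ≤ u →
    ‖a k * Kc (x k * u)‖ ≤ C * u0 ^ (-2 : ℝ) * (‖a k‖ * x k ^ (-2 : ℝ)) := by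
  obtain ⟨C, hC0, hC⟩ := exists_Kc_bound
  refine ⟨C, hC0, fun u0 u k hu0 hu => ?_⟩
  have h0 := D.pos k
  have hu1 : 0 < u := hu0.trans_le hu
  have h1 := (hC (x k * u) (by positivity)).1
  rw [Real.mul_rpow h0.le hu1.le] at h1
  have h2 : u ^ (-2 : ℝ) ≤ u0 ^ (-2 : ℝ) := Real.rpow_le_rpow_of_nonpos hu0 hu (by norm_num)
  rw [norm_mul]
  calc ‖a k‖ * ‖Kc (x k * u)‖ ≤ ‖a k‖ * (C * (x k ^ (-2 : ℝ) * u0 ^ (-2 : ℝ))) := by
        refine mul_le_mul_of_nonneg_left (h1.trans ?_) (norm_nonneg _)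
        gcongr
    _ = _ := by ring

theorem norm_Phi_le (D : Dat a x m) : ∃ C : ℝ, 0 ≤ C ∧ ∀ u : ℝ, 0 < u →
    ‖Phi a x u‖ ≤ C * u ^ (-2 : ℝ) := by
  obtain ⟨C, hC0, hC⟩ := D.term_le
  refine ⟨C * ∑' k, ‖a k‖ * x k ^ (-2 : ℝ),
    mul_nonneg hC0 (tsum_nonneg fun k => by have := D.pos k; positivity), fun u hu => ?_⟩
  have h := tsum_of_norm_bounded (D.summ2.mul_left (C * u ^ (-2 : ℝ))).hasSum
    (fun k => hC u u k hu le_rfl)
  rw [tsum_mul_left] at h
  refine h.trans (le_of_eq ?_)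
  ring

theorem continuousOn_Phi (D : Dat a x m) : ContinuousOn (Phi a x) (Ioi 0) := by
  obtain ⟨C, hC0, hC⟩ := D.term_le
  have hloc : ∀ u0 : ℝ, 0 < u0 → ContinuousOn (Phi a x) (Ioi u0) := by
    intro u0 hu0
    unfold Phi
    refine continuousOn_tsum (fun k => ?_) (D.summ2.mul_left (C * u0 ^ (-2 : ℝ)))
      (fun k u hu => hC u0 u k hu0 (le_of_lt hu))
    refine continuousOn_const.mul (continuousOn_Kc.comp (by fun_prop) fun u hu => ?_)
    exact mul_pos (D.pos k) (hu0.trans hu)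
  intro u hu
  have hu : 0 < u := hu
  have h1 := hloc (u / 2) (by positivity) u (show u / 2 < u by linarith)
  exact (h1.continuousAt (Ioi_mem_nhds (by linarith))).continuousWithinAt

theorem norm_cpow (D : Dat a x m) (k : ι) {s : ℂ} (hs : s.re = 3 / 2) :
    ‖(x k : ℂ) ^ (-s)‖ = x k ^ (-(3 / 2) : ℝ) := by
  rw [norm_cpow_eq_rpow_re_of_pos (D.pos k), neg_re, hs]

theorem mellin_Phi [Countable ι] (D : Dat a x m) {s : ℂ} (hs : s.re = 3 / 2) :
    mellin (Phi a x) s = gam s * Dser a x s := by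
  have hK : MellinConvergent Kc s := mellinConvergent_Kc (by rw [hs]; norm_num) (by rw [hs]; norm_num)
  set g : ℝ → ℝ := fun u => u ^ (1 / 2 : ℝ) * ‖Kc u‖ with hg
  set F : ι → ℝ → ℂ := fun k u => a k * ((u : ℂ) ^ (s - 1) • Kc (x k * u)) with hF
  have hint : ∀ k, Integrable (F k) (volume.restrict (Ioi (0 : ℝ))) := fun k =>
    ((MellinConvergent.comp_mul_left (D.pos k)).2 hK).const_mul (a k)
  have hnorm : ∀ k, ∫ u in Ioi (0 : ℝ), ‖F k u‖ =
      (∫ u in Ioi (0 : ℝ), g u) * (‖a k‖ * x k ^ (-(3 / 2) : ℝ)) := by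
    intro k
    have h0 := D.pos k
    have h1 : ∫ u in Ioi (0 : ℝ), ‖F k u‖ =
        ∫ u in Ioi (0 : ℝ), (‖a k‖ * x k ^ (-(1 / 2) : ℝ)) * g (x k * u) := by
      refine setIntegral_congr_fun measurableSet_Ioi fun u hu => ?_
      have hu : (0 : ℝ) < u := hu
      simp only [hF, hg, norm_mul, norm_smul, norm_cpow_eq_rpow_re_of_pos hu, sub_re, hs, one_re]
      rw [Real.mul_rpow h0.le hu.le, Real.rpow_neg h0.le, show (3 / 2 - 1 : ℝ) = 1 / 2 by norm_num]
      have : x k ^ (1 / 2 : ℝ) ≠ 0 := by positivity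
      field_simp
    rw [h1, integral_const_mul, integral_comp_mul_left_Ioi g 0 h0, mul_zero, smul_eq_mul,
      show (-(3 / 2) : ℝ) = -(1 / 2) + -1 by norm_num, Real.rpow_add h0, Real.rpow_neg_one]
    ring
  have hsum : Summable fun k => ∫ u in Ioi (0 : ℝ), ‖F k u‖ := by
    simp only [hnorm]
    exact D.summ.mul_left _
  have h1 := (hasSum_integral_of_summable_integral_norm hint hsum).tsum_eq
  have h2 : mellin (Phi a x) s = ∫ u in Ioi (0 : ℝ), ∑' k, F k u := by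
    rw [mellin]
    refine setIntegral_congr_fun measurableSet_Ioi fun u _ => ?_
    simp only [hF, Phi, smul_eq_mul]
    rw [← tsum_mul_left]
    refine tsum_congr fun k => ?_
    ring
  rw [h2, ← h1, Dser, ← tsum_mul_left]
  refine tsum_congr fun k => ?_
  simp only [hF]
  rw [integral_const_mul]
  have h3 := mellin_comp_mul_left Kc s (D.pos k)
  rw [mellin] at h3
  rw [h3, mellin_Kc (by rw [hs]; norm_num), smul_eq_mul]
  ring

theorem norm_Dser_le (D : Dat a x m) {s : ℂ} (hs : s.re = 3 / 2) :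
    ‖Dser a x s‖ ≤ ∑' k, ‖a k‖ * x k ^ (-(3 / 2) : ℝ) := by
  refine tsum_of_norm_bounded D.summ.hasSum fun k => ?_
  rw [norm_mul, D.norm_cpow k hs]

theorem continuous_term (D : Dat a x m) {s : ℝ → ℂ} (hc : Continuous s) (k : ι) :
    Continuous fun t => (x k : ℂ) ^ (-s t) :=
  Continuous.const_cpow hc.neg (Or.inl (by exact_mod_cast (D.pos k).ne'))

theorem continuous_Dser (D : Dat a x m) {s : ℝ → ℂ} (hc : Continuous s)
    (hs : ∀ t, (s t).re = 3 / 2) : Continuous fun t => Dser a x (s t) := by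
  unfold Dser
  refine continuous_tsum (fun k => continuous_const.mul (D.continuous_term hc k)) D.summ
    fun k t => ?_
  rw [norm_mul, D.norm_cpow k (hs t)]

theorem integrable_Dser (D : Dat a x m) {s : ℝ → ℂ} (hc : Continuous s)
    (hs : ∀ t, (s t).re = 3 / 2) {μ : ℝ → ℂ} (hμ : Integrable μ) :
    Integrable fun t => μ t * Dser a x (s t) :=
  hμ.mul_bdd (D.continuous_Dser hc hs).aestronglyMeasurable
    (ae_of_all _ fun t => D.norm_Dser_le (hs t))

theorem hasSum_integral [Countable ι] (D : Dat a x m) {s : ℝ → ℂ} (hc : Continuous s)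
    (hs : ∀ t, (s t).re = 3 / 2) {μ : ℝ → ℂ} (hμ : Integrable μ) :
    HasSum (fun k => a k * ∫ t, μ t * (x k : ℂ) ^ (-s t)) (∫ t, μ t * Dser a x (s t)) := by
  set F : ι → ℝ → ℂ := fun k t => a k * (μ t * (x k : ℂ) ^ (-s t)) with hF
  have hint : ∀ k, Integrable (F k) := fun k =>
    (hμ.mul_bdd (D.continuous_term hc k).aestronglyMeasurable
      (ae_of_all _ fun t => (D.norm_cpow k (hs t)).le)).const_mul (a k)
  have hnorm : ∀ k, ∫ t, ‖F k t‖ = (∫ t, ‖μ t‖) * (‖a k‖ * x k ^ (-(3 / 2) : ℝ)) := by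
    intro k
    rw [← integral_mul_const]
    refine integral_congr_ae (ae_of_all _ fun t => ?_)
    simp only [hF, norm_mul, D.norm_cpow k (hs t)]
    ring
  have hsum : Summable fun k => ∫ t, ‖F k t‖ := by
    simp only [hnorm]
    exact D.summ.mul_left _
  have h1 := hasSum_integral_of_summable_integral_norm hint hsum
  have e1 : (fun k => ∫ t, F k t) = fun k => a k * ∫ t, μ t * (x k : ℂ) ^ (-s t) := by
    funext k
    simp only [hF]
    rw [integral_const_mul]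
  have e2 : (∫ t, ∑' k, F k t) = ∫ t, μ t * Dser a x (s t) := by
    refine integral_congr_ae (ae_of_all _ fun t => ?_)
    simp only [hF, Dser]
    rw [← tsum_mul_left]
    refine tsum_congr fun k => ?_
    ring
  rwa [e1, e2] at h1

end Dat

section
variable {W : ℝ → ℂ} {α β : ℝ}

theorem integrable_mu_neg (H : Nice W α β) :
    Integrable fun t : ℝ => mellin W ((-1 / 2 : ℝ) + t * I) * Gr ((-1 / 2 : ℝ) + t * I) := by
  refine ((nice_integrable_poly H (-1 / 2) 4).const_mul 16).mono' ?_ (ae_of_all _ fun t => ?_)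
  · exact ((nice_continuous_line H _).mul (continuous_Gr_line (by norm_num))).aestronglyMeasurable
  · rw [norm_mul]
    calc _ ≤ ‖mellin W ((-1 / 2 : ℝ) + t * I)‖ * (2 * (1 + |t|)) ^ 4 := by
          gcongr; exact norm_Gr_neg_half t
      _ = _ := by ring

theorem integrable_mu_pos (H : Nice W α β) :
    Integrable fun t : ℝ => mellin W ((1 / 2 : ℝ) + t * I) * Gr ((1 / 2 : ℝ) + t * I) :=
  (nice_integrable_line H (1 / 2)).mul_bdd (continuous_Gr_line (by norm_num)).aestronglyMeasurable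
    (ae_of_all _ fun t => norm_Gr_half t)

/-- **abstract Voronoi formula** -/
theorem voronoi {ι : Type} [Countable ι] {a b : ι → ℂ} {x y : ι → ℝ} {m m' : ℝ} (Da : Dat a x m)
    (Db : Dat b y m') (hfe : ∀ u : ℝ, 0 < u → Phi a x u = (u : ℂ)⁻¹ * Phi b y u⁻¹)
    (H : Nice W α β) :
    HasSum (fun k => b k * What (-1 / 2) W (y k)) (∑' k, a k * W (x k)) := by
  obtain ⟨Ca, hCa0, hCa⟩ := Da.norm_Phi_le
  obtain ⟨Cb, hCb0, hCb⟩ := Db.norm_Phi_le
  have hli : LocallyIntegrableOn (Phi a x) (Ioi 0) :=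
    Da.continuousOn_Phi.locallyIntegrableOn measurableSet_Ioi
  have htop : Phi a x =O[atTop] fun u : ℝ => u ^ (-(2 : ℝ)) := by
    refine IsBigO.of_bound Ca ?_
    filter_upwards [eventually_gt_atTop 0] with u hu
    rw [Real.norm_of_nonneg (by positivity)]
    exact hCa u hu
  have hbot : Phi a x =O[𝓝[>] 0] fun u : ℝ => u ^ (-(-1 : ℝ)) := by
    refine IsBigO.of_bound Cb ?_
    filter_upwards [self_mem_nhdsWithin] with u hu
    have hu : 0 < u := hu
    rw [Real.norm_of_nonneg (by positivity), neg_neg, Real.rpow_one, hfe u hu, norm_mul, norm_inv,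
      norm_real, Real.norm_of_nonneg hu.le]
    have h1 := hCb u⁻¹ (by positivity)
    rw [Real.inv_rpow hu.le, ← Real.rpow_neg hu.le, neg_neg, Real.rpow_two] at h1
    calc u⁻¹ * ‖Phi b y u⁻¹‖ ≤ u⁻¹ * (Cb * u ^ 2) := by gcongr
      _ = Cb * u := by field_simp
  have hdiff : ∀ s : ℂ, -1 / 2 ≤ s.re → s.re ≤ 3 / 2 → DifferentiableAt ℂ (mellin (Phi a x)) s :=
    fun s h1 h2 => mellin_differentiableAt_of_isBigO_rpow hli htop (by linarith) hbot (by linarith)
  obtain ⟨CL, hCL0, hCL⟩ := exists_mellin_bound (f := Phi a x) (σ0 := -1 / 2) (σ1 := 3 / 2)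
    (mellinConvergent_of_isBigO_rpow hli htop (by simp; norm_num) hbot (by simp; norm_num))
    (mellinConvergent_of_isBigO_rpow hli htop (by simp; norm_num) hbot (by simp; norm_num))
  obtain ⟨CW, hCW0, hCW⟩ := nice_strip_bound H (-1 / 2) (3 / 2)
  obtain ⟨CG, hCG0, hCG⟩ := exists_gamInv_bound
  set F : ℂ → ℂ := fun s => mellin W s * (mellin (Phi a x) s * gamInv s) with hF
  -- the two lines
  have e1 : ∀ t : ℝ, F (((3 / 2 : ℝ) : ℂ) + t * I) =
      mellin W (((3 / 2 : ℝ) : ℂ) + t * I) * Dser a x (((3 / 2 : ℝ) : ℂ) + t * I) := by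
    intro t
    have hs : (((3 / 2 : ℝ) : ℂ) + t * I).re = 3 / 2 := by simp
    simp only [hF]
    rw [Da.mellin_Phi hs, mul_right_comm, gam_mul_gamInv (by rw [hs]; norm_num), one_mul]
  have hre : ∀ t : ℝ, (1 - (((-1 / 2 : ℝ) : ℂ) + t * I)).re = 3 / 2 := by
    intro t
    rw [sub_re, add_re, ofReal_re]; simp; norm_num
  have e0 : ∀ t : ℝ, F (((-1 / 2 : ℝ) : ℂ) + t * I) =
      (mellin W (((-1 / 2 : ℝ) : ℂ) + t * I) * Gr (((-1 / 2 : ℝ) : ℂ) + t * I)) *
        Dser b y (1 - (((-1 / 2 : ℝ) : ℂ) + t * I)) := by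
    intro t
    set s : ℂ := ((-1 / 2 : ℝ) : ℂ) + t * I with hs
    have h1 : mellin (Phi a x) s = mellin (fun u : ℝ => (u : ℂ) ^ (-1 : ℂ) • Phi b y u⁻¹) s := by
      refine setIntegral_congr_fun measurableSet_Ioi fun u hu => ?_
      simp only
      rw [hfe u hu, cpow_neg_one, smul_eq_mul, smul_eq_mul, smul_eq_mul]
    rw [mellin_cpow_smul, mellin_comp_inv, show -(s + -1) = 1 - s by ring,
      Db.mellin_Phi (hre t)] at h1
    simp only [hF]
    rw [h1, Gr]
    ring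
  have i1 : Integrable fun t : ℝ => F (((3 / 2 : ℝ) : ℂ) + t * I) := by
    simp only [e1]
    exact Da.integrable_Dser (by fun_prop) (fun t => by simp) (nice_integrable_line H _)
  have i0 : Integrable fun t : ℝ => F (((-1 / 2 : ℝ) : ℂ) + t * I) := by
    simp only [e0]
    exact Db.integrable_Dser (by fun_prop) hre (integrable_mu_neg H)
  have hshift := shift (F := F) (σ0 := -1 / 2) (σ1 := 3 / 2) (C := CW * (CL * CG)) (B := 2 * π)
    (by norm_num)
    (fun s h1 h2 => (nice_differentiable H s).mul ((hdiff s h1 h2).mul (differentiable_gamInv s)))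
    (fun s h1 h2 h3 => by
      simp only [hF, norm_mul]
      have a1 := hCW s h1 h2
      have a2 := hCL s h1 h2
      have a3 := hCG s (by linarith) (by linarith) h3
      calc _ ≤ CW * (CL * (CG * Real.exp (2 * π * |s.im|))) := by gcongr
        _ = _ := by ring) i0 i1
  simp only [e0, e1] at hshift
  have s1 := (Da.hasSum_integral (s := fun t : ℝ => ((3 / 2 : ℝ) : ℂ) + t * I) (by fun_prop)
    (fun t => by simp) (nice_integrable_line H (3 / 2))).mul_left ((1 / (2 * π) : ℝ) : ℂ)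
  have s0 := (Db.hasSum_integral (s := fun t : ℝ => 1 - (((-1 / 2 : ℝ) : ℂ) + t * I)) (by fun_prop)
    hre (integrable_mu_neg H)).mul_left ((1 / (2 * π) : ℝ) : ℂ)
  have e2 : ∑' k, a k * W (x k) = ((1 / (2 * π) : ℝ) : ℂ) *
      ∫ t : ℝ, mellin W (((3 / 2 : ℝ) : ℂ) + t * I) * Dser a x (((3 / 2 : ℝ) : ℂ) + t * I) := by
    rw [← s1.tsum_eq]
    refine tsum_congr fun k => ?_
    rw [nice_inversion H (3 / 2) (Da.pos k)]
    ring
  rw [e2, ← hshift]
  have e3 : (fun k => b k * What (-1 / 2) W (y k)) = fun k => ((1 / (2 * π) : ℝ) : ℂ) *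
      (b k * ∫ t : ℝ, mellin W (((-1 / 2 : ℝ) : ℂ) + t * I) * Gr (((-1 / 2 : ℝ) : ℂ) + t * I) *
        (y k : ℂ) ^ (-(1 - (((-1 / 2 : ℝ) : ℂ) + t * I)))) := by
    funext k
    rw [What]
    ring
  rw [e3]
  exact s0

/-- the dual weight does not depend on the line -/
theorem What_shift (H : Nice W α β) {y : ℝ} (hy : 0 < y) : What (-1 / 2) W y = What (1 / 2) W y := by
  obtain ⟨CW, hCW0, hCW⟩ := nice_strip_bound H (-1 / 2) (1 / 2)
  obtain ⟨CG, hCG0, hCG⟩ := exists_gamInv_bound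
  obtain ⟨Cg, hCg0, hCg⟩ := exists_gam_bound
  have hy' : (y : ℂ) ≠ 0 := by exact_mod_cast hy.ne'
  have hcont : ∀ σ : ℝ, Continuous fun t : ℝ => (y : ℂ) ^ (-(1 - ((σ : ℂ) + t * I))) := fun σ =>
    Continuous.const_cpow (by fun_prop) (Or.inl hy')
  have hnorm : ∀ s : ℂ, ‖(y : ℂ) ^ (-(1 - s))‖ = y ^ (s.re - 1) := by
    intro s
    rw [norm_cpow_eq_rpow_re_of_pos hy]
    simp
  rw [What, What]
  congr 1
  refine shift (F := fun s => mellin W s * Gr s * (y : ℂ) ^ (-(1 - s))) (σ0 := -1 / 2) (σ1 := 1 / 2)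
    (C := CW * (Cg * CG) * (y ^ (-(3 / 2) : ℝ) + y ^ (-(1 / 2) : ℝ))) (B := 2 * π) (by norm_num)
    (fun s h1 h2 => ?_) (fun s h1 h2 h3 => ?_) ?_ ?_
  · refine ((nice_differentiable H s).mul (differentiableAt_Gr (by linarith))).mul ?_
    exact DifferentiableAt.const_cpow (by fun_prop) (Or.inl hy')
  · have a1 := hCW s h1 h2
    have a2 := hCg (1 - s) (by simp; linarith) (by simp; linarith)
    have a3 := hCG s (by linarith) (by linarith) h3
    have a4 : y ^ (s.re - 1) ≤ y ^ (-(3 / 2) : ℝ) + y ^ (-(1 / 2) : ℝ) := by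
      have b0 : 0 ≤ y ^ (-(3 / 2) : ℝ) := by positivity
      have b1 : 0 ≤ y ^ (-(1 / 2) : ℝ) := by positivity
      rcases le_total y 1 with h | h
      · have := Real.rpow_le_rpow_of_exponent_ge hy h (show -(3 / 2) ≤ s.re - 1 by linarith)
        linarith
      · have := Real.rpow_le_rpow_of_exponent_le h (show s.re - 1 ≤ -(1 / 2) by linarith)
        linarith
    rw [norm_mul, norm_mul, Gr, norm_mul, hnorm]
    calc _ ≤ CW * (Cg * (CG * Real.exp (2 * π * |s.im|))) *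
          (y ^ (-(3 / 2) : ℝ) + y ^ (-(1 / 2) : ℝ)) := by gcongr
      _ = _ := by ring
  · exact (integrable_mu_neg H).mul_bdd (c := y ^ ((-1 / 2 : ℝ) - 1)) (hcont _).aestronglyMeasurable
      (ae_of_all _ fun t => by rw [hnorm, add_re, ofReal_re]; simp)
  · exact (integrable_mu_pos H).mul_bdd (c := y ^ ((1 / 2 : ℝ) - 1)) (hcont _).aestronglyMeasurable
      (ae_of_all _ fun t => by rw [hnorm, add_re, ofReal_re]; simp)

end

end Vale.Agent.P026Z.Vor
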