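import Vale.Agent.P026Z.TH.Coef
import Vale.Agent.P026Z.QLS.Defs

/-!
P026, block VOR, part V5a: the quadratic large sieve for coefficients dominated by the Fourier
coefficients of the cubic theta function.
-/

open Finset

namespace Vale.Agent.P026Z.Vor

open Vale.Agent.P006 Vale.Agent.P006.HB Vale.Agent.P026Z.TH Vale.Agent.P026Z.QLS

/-- the size of the normalised theta coefficient -/
noncomputable def cfT (k : O) : ℝ := ‖th k‖ * (N k : ℝ) ^ (1 / 6 : ℝ)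

theorem cfT_nonneg (k : O) : 0 ≤ cfT k := by unfold cfT; positivity

theorem cfT_zero : cfT 0 = 0 := by simp [cfT]

/-- the support of the theta coefficients: `k = e m³ n`, `N e ≤ 9`, `n` squarefree -/
theorem exists_cube_shape : ∃ C : ℝ, 0 < C ∧ ∀ k : O, cfT k ≠ 0 → ∃ e m n : O,
    e ∈ Hn 9 ∧ m ≠ 0 ∧ InP n ∧ k = e * m ^ 3 * n ∧ cfT k ≤ C * Real.sqrt (N m) := by
  obtain ⟨C, hC, hS⟩ := exists_shape_th
  refine ⟨2 * C + 1, by positivity, fun k hk => ?_⟩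
  have hk0 : k ≠ 0 := by rintro rfl; exact hk cfT_zero
  have hth : th k ≠ 0 := by
    intro h; apply hk; rw [cfT, h, norm_zero, zero_mul]
  obtain ⟨μ, n, b, ⟨u, j, hu, rfl⟩, hn, hb, hkeq, hle⟩ := hS k hk0 hth
  have hNe : (N (u * lam ^ (j % 3)) : ℝ) ≤ 9 := by
    rw [N_mul, isUnit_iff_N.1 hu, one_mul, N_pow, N_lam]
    have : 3 ^ (j % 3) ≤ 3 ^ 2 := Nat.pow_le_pow_right (by norm_num) (by omega)
    exact_mod_cast this
  have he0 : u * lam ^ (j % 3) ≠ 0 := mul_ne_zero hu.ne_zero (pow_ne_zero _ lam_ne_zero)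
  have hm0 : lam ^ (j / 3) * b ≠ 0 := mul_ne_zero (pow_ne_zero _ lam_ne_zero) hb.ne_zero
  have hfac : k = u * lam ^ (j % 3) * (lam ^ (j / 3) * b) ^ 3 * n := by
    rw [hkeq]
    conv_lhs => rw [← Nat.mod_add_div j 3]
    ring
  refine ⟨u * lam ^ (j % 3), lam ^ (j / 3) * b, n, mem_Hn.2 ⟨hNe, he0⟩, hm0, hn, hfac, ?_⟩
  set e := u * lam ^ (j % 3) with he
  set m := lam ^ (j / 3) * b with hm
  have hNn : (0 : ℝ) < N n := by exact_mod_cast N_pos hn.ne_zero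
  have hNm : (0 : ℝ) < N m := by exact_mod_cast N_pos hm0
  have hNe0 : (0 : ℝ) ≤ N e := Nat.cast_nonneg _
  have h1 : (N k : ℝ) ^ (1 / 6 : ℝ) =
      (N e : ℝ) ^ (1 / 6 : ℝ) * Real.sqrt (N m) * (N n : ℝ) ^ (1 / 6 : ℝ) := by
    rw [hfac, N_mul, N_mul, N_pow]
    push_cast
    rw [Real.mul_rpow (by positivity) hNn.le, Real.mul_rpow hNe0 (by positivity),
      Real.sqrt_eq_rpow, ← Real.rpow_natCast, ← Real.rpow_mul hNm.le]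
    norm_num
  have h2 : (N e : ℝ) ^ (1 / 6 : ℝ) ≤ 2 := by
    calc (N e : ℝ) ^ (1 / 6 : ℝ) ≤ ((2 : ℝ) ^ (6 : ℕ)) ^ (1 / 6 : ℝ) :=
          Real.rpow_le_rpow hNe0 (by linarith) (by norm_num)
      _ = 2 := by rw [← Real.rpow_natCast, ← Real.rpow_mul (by norm_num)]; norm_num
  have h3 : (N n : ℝ) ^ (-(1 / 6) : ℝ) * (N n : ℝ) ^ (1 / 6 : ℝ) = 1 := by
    rw [← Real.rpow_add hNn]; norm_num
  have h4 : 0 ≤ Real.sqrt (N m) := Real.sqrt_nonneg _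
  rw [cfT, h1]
  calc ‖th k‖ * ((N e : ℝ) ^ (1 / 6 : ℝ) * Real.sqrt (N m) * (N n : ℝ) ^ (1 / 6 : ℝ))
      ≤ (C * (N n : ℝ) ^ (-(1 / 6) : ℝ)) * (2 * Real.sqrt (N m) * (N n : ℝ) ^ (1 / 6 : ℝ)) := by
        gcongr
    _ = 2 * C * Real.sqrt (N m) * ((N n : ℝ) ^ (-(1 / 6) : ℝ) * (N n : ℝ) ^ (1 / 6 : ℝ)) := by ring
    _ ≤ (2 * C + 1) * Real.sqrt (N m) := by rw [h3]; nlinarith

/-- weighted Cauchy-Schwarz -/
theorem norm_sum_sq_le_weight {ι : Type*} (s : Finset ι) (z : ι → ℂ) (w : ι → ℝ)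
    (hw : ∀ i ∈ s, 0 < w i) : ‖∑ i ∈ s, z i‖ ^ 2 ≤ (∑ i ∈ s, w i) * ∑ i ∈ s, ‖z i‖ ^ 2 / w i := by
  rcases s.eq_empty_or_nonempty with rfl | hs
  · simp
  have h1 := Finset.sq_sum_div_le_sum_sq_div s (fun i => ‖z i‖) hw
  have h2 : 0 < ∑ i ∈ s, w i := Finset.sum_pos hw hs
  rw [div_le_iff₀ h2] at h1
  calc ‖∑ i ∈ s, z i‖ ^ 2 ≤ (∑ i ∈ s, ‖z i‖) ^ 2 := by gcongr; exact norm_sum_le _ _
    _ ≤ _ := by rw [mul_comm]; exact h1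

/-- the decomposition of a finite set of frequencies along the cube part -/
theorem exists_fibers : ∃ C : ℝ, 0 < C ∧ ∀ (K : ℝ) (S : Finset O) (β : O → ℂ),
    (∀ k ∈ S, (N k : ℝ) ≤ K ∧ ‖β k‖ ≤ cfT k) →
    ∃ V : O × O → Finset O, (∀ p ∈ Hn 9 ×ˢ Hn K, ∀ v ∈ V p, Squarefree v ∧
        (N v : ℝ) ≤ K / (N p.2 : ℝ) ^ 3 ∧ ‖β (p.1 * p.2 ^ 3 * v)‖ ≤ C * Real.sqrt (N p.2)) ∧
      ∀ F : O → ℂ, ∑ k ∈ S, β k * F k =
        ∑ p ∈ Hn 9 ×ˢ Hn K, ∑ v ∈ V p, β (p.1 * p.2 ^ 3 * v) * F (p.1 * p.2 ^ 3 * v) := by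
  classical
  obtain ⟨C, hC, hsh⟩ := exists_cube_shape
  refine ⟨C, hC, fun K S β hS => ?_⟩
  choose! e m n hemn using hsh
  set S' := S.filter (fun k => β k ≠ 0) with hS'
  have hcf : ∀ k ∈ S', cfT k ≠ 0 := by
    intro k hk h0
    rw [hS', mem_filter] at hk
    have h1 := (hS k hk.1).2
    rw [h0] at h1
    exact hk.2 (norm_le_zero_iff.1 h1)
  have hNk : ∀ k ∈ S', (N (e k) : ℝ) * (N (m k) : ℝ) ^ 3 * N (n k) ≤ K := by
    intro k hk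
    have h1 := (hS k (mem_filter.1 hk).1).1
    have h2 := (hemn k (hcf k hk)).2.2.2.1
    have h3 : (N k : ℝ) = (N (e k) : ℝ) * (N (m k) : ℝ) ^ 3 * N (n k) := by
      conv_lhs => rw [h2]
      rw [N_mul, N_mul, N_pow]; push_cast; ring
    rwa [h3] at h1
  have hone : ∀ k ∈ S', (1 : ℝ) ≤ N (e k) ∧ (1 : ℝ) ≤ N (m k) ∧ (1 : ℝ) ≤ N (n k) := by
    intro k hk
    obtain ⟨h1, h2, h3, -⟩ := hemn k (hcf k hk)
    exact ⟨one_le_N (mem_Hn.1 h1).2, one_le_N h2, one_le_N h3.ne_zero⟩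
  have hmaps : ∀ k ∈ S', ((e k, m k) : O × O) ∈ Hn 9 ×ˢ Hn K := by
    intro k hk
    obtain ⟨h1, h2, h3, -⟩ := hemn k (hcf k hk)
    obtain ⟨o1, o2, o3⟩ := hone k hk
    refine mem_product.2 ⟨h1, mem_Hn.2 ⟨le_trans ?_ (hNk k hk), h2⟩⟩
    have h4 : (N (m k) : ℝ) ≤ (N (m k) : ℝ) ^ 3 := le_self_pow₀ o2 (by norm_num)
    calc (N (m k) : ℝ) ≤ 1 * (N (m k) : ℝ) ^ 3 * 1 := by linarith
      _ ≤ _ := by gcongr
  refine ⟨fun p => (S'.filter (fun k => (e k, m k) = p)).image n, ?_, fun F => ?_⟩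
  · intro p _ v hv
    obtain ⟨k, hk, rfl⟩ := mem_image.1 hv
    obtain ⟨hk1, hk2⟩ := mem_filter.1 hk
    obtain ⟨h1, h2, h3, h4, h5⟩ := hemn k (hcf k hk1)
    obtain ⟨o1, o2, o3⟩ := hone k hk1
    subst hk2
    refine ⟨h3.2, ?_, ?_⟩
    · rw [le_div_iff₀ (by positivity)]
      refine le_trans ?_ (hNk k hk1)
      calc (N (n k) : ℝ) * (N (m k) : ℝ) ^ 3 = 1 * (N (m k) : ℝ) ^ 3 * N (n k) := by ring
        _ ≤ _ := by gcongr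
    · show ‖β (e k * m k ^ 3 * n k)‖ ≤ _
      rw [← h4]
      exact (hS k (mem_filter.1 hk1).1).2.trans h5
  · have h1 : ∑ k ∈ S, β k * F k = ∑ k ∈ S', β k * F k := by
      rw [hS', sum_filter]
      refine sum_congr rfl fun k _ => ?_
      split_ifs with h
      · rfl
      · rw [not_not.1 h, zero_mul]
    rw [h1, ← sum_fiberwise_of_maps_to hmaps]
    refine sum_congr rfl fun p _ => ?_
    have hinj : Set.InjOn n (S'.filter (fun k => (e k, m k) = p)) := by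
      intro k hk k' hk' hn
      obtain ⟨hk1, hk2⟩ := mem_filter.1 (mem_coe.1 hk)
      obtain ⟨hk1', hk2'⟩ := mem_filter.1 (mem_coe.1 hk')
      have e1 := (hemn k (hcf k hk1)).2.2.2.1
      have e2 := (hemn k' (hcf k' hk1')).2.2.2.1
      have e3 := hk2.trans hk2'.symm
      rw [Prod.mk.injEq] at e3
      rw [e1, e2, e3.1, e3.2, hn]
    rw [sum_image hinj]
    refine sum_congr rfl fun k hk => ?_
    obtain ⟨hk1, hk2⟩ := mem_filter.1 hk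
    have e1 := (hemn k (hcf k hk1)).2.2.2.1
    rw [← hk2]
    show _ = β (e k * m k ^ 3 * n k) * F (e k * m k ^ 3 * n k)
    rw [← e1]

/-- the mass of one fibre -/
theorem fiber_mass {C C1 ε K : ℝ} (hK : 1 ≤ K) (hε : 0 < ε) (hC1 : 0 < C1)
    (h1 : ∀ X : ℝ, 0 ≤ X → ((Hn X).card : ℝ) ≤ C1 * X ^ (1 + ε)) {m : O} (hm : m ≠ 0)
    (V : Finset O) (c : O → ℂ)
    (hV : ∀ v ∈ V, Squarefree v ∧ (N v : ℝ) ≤ K / (N m : ℝ) ^ 3 ∧ ‖c v‖ ≤ C * Real.sqrt (N m)) :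
    ∑ v ∈ V, ‖c v‖ ^ 2 ≤ C ^ 2 * C1 * K ^ (1 + ε) / (N m : ℝ) ^ 2 := by
  have hN : (1 : ℝ) ≤ N m := one_le_N hm
  have hsub : V ⊆ Hn (K / (N m : ℝ) ^ 3) := fun v hv =>
    mem_Hn.2 ⟨(hV v hv).2.1, (hV v hv).1.ne_zero⟩
  have h2 : (V.card : ℝ) ≤ C1 * (K / (N m : ℝ) ^ 3) ^ (1 + ε) :=
    le_trans (by exact_mod_cast card_le_card hsub) (h1 _ (by positivity))
  have h3 : (K / (N m : ℝ) ^ 3) ^ (1 + ε) ≤ K ^ (1 + ε) / (N m : ℝ) ^ 3 := by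
    rw [Real.div_rpow (by positivity) (by positivity)]
    refine div_le_div_of_nonneg_left (by positivity) (by positivity) ?_
    have h4 : (1 : ℝ) ≤ (N m : ℝ) ^ 3 := one_le_pow₀ hN
    calc (N m : ℝ) ^ 3 = ((N m : ℝ) ^ 3) ^ (1 : ℝ) := (Real.rpow_one _).symm
      _ ≤ _ := Real.rpow_le_rpow_of_exponent_le h4 (by linarith)
  have h4 : ∀ v ∈ V, ‖c v‖ ^ 2 ≤ C ^ 2 * N m := by
    intro v hv
    calc ‖c v‖ ^ 2 ≤ (C * Real.sqrt (N m)) ^ 2 := by gcongr; exact (hV v hv).2.2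
      _ = C ^ 2 * N m := by rw [mul_pow, Real.sq_sqrt (by positivity)]
  calc ∑ v ∈ V, ‖c v‖ ^ 2 ≤ V.card • (C ^ 2 * N m) := sum_le_card_nsmul _ _ _ h4
    _ = V.card * (C ^ 2 * N m) := by rw [nsmul_eq_mul]
    _ ≤ (C1 * (K ^ (1 + ε) / (N m : ℝ) ^ 3)) * (C ^ 2 * N m) := by
        gcongr
        exact h2.trans (by gcongr)
    _ = _ := by field_simp

theorem sum_weight_le {C2 ε K : ℝ}
    (h2 : ∀ X : ℝ, 0 ≤ X → ∑ h ∈ Hn X, (N h : ℝ)⁻¹ ≤ C2 * X ^ ε) (hK : 1 ≤ K) :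
    ∑ p ∈ Hn 9 ×ˢ Hn K, (N p.2 : ℝ)⁻¹ ≤ (Hn 9).card * (C2 * K ^ ε) := by
  rw [sum_product]
  calc ∑ x ∈ Hn 9, ∑ y ∈ Hn K, (N y : ℝ)⁻¹ ≤ ∑ x ∈ Hn 9, C2 * K ^ ε :=
        sum_le_sum fun _ _ => h2 K (by linarith)
    _ = _ := by rw [sum_const, nsmul_eq_mul]

/-- **the quadratic large sieve for theta-shaped coefficients** -/
theorem shape_ls {ρ : O → O → ℂ} (hQ : QLSmod ρ)
    (hmul : ∀ n x y : O, Od n → ρ n (x * y) = ρ n x * ρ n y)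
    (hle : ∀ n x : O, Od n → ‖ρ n x‖ ≤ 1) {ε : ℝ} (hε : 0 < ε) :
    ∃ C : ℝ, 0 < C ∧ ∀ (K Y : ℝ) (T S : Finset O) (β : O → ℂ), 1 ≤ K → 1 ≤ Y →
      (∀ h ∈ T, Od h ∧ (N h : ℝ) ≤ Y) → (∀ k ∈ S, (N k : ℝ) ≤ K ∧ ‖β k‖ ≤ cfT k) →
      ∑ h ∈ T, ‖∑ k ∈ S, β k * ρ h k‖ ^ 2 ≤ C * (K * Y) ^ ε * (K + Y) * K := by
  have hε4 : 0 < ε / 4 := by positivity
  obtain ⟨C0, hC0, hfib⟩ := exists_fibers
  obtain ⟨C1, hC1, h1⟩ := card_Hn_le hε4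
  obtain ⟨C2, hC2, h2⟩ := sum_inv_N_le hε4
  obtain ⟨C3, hC3, h3⟩ := hQ (ε / 4) hε4
  refine ⟨((Hn 9).card * C2) ^ 2 * (C3 * (C0 ^ 2 * C1)) + 1, by positivity,
    fun K Y T S β hK hY hT hS => ?_⟩
  obtain ⟨V, hV, hsum⟩ := hfib K S β hS
  set P := Hn 9 ×ˢ Hn K with hP
  set W : ℝ := ∑ p ∈ P, (N p.2 : ℝ)⁻¹ with hW
  have hWle : W ≤ (Hn 9).card * (C2 * K ^ (ε / 4)) := sum_weight_le h2 hK
  have hW0 : 0 ≤ W := sum_nonneg fun _ _ => by positivity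
  have hP2 : ∀ p ∈ P, p.2 ≠ 0 := fun p hp => (mem_Hn.1 (mem_product.1 hp).2).2
  have hNp : ∀ p ∈ P, (1 : ℝ) ≤ N p.2 := fun p hp => one_le_N (hP2 p hp)
  set B : ℝ := C3 * (K * Y) ^ (ε / 4) * (K + Y) * (C0 ^ 2 * C1 * K ^ (1 + ε / 4)) with hB
  -- each fibre
  have hfiber : ∀ p ∈ P, ∑ h ∈ T, ‖∑ v ∈ V p, β (p.1 * p.2 ^ 3 * v) * ρ h (p.1 * p.2 ^ 3 * v)‖ ^ 2
      ≤ B / (N p.2 : ℝ) ^ 2 := by
    intro p hp
    have hN := hNp p hp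
    have h4 := h3 K Y T (V p) (fun v => β (p.1 * p.2 ^ 3 * v)) hK hY hT (fun v hv => by
      refine ⟨(hV p hp v hv).1, (hV p hp v hv).2.1.trans ?_⟩
      exact div_le_self (by linarith) (one_le_pow₀ hN))
    have h5 := fiber_mass hK hε4 hC1 h1 (hP2 p hp) (V p) (fun v => β (p.1 * p.2 ^ 3 * v))
      (hV p hp)
    calc ∑ h ∈ T, ‖∑ v ∈ V p, β (p.1 * p.2 ^ 3 * v) * ρ h (p.1 * p.2 ^ 3 * v)‖ ^ 2
        ≤ ∑ h ∈ T, ‖∑ v ∈ V p, β (p.1 * p.2 ^ 3 * v) * ρ h v‖ ^ 2 := by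
          refine sum_le_sum fun h hh => ?_
          have e : ∑ v ∈ V p, β (p.1 * p.2 ^ 3 * v) * ρ h (p.1 * p.2 ^ 3 * v) =
              ρ h (p.1 * p.2 ^ 3) * ∑ v ∈ V p, β (p.1 * p.2 ^ 3 * v) * ρ h v := by
            rw [mul_sum]
            refine sum_congr rfl fun v _ => ?_
            rw [hmul h _ v (hT h hh).1]; ring
          rw [e, norm_mul]
          gcongr
          exact mul_le_of_le_one_left (norm_nonneg _) (hle h _ (hT h hh).1)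
      _ ≤ C3 * (K * Y) ^ (ε / 4) * (K + Y) * (C0 ^ 2 * C1 * K ^ (1 + ε / 4) / (N p.2 : ℝ) ^ 2) :=
          h4.trans (by gcongr)
      _ = _ := by rw [hB]; ring
  have hB0 : 0 ≤ B := by positivity
  calc ∑ h ∈ T, ‖∑ k ∈ S, β k * ρ h k‖ ^ 2
      ≤ ∑ h ∈ T, W * ∑ p ∈ P, ‖∑ v ∈ V p, β (p.1 * p.2 ^ 3 * v) *
          ρ h (p.1 * p.2 ^ 3 * v)‖ ^ 2 / (N p.2 : ℝ)⁻¹ := by
        refine sum_le_sum fun h _ => ?_
        rw [hsum (ρ h)]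
        exact norm_sum_sq_le_weight P _ _ fun p hp => by have := hNp p hp; positivity
    _ = W * ∑ p ∈ P, (∑ h ∈ T, ‖∑ v ∈ V p, β (p.1 * p.2 ^ 3 * v) *
          ρ h (p.1 * p.2 ^ 3 * v)‖ ^ 2) / (N p.2 : ℝ)⁻¹ := by
        rw [← mul_sum, sum_comm]
        congr 1
        refine sum_congr rfl fun p _ => ?_
        rw [sum_div]
    _ ≤ W * ∑ p ∈ P, B * (N p.2 : ℝ)⁻¹ := by
        gcongr with p hp
        have hN := hNp p hp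
        calc _ ≤ B / (N p.2 : ℝ) ^ 2 / (N p.2 : ℝ)⁻¹ := by gcongr; exact hfiber p hp
          _ = _ := by field_simp
    _ = W ^ 2 * B := by rw [← mul_sum, ← hW]; ring
    _ ≤ ((Hn 9).card * (C2 * K ^ (ε / 4))) ^ 2 * B := by gcongr
    _ = ((Hn 9).card * C2) ^ 2 * (C3 * (C0 ^ 2 * C1)) *
          ((K ^ (ε / 4)) ^ 3 * (K * Y) ^ (ε / 4)) * (K + Y) * K := by
        rw [hB, Real.rpow_add (by linarith), Real.rpow_one]; ring
    _ ≤ ((Hn 9).card * C2) ^ 2 * (C3 * (C0 ^ 2 * C1)) * (K * Y) ^ ε * (K + Y) * K := by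
        have h6 : K ^ (ε / 4) ≤ (K * Y) ^ (ε / 4) :=
          Real.rpow_le_rpow (by linarith) (le_mul_of_one_le_right (by linarith) hY) hε4.le
        have h7 : ((K * Y) ^ (ε / 4)) ^ 3 * (K * Y) ^ (ε / 4) = (K * Y) ^ ε := by
          rw [← pow_succ, ← Real.rpow_natCast, ← Real.rpow_mul (by positivity)]
          congr 1; push_cast; ring
        rw [← h7]
        gcongr
    _ ≤ _ := by gcongr; linarith

/-- mean square of the coefficients -/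
theorem sum_cfT_sq_le {ε : ℝ} (hε : 0 < ε) : ∃ C : ℝ, 0 < C ∧ ∀ K : ℝ, 1 ≤ K →
    ∑ k ∈ Hn K, cfT k ^ 2 ≤ C * K ^ (1 + ε) := by
  obtain ⟨C0, hC0, hfib⟩ := exists_fibers
  obtain ⟨C1, hC1, h1⟩ := card_Hn_le hε
  have hs := summable_N_rpow (s := 2) (by norm_num)
  set Z : ℝ := ∑' z : O, (N z : ℝ) ^ (-(2 : ℝ)) with hZ
  have hZ0 : 0 ≤ Z := tsum_nonneg fun z => by positivity
  refine ⟨(Hn 9).card * Z * (C0 ^ 2 * C1) + 1, by positivity, fun K hK => ?_⟩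
  obtain ⟨V, hV, hsum⟩ := hfib K (Hn K) (fun k => (cfT k : ℂ)) (fun k hk =>
    ⟨(mem_Hn.1 hk).1, by rw [Complex.norm_real, Real.norm_of_nonneg (cfT_nonneg k)]⟩)
  have h2 := hsum (fun k => (cfT k : ℂ))
  have h3 : ∑ k ∈ Hn K, cfT k ^ 2 =
      ∑ p ∈ Hn 9 ×ˢ Hn K, ∑ v ∈ V p, ‖(cfT (p.1 * p.2 ^ 3 * v) : ℂ)‖ ^ 2 := by
    have h4 : ((∑ k ∈ Hn K, cfT k ^ 2 : ℝ) : ℂ) =
        ((∑ p ∈ Hn 9 ×ˢ Hn K, ∑ v ∈ V p, ‖(cfT (p.1 * p.2 ^ 3 * v) : ℂ)‖ ^ 2 : ℝ) : ℂ) := by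
      push_cast
      simp only [sq]
      rw [h2]
      refine sum_congr rfl fun p _ => sum_congr rfl fun v _ => ?_
      rw [Complex.norm_real, Real.norm_of_nonneg (cfT_nonneg _)]
    exact_mod_cast h4
  rw [h3]
  calc ∑ p ∈ Hn 9 ×ˢ Hn K, ∑ v ∈ V p, ‖(cfT (p.1 * p.2 ^ 3 * v) : ℂ)‖ ^ 2
      ≤ ∑ p ∈ Hn 9 ×ˢ Hn K, C0 ^ 2 * C1 * K ^ (1 + ε) * (N p.2 : ℝ) ^ (-(2 : ℝ)) := by
        refine sum_le_sum fun p hp => ?_
        have hp2 : p.2 ≠ 0 := (mem_Hn.1 (mem_product.1 hp).2).2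
        refine (fiber_mass hK hε hC1 h1 hp2 (V p) _ (hV p hp)).trans (le_of_eq ?_)
        rw [Real.rpow_neg (by positivity), Real.rpow_two, div_eq_mul_inv]
    _ = ∑ x ∈ Hn 9, C0 ^ 2 * C1 * K ^ (1 + ε) * ∑ y ∈ Hn K, (N y : ℝ) ^ (-(2 : ℝ)) := by
        rw [sum_product]
        refine sum_congr rfl fun x _ => ?_
        rw [mul_sum]
    _ ≤ ∑ x ∈ Hn 9, C0 ^ 2 * C1 * K ^ (1 + ε) * Z := by
        gcongr
        exact hs.sum_le_tsum _ fun _ _ => by positivity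
    _ = (Hn 9).card * Z * (C0 ^ 2 * C1) * K ^ (1 + ε) := by rw [sum_const, nsmul_eq_mul]; ring
    _ ≤ _ := by gcongr; linarith

/-- absolute convergence of the Dirichlet series of the coefficients for `s > 1` -/
theorem summable_cfT {s : ℝ} (hs : 1 < s) : Summable fun k : O => cfT k * (N k : ℝ) ^ (-s) := by
  obtain ⟨C0, hC0, hfib⟩ := exists_fibers
  have h1 := summable_N_rpow hs
  have h2 := summable_N_rpow (s := 2) (by norm_num)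
  set Z1 : ℝ := ∑' z : O, (N z : ℝ) ^ (-s) with hZ1
  set Z2 : ℝ := ∑' z : O, (N z : ℝ) ^ (-(2 : ℝ)) with hZ2
  have hZ10 : 0 ≤ Z1 := tsum_nonneg fun z => by positivity
  refine summable_of_sum_le (c := (Hn 9).card * (C0 * Z1 * Z2))
    (fun k => mul_nonneg (cfT_nonneg k) (by positivity)) fun S => ?_
  obtain ⟨K, hK⟩ : ∃ K : ℝ, ∀ k ∈ S, (N k : ℝ) ≤ K :=
    ⟨∑ k ∈ S, (N k : ℝ), fun k hk => single_le_sum (f := fun k : O => (N k : ℝ))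
      (fun _ _ => Nat.cast_nonneg _) hk⟩
  obtain ⟨V, hV, hsum⟩ := hfib K S (fun k => (cfT k : ℂ)) (fun k hk =>
    ⟨hK k hk, by rw [Complex.norm_real, Real.norm_of_nonneg (cfT_nonneg k)]⟩)
  have h3 := hsum (fun k => (((N k : ℝ) ^ (-s) : ℝ) : ℂ))
  have h4 : ∑ k ∈ S, cfT k * (N k : ℝ) ^ (-s) = ∑ p ∈ Hn 9 ×ˢ Hn K, ∑ v ∈ V p,
      cfT (p.1 * p.2 ^ 3 * v) * (N (p.1 * p.2 ^ 3 * v) : ℝ) ^ (-s) := by
    exact_mod_cast h3
  rw [h4]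
  calc ∑ p ∈ Hn 9 ×ˢ Hn K, ∑ v ∈ V p,
        cfT (p.1 * p.2 ^ 3 * v) * (N (p.1 * p.2 ^ 3 * v) : ℝ) ^ (-s)
      ≤ ∑ p ∈ Hn 9 ×ˢ Hn K, C0 * Z1 * (N p.2 : ℝ) ^ (-(2 : ℝ)) := by
        refine sum_le_sum fun p hp => ?_
        have hp1 : (1 : ℝ) ≤ N p.1 := one_le_N (mem_Hn.1 (mem_product.1 hp).1).2
        have hp2 : (1 : ℝ) ≤ N p.2 := one_le_N (mem_Hn.1 (mem_product.1 hp).2).2
        calc ∑ v ∈ V p, cfT (p.1 * p.2 ^ 3 * v) * (N (p.1 * p.2 ^ 3 * v) : ℝ) ^ (-s)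
            ≤ ∑ v ∈ V p, C0 * (N p.2 : ℝ) ^ (-(2 : ℝ)) * (N v : ℝ) ^ (-s) := by
              refine sum_le_sum fun v hv => ?_
              obtain ⟨hv1, -, hv3⟩ := hV p hp v hv
              rw [Complex.norm_real, Real.norm_of_nonneg (cfT_nonneg _)] at hv3
              have hNv : (1 : ℝ) ≤ N v := one_le_N hv1.ne_zero
              have e1 : (N (p.1 * p.2 ^ 3 * v) : ℝ) ^ (-s) ≤
                  (N p.2 : ℝ) ^ (-(3 : ℝ)) * (N v : ℝ) ^ (-s) := by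
                rw [N_mul, N_mul, N_pow]
                push_cast
                rw [Real.mul_rpow (by positivity) (by positivity)]
                gcongr
                calc ((N p.1 : ℝ) * (N p.2 : ℝ) ^ 3) ^ (-s) ≤ ((N p.2 : ℝ) ^ 3) ^ (-s) := by
                      apply Real.rpow_le_rpow_of_nonpos (by positivity) _ (by linarith)
                      exact le_mul_of_one_le_left (by positivity) hp1
                  _ ≤ ((N p.2 : ℝ) ^ 3) ^ (-(1 : ℝ)) :=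
                      Real.rpow_le_rpow_of_exponent_le (one_le_pow₀ hp2) (by linarith)
                  _ = _ := by
                      rw [← Real.rpow_natCast, ← Real.rpow_mul (by positivity)]; norm_num
              have e2 : Real.sqrt (N p.2) * (N p.2 : ℝ) ^ (-(3 : ℝ)) ≤ (N p.2 : ℝ) ^ (-(2 : ℝ)) := by
                rw [Real.sqrt_eq_rpow, ← Real.rpow_add (by positivity)]
                exact Real.rpow_le_rpow_of_exponent_le hp2 (by norm_num)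
              calc cfT (p.1 * p.2 ^ 3 * v) * (N (p.1 * p.2 ^ 3 * v) : ℝ) ^ (-s)
                  ≤ (C0 * Real.sqrt (N p.2)) * ((N p.2 : ℝ) ^ (-(3 : ℝ)) * (N v : ℝ) ^ (-s)) := by
                    gcongr
                _ = C0 * (Real.sqrt (N p.2) * (N p.2 : ℝ) ^ (-(3 : ℝ))) * (N v : ℝ) ^ (-s) := by ring
                _ ≤ _ := by gcongr
          _ = C0 * (N p.2 : ℝ) ^ (-(2 : ℝ)) * ∑ v ∈ V p, (N v : ℝ) ^ (-s) := by rw [mul_sum]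
          _ ≤ C0 * (N p.2 : ℝ) ^ (-(2 : ℝ)) * Z1 := by
              gcongr
              exact h1.sum_le_tsum _ fun _ _ => by positivity
          _ = _ := by ring
    _ = ∑ x ∈ Hn 9, C0 * Z1 * ∑ y ∈ Hn K, (N y : ℝ) ^ (-(2 : ℝ)) := by
        rw [sum_product]
        refine sum_congr rfl fun x _ => ?_
        rw [mul_sum]
    _ ≤ ∑ x ∈ Hn 9, C0 * Z1 * Z2 := by
        gcongr
        exact h2.sum_le_tsum _ fun _ _ => by positivity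
    _ = _ := by rw [sum_const, nsmul_eq_mul]

end Vale.Agent.P026Z.Vor
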