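import Vale.Agent.P026Z.Vor.Abs
import Vale.Agent.P026Z.Vor.ShapeLS
import Vale.Agent.P026Z.Poi.Defs
import Vale.Agent.P006.H6.L2Int

/-!
P026, block VOR, part V5: the mean square of the dual sums.
-/

namespace Vale.Agent.P026Z.Vor

open MeasureTheory Filter Topology Set Complex
open Vale.Agent.P006 Vale.Agent.P006.HB Vale.Agent.P026Z.QLS
open Vale.Agent.P006.KER (Nice)
open scoped Real ContDiff

/-! ### dyadic blocks -/

open Classical in
/-- the dyadic block `2^j ≤ N k < 2^(j+1)` -/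
noncomputable def blk (j : ℕ) : Finset O := (Hn (2 ^ (j + 1))).filter fun k => Nat.log 2 (N k) = j

theorem N_lt_of_log_lt {k : O} {J : ℕ} (h : Nat.log 2 (N k) < J) : (N k : ℝ) ≤ 2 ^ J := by
  have h1 : N k < 2 ^ J := Nat.lt_pow_of_log_lt (by norm_num) h
  exact_mod_cast h1.le

theorem mem_blk {j : ℕ} {k : O} : k ∈ blk j ↔ k ≠ 0 ∧ Nat.log 2 (N k) = j := by
  rw [blk, Finset.mem_filter, mem_Hn]
  constructor
  · rintro ⟨⟨-, h1⟩, h2⟩
    exact ⟨h1, h2⟩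
  · rintro ⟨h1, h2⟩
    exact ⟨⟨N_lt_of_log_lt (by omega), h1⟩, h2⟩

theorem blk_bounds {j : ℕ} {k : O} (hk : k ∈ blk j) :
    (2 : ℝ) ^ j ≤ N k ∧ (N k : ℝ) ≤ 2 * 2 ^ j := by
  obtain ⟨h1, h2⟩ := mem_blk.1 hk
  constructor
  · have h3 : 2 ^ Nat.log 2 (N k) ≤ N k := Nat.pow_log_le_self 2 (N_pos h1).ne'
    rw [h2] at h3
    exact_mod_cast h3
  · have h3 := N_lt_of_log_lt (k := k) (J := j + 1) (by omega)
    rw [pow_succ] at h3
    linarith

/-- Minkowski's inequality for the dyadic decomposition of a series -/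
theorem l2_tsum {κ : Type} (S : Finset κ) (u : κ → O → ℂ) (T : κ → ℂ)
    (hT : ∀ h ∈ S, HasSum (u h) (T h)) (h0 : ∀ h, u h 0 = 0) (D : ℕ → ℝ) (hD : ∀ j, 0 < D j)
    {E : ℝ} (hE : ∀ J, ∑ j ∈ Finset.range J, D j ≤ E)
    (hb : ∀ j, ∑ h ∈ S, ‖∑ k ∈ blk j, u h k‖ ^ 2 ≤ D j ^ 2) : ∑ h ∈ S, ‖T h‖ ^ 2 ≤ E ^ 2 := by
  classical
  set s : ℕ → Finset O := fun J => (Hn (2 ^ J)).filter fun k => Nat.log 2 (N k) < J with hs
  have hmem : ∀ J k, k ∈ s J ↔ k ≠ 0 ∧ Nat.log 2 (N k) < J := by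
    intro J k
    simp only [hs, Finset.mem_filter, mem_Hn]
    constructor
    · rintro ⟨⟨-, h1⟩, h2⟩
      exact ⟨h1, h2⟩
    · rintro ⟨h1, h2⟩
      exact ⟨⟨N_lt_of_log_lt h2, h1⟩, h2⟩
  have hlim : Tendsto (fun J => insert 0 (s J)) atTop atTop := by
    refine tendsto_atTop_finset_of_monotone (fun J J' hJ => ?_) fun k => ?_
    · refine Finset.insert_subset_insert _ fun k hk => ?_
      rw [hmem] at hk ⊢
      exact ⟨hk.1, hk.2.trans_le hJ⟩
    · by_cases hk : k = 0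
      · exact ⟨0, by simp [hk]⟩
      · exact ⟨Nat.log 2 (N k) + 1, Finset.mem_insert_of_mem ((hmem _ _).2 ⟨hk, by omega⟩)⟩
  have hsum : ∀ J h, ∑ k ∈ insert 0 (s J), u h k =
      ∑ j ∈ Finset.range J, ∑ k ∈ blk j, u h k := by
    intro J h
    rw [Finset.sum_insert (fun h1 => ((hmem _ _).1 h1).1 rfl), h0, zero_add,
      ← Finset.sum_fiberwise_of_maps_to (s := s J) (t := Finset.range J)
        (g := fun k => Nat.log 2 (N k)) (fun k hk => Finset.mem_range.2 ((hmem _ _).1 hk).2)]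
    refine Finset.sum_congr rfl fun j hj => Finset.sum_congr ?_ fun _ _ => rfl
    ext k
    rw [Finset.mem_filter, hmem, mem_blk]
    have := Finset.mem_range.1 hj
    constructor
    · rintro ⟨⟨h1, -⟩, h2⟩
      exact ⟨h1, h2⟩
    · rintro ⟨h1, h2⟩
      exact ⟨⟨h1, by omega⟩, h2⟩
  have hfin : ∀ J, ∑ h ∈ S, ‖∑ k ∈ insert 0 (s J), u h k‖ ^ 2 ≤ E ^ 2 := by
    intro J
    have hP : 0 ≤ ∑ j ∈ Finset.range J, D j := Finset.sum_nonneg fun j _ => (hD j).le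
    calc ∑ h ∈ S, ‖∑ k ∈ insert 0 (s J), u h k‖ ^ 2
        ≤ ∑ h ∈ S, (∑ j ∈ Finset.range J, D j) *
            ∑ j ∈ Finset.range J, ‖∑ k ∈ blk j, u h k‖ ^ 2 / D j := by
          refine Finset.sum_le_sum fun h _ => ?_
          rw [hsum]
          exact norm_sum_sq_le_weight _ _ _ fun j _ => hD j
      _ = (∑ j ∈ Finset.range J, D j) *
            ∑ j ∈ Finset.range J, (∑ h ∈ S, ‖∑ k ∈ blk j, u h k‖ ^ 2) / D j := by
          rw [← Finset.mul_sum, Finset.sum_comm]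
          simp only [Finset.sum_div]
      _ ≤ (∑ j ∈ Finset.range J, D j) * ∑ j ∈ Finset.range J, D j := by
          refine mul_le_mul_of_nonneg_left (Finset.sum_le_sum fun j _ => ?_) hP
          rw [div_le_iff₀ (hD j), ← sq]
          exact hb j
      _ ≤ E ^ 2 := by
          rw [← sq]
          exact pow_le_pow_left₀ hP (hE J) 2
  have ht : Tendsto (fun J => ∑ h ∈ S, ‖∑ k ∈ insert 0 (s J), u h k‖ ^ 2) atTop
      (𝓝 (∑ h ∈ S, ‖T h‖ ^ 2)) := by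
    refine tendsto_finsetSum _ fun h hh => ?_
    have h1 : Tendsto (fun t : Finset O => ∑ k ∈ t, u h k) atTop (𝓝 (T h)) := hT h hh
    exact ((h1.comp hlim).norm).pow 2
  exact le_of_tendsto' ht hfin

/-! ### rescaled weights -/

/-- `W(x / r) (x / r)^{it}` -/
noncomputable def Wsc (W : ℝ → ℂ) (t r x : ℝ) : ℂ := Poi.wt W t (r⁻¹ * x)

section
variable {W : ℝ → ℂ} {a b : ℝ}

theorem wt_eq_tw (H : Nice W a b) (t : ℝ) : Poi.wt W t = KER.tw W t := by
  funext x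
  by_cases hx : 0 < x
  · rw [KER.tw_eq_cpow W t hx, Poi.wt, mul_comm]
  · have : W x = 0 := H.supp x fun h => hx (H.pos.trans_le h.1)
    rw [Poi.wt, KER.tw, this, zero_mul, mul_zero]

theorem nice_Wsc (H : Nice W a b) (t : ℝ) {r : ℝ} (hr : 0 < r) :
    Nice (Wsc W t r) (r * a) (r * b) where
  smooth := by
    have h1 := (H.tw t).smooth
    rw [← wt_eq_tw H] at h1
    exact h1.comp (contDiff_const.mul contDiff_id)
  pos := mul_pos hr H.pos
  le := mul_le_mul_of_nonneg_left H.le hr.le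
  supp := by
    intro x hx
    rw [Wsc, Poi.wt, H.supp _ fun h => hx ⟨?_, ?_⟩, zero_mul]
    · have := h.1
      rwa [le_inv_mul_iff₀ hr] at this
    · have := h.2
      rwa [inv_mul_le_iff₀ hr] at this

theorem mellin_Wsc (W : ℝ → ℂ) (t : ℝ) {r : ℝ} (hr : 0 < r) (s : ℂ) :
    mellin (Wsc W t r) s = (r : ℂ) ^ s * mellin W (s + t * I) := by
  have h1 := mellin_comp_mul_left (Poi.wt W t) s (inv_pos.2 hr)
  have h2 : mellin (Poi.wt W t) s = mellin W (s + t * I) := by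
    rw [← mellin_cpow_smul]
    congr 1
    funext x
    rw [Poi.wt, smul_eq_mul, mul_comm]
  have h3 : ((r⁻¹ : ℝ) : ℂ) ^ (-s) = (r : ℂ) ^ s := by
    rw [ofReal_inv, inv_cpow _ _ (by rw [arg_ofReal_of_nonneg hr.le]; exact Real.pi_ne_zero.symm),
      cpow_neg, inv_inv]
  rw [h2, h3, smul_eq_mul] at h1
  exact h1

/-- the measure on the line `Re s = σ` -/
noncomputable def muL (W : ℝ → ℂ) (σ t0 t : ℝ) : ℂ :=
  ((1 / (2 * π) : ℝ) : ℂ) * (mellin W (σ + ((t + t0 : ℝ) : ℂ) * I) * Gr (σ + t * I))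

theorem What_Wsc (W : ℝ → ℂ) (σ t0 : ℝ) {r : ℝ} (hr : 0 < r) (y : ℝ) :
    What σ (Wsc W t0 r) y = ∫ t : ℝ, muL W σ t0 t *
      ((r : ℂ) ^ ((σ : ℂ) + t * I) * (y : ℂ) ^ (-(1 - ((σ : ℂ) + t * I)))) := by
  rw [What, ← integral_const_mul]
  refine integral_congr_ae (ae_of_all _ fun t => ?_)
  simp only [muL]
  rw [mellin_Wsc W t0 hr, show (σ : ℂ) + t * I + t0 * I = σ + ((t + t0 : ℝ) : ℂ) * I by
    push_cast; ring]
  ring

theorem muL_bound (H : Nice W a b) {σ : ℝ} (hσ : σ < 1)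
    (hG : ∀ t : ℝ, ‖Gr (σ + t * I)‖ ≤ (2 * (1 + |t|)) ^ 4) : ∃ C : ℝ, 0 < C ∧ ∀ t0 : ℝ,
      Integrable (muL W σ t0) ∧ ∫ t, ‖muL W σ t0 t‖ ≤ C * (1 + |t0|) ^ 4 := by
  obtain ⟨C, hC0, hC⟩ := nice_poly H σ 4
  refine ⟨16 * C * π + 1, by positivity, fun t0 => ?_⟩
  have hcont : Continuous (muL W σ t0) := by
    unfold muL
    exact continuous_const.mul (((nice_differentiable H).continuous.comp (by fun_prop)).mul
      (continuous_Gr_line hσ))
  have hI : Integrable fun t : ℝ => (1 + (t + t0) ^ 2)⁻¹ :=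
    integrable_inv_one_add_sq.comp_add_right t0
  have hle : ∀ t, ‖muL W σ t0 t‖ ≤ 16 * C * (1 + |t0|) ^ 4 * (1 + (t + t0) ^ 2)⁻¹ := by
    intro t
    have h1 := hC t0 t
    have h2 : ‖((1 / (2 * π) : ℝ) : ℂ)‖ ≤ 1 := by
      rw [norm_real, Real.norm_of_nonneg (by positivity), div_le_one (by positivity)]
      linarith [Real.pi_gt_three]
    rw [muL, norm_mul, norm_mul]
    calc _ ≤ 1 * (‖mellin W (σ + ((t + t0 : ℝ) : ℂ) * I)‖ * (2 * (1 + |t|)) ^ 4) := by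
          gcongr
          exact hG t
      _ = 16 * (‖mellin W (σ + ((t + t0 : ℝ) : ℂ) * I)‖ * (1 + |t|) ^ 4) := by ring
      _ ≤ 16 * (C * (1 + |t0|) ^ 4 * (1 + (t + t0) ^ 2)⁻¹) := by gcongr
      _ = _ := by ring
  have hint : Integrable (muL W σ t0) :=
    (hI.const_mul _).mono' hcont.aestronglyMeasurable (ae_of_all _ hle)
  refine ⟨hint, (integral_mono hint.norm (hI.const_mul _) hle).trans ?_⟩
  rw [integral_const_mul, integral_add_right_eq_self (fun t : ℝ => (1 + t ^ 2)⁻¹) t0,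
    integral_univ_inv_one_add_sq]
  have : 0 ≤ (1 + |t0|) ^ 4 := by positivity
  nlinarith

end

/-! ### one block -/

/-- the large sieve inequality for theta-shaped coefficients with constants `C`, `ε` -/
def LSh (ρ : O → O → ℂ) (C ε : ℝ) : Prop :=
  ∀ (K Y : ℝ) (T S : Finset O) (β : O → ℂ), 1 ≤ K → 1 ≤ Y →
    (∀ h ∈ T, Od h ∧ (N h : ℝ) ≤ Y) → (∀ k ∈ S, (N k : ℝ) ≤ K ∧ ‖β k‖ ≤ cfT k) →
    ∑ h ∈ T, ‖∑ k ∈ S, β k * ρ h k‖ ^ 2 ≤ C * (K * Y) ^ ε * (K + Y) * K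

theorem block_bound {ρ : O → O → ℂ} {C ε : ℝ} (hC : 0 < C) (hL : LSh ρ C ε) {W : ℝ → ℂ}
    {σ t0 A : ℝ} (hσ : σ ≤ 1 / 2) (hμ : Integrable (muL W σ t0)) (hA : ∫ t, ‖muL W σ t0 t‖ ≤ A)
    {X Y q0 : ℝ} (hX : 0 < X) (hY : 1 ≤ Y) (hq0 : 0 < q0) (S : Finset O) (q : O → ℝ)
    (hS : ∀ h ∈ S, Od h ∧ (N h : ℝ) ≤ Y ∧ q0 ≤ q h) (β : O → ℂ) (hβ : ∀ k, ‖β k‖ ≤ cfT k) (j : ℕ) :
    ∑ h ∈ S, ‖∑ k ∈ blk j, β k * ρ h k * What σ (Wsc W t0 (X * q h)) (q h * N k)‖ ^ 2 ≤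
      A ^ 2 * ((X ^ σ * q0 ^ (2 * σ - 1) * ((2 : ℝ) ^ j) ^ (σ - 1)) ^ 2 *
        (C * (2 * 2 ^ j * Y) ^ ε * (2 * 2 ^ j + Y) * (2 * 2 ^ j))) := by
  set L : ℝ := 2 ^ j with hLdef
  have hL1 : 1 ≤ L := one_le_pow₀ (by norm_num)
  have hL0 : 0 < L := by linarith
  set z : O → ℝ → ℂ := fun h t => ((X * q h : ℝ) : ℂ) ^ ((σ : ℂ) + t * I) *
    ((q h * L : ℝ) : ℂ) ^ (-(1 - ((σ : ℂ) + t * I))) with hz
  set β' : ℝ → O → ℂ := fun t k => β k * ((N k / L : ℝ) : ℂ) ^ (-(1 - ((σ : ℂ) + t * I))) with hβ'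
  set Z : O → ℝ → ℂ := fun h t => z h t * ∑ k ∈ blk j, β' t k * ρ h k with hZ
  have hqpos : ∀ h ∈ S, 0 < q h := fun h hh => hq0.trans_le (hS h hh).2.2
  have hNpos : ∀ k ∈ blk j, (0 : ℝ) < N k := fun k hk => hL0.trans_le (blk_bounds hk).1
  have hcp : ∀ r : ℝ, 0 < r → Continuous fun t : ℝ => (r : ℂ) ^ ((σ : ℂ) + t * I) := fun r hr =>
    Continuous.const_cpow (by fun_prop) (Or.inl (by exact_mod_cast hr.ne'))
  have hcn : ∀ r : ℝ, 0 < r → Continuous fun t : ℝ => (r : ℂ) ^ (-(1 - ((σ : ℂ) + t * I))) :=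
    fun r hr => Continuous.const_cpow (by fun_prop) (Or.inl (by exact_mod_cast hr.ne'))
  have hnp : ∀ r : ℝ, 0 < r → ∀ t : ℝ, ‖(r : ℂ) ^ ((σ : ℂ) + t * I)‖ = r ^ σ := by
    intro r hr t
    rw [norm_cpow_eq_rpow_re_of_pos hr]; simp
  have hnn : ∀ r : ℝ, 0 < r → ∀ t : ℝ, ‖(r : ℂ) ^ (-(1 - ((σ : ℂ) + t * I)))‖ = r ^ (σ - 1) := by
    intro r hr t
    rw [norm_cpow_eq_rpow_re_of_pos hr]; simp
  have e1 : ∀ h ∈ S, ∑ k ∈ blk j, β k * ρ h k * What σ (Wsc W t0 (X * q h)) (q h * N k) =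
      ∫ t, muL W σ t0 t * Z h t := by
    intro h hh
    have hq := hqpos h hh
    have e2 : ∀ k ∈ blk j, β k * ρ h k * What σ (Wsc W t0 (X * q h)) (q h * N k) =
        ∫ t, muL W σ t0 t * (z h t * (β' t k * ρ h k)) := by
      intro k hk
      have hN := hNpos k hk
      rw [What_Wsc W σ t0 (mul_pos hX hq), ← integral_const_mul]
      refine integral_congr_ae (ae_of_all _ fun t => ?_)
      simp only [hz, hβ']
      rw [show q h * N k = (q h * L) * (N k / L) by field_simp, ofReal_mul (q h * L),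
        mul_cpow_ofReal_nonneg (by positivity) (by positivity)]
      ring
    rw [Finset.sum_congr rfl e2, ← integral_finsetSum]
    · refine integral_congr_ae (ae_of_all _ fun t => ?_)
      simp only [hZ, Finset.mul_sum]
    · intro k hk
      have hN := hNpos k hk
      refine hμ.mul_bdd (c := (X * q h) ^ σ * (q h * L) ^ (σ - 1) *
        (‖β k‖ * (N k / L) ^ (σ - 1) * ‖ρ h k‖)) (Continuous.aestronglyMeasurable ?_)
        (ae_of_all _ fun t => ?_)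
      · exact ((hcp _ (by positivity)).mul (hcn _ (by positivity))).mul
          ((continuous_const.mul (hcn _ (by positivity))).mul continuous_const)
      · simp only [hz, hβ', norm_mul]
        rw [hnp _ (by positivity), hnn _ (by positivity), hnn _ (by positivity)]
  rw [Finset.sum_congr rfl fun h hh => by rw [e1 h hh]]
  have hB0 : 0 ≤ (X ^ σ * q0 ^ (2 * σ - 1) * L ^ (σ - 1)) ^ 2 *
      (C * (2 * L * Y) ^ ε * (2 * L + Y) * (2 * L)) := by positivity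
  refine (H6.l2_integral S hμ Z (fun h hh => ?_) hB0 fun t => ?_).trans ?_
  · have hq := hqpos h hh
    refine ((hcp _ (by positivity)).mul (hcn _ (by positivity))).mul
      (continuous_finsetSum _ fun k hk => ?_)
    have hN := hNpos k hk
    exact (continuous_const.mul (hcn _ (by positivity))).mul continuous_const
  · have h1 := hL (2 * L) Y S (blk j) (β' t) (by linarith) hY
      (fun h hh => ⟨(hS h hh).1, (hS h hh).2.1⟩) (fun k hk => ⟨(blk_bounds hk).2, by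
        have hN := hNpos k hk
        simp only [hβ', norm_mul]
        rw [hnn _ (by positivity)]
        have h2 : (N k / L : ℝ) ^ (σ - 1) ≤ 1 := Real.rpow_le_one_of_one_le_of_nonpos
          (by rw [le_div_iff₀ hL0, one_mul]; exact (blk_bounds hk).1) (by linarith)
        calc ‖β k‖ * (N k / L : ℝ) ^ (σ - 1) ≤ cfT k * 1 :=
              mul_le_mul (hβ k) h2 (by positivity) (cfT_nonneg k)
          _ = _ := mul_one _⟩)
    refine le_trans ?_ (mul_le_mul_of_nonneg_left h1 (by positivity))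
    rw [Finset.mul_sum]
    refine Finset.sum_le_sum fun h hh => ?_
    have hq := hqpos h hh
    simp only [hZ]
    rw [norm_mul, mul_pow]
    refine mul_le_mul_of_nonneg_right (pow_le_pow_left₀ (norm_nonneg _) ?_ 2) (by positivity)
    simp only [hz]
    rw [norm_mul, hnp _ (by positivity), hnn _ (by positivity), Real.mul_rpow hX.le hq.le,
      Real.mul_rpow hq.le hL0.le]
    have h3 : q h ^ σ * q h ^ (σ - 1) ≤ q0 ^ (2 * σ - 1) := by
      rw [← Real.rpow_add hq, show σ + (σ - 1) = 2 * σ - 1 by ring]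
      exact Real.rpow_le_rpow_of_nonpos hq0 (hS h hh).2.2 (by linarith)
    calc X ^ σ * q h ^ σ * (q h ^ (σ - 1) * L ^ (σ - 1))
        = X ^ σ * (q h ^ σ * q h ^ (σ - 1)) * L ^ (σ - 1) := by ring
      _ ≤ _ := by gcongr
  · refine mul_le_mul_of_nonneg_right (pow_le_pow_left₀ ?_ hA 2) hB0
    exact integral_nonneg fun t => norm_nonneg _

end Vale.Agent.P026Z.Vor
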