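import Vale.Agent.P026Z.Vor.ThmT
import Vale.Agent.P026Z.Vor.V4Fin
import Vale.Agent.P026Z.QLS.Final
import Vale.Agent.P026Z.V6.Glue2

/-!
P026, block VOR: the mean square of the twisted theta sums, unconditionally, and the theta input
of the Poisson block.
-/

namespace Vale.Agent.P026Z.Vor

open Vale.Agent.P006
open scoped ComplexConjugate

theorem symHyp : SymHyp Sym.x6 Sym.rho := fun h hp hs h2 =>
  ⟨Sym.pchar_x6 hp hs h2, Sym.pchar_rho hp hs h2, Sym.x6_sq' h, fun y => (Sym.x6_cube h y).symm⟩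

/-- **the mean square of the twisted theta sums** -/
theorem thmT : V6.ThmT (fun k => cf TH.th k * alp k) Sym.x6 := thmT_of v4 QLS.qls_mod_rho symHyp

theorem thmT_vor : ThmT TH.th Sym.x6 := by
  intro W hW ε hε
  obtain ⟨C, A, H⟩ := thmT W hW ε hε
  refine ⟨max C 0, A, le_max_right _ _, fun t X Y M f S hX hY hM hf hp hS => ?_⟩
  refine (H t X Y M f S hX hY hM hf hp hS).trans ?_
  have hX0 : 0 ≤ X := by linarith
  have hY0 : 0 ≤ Y := by linarith
  gcongr
  exact le_max_left _ _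

/-- **the theta input of the Poisson block** -/
theorem tb (S : Poi.Sext) (hchi : S.chi = Sym.x6)
    (hg : ∀ n, Poi.Sq n → S.g n = conj (Sym.alpha n) * gt 1 n)
    (hw : ∀ b, Poi.Adm b → S.w b = ((Real.sqrt (N b) : ℝ) : ℂ) * conj (Sym.alpha b) ^ 3) :
    Poi.TB S :=
  V6.TB_of_vor' S hchi hg hw thmT_vor

end Vale.Agent.P026Z.Vor
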