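import Vale.Agent.P026Z.Vor.Defs
import Vale.Agent.P026Z.TH.Aut
import Vale.Agent.P006.V1.Complete

/-!
P026, block VOR (V4, Fourier layer): finite Fourier expansion of a periodic function of the
primary indices, with frequencies that are all equivalent to the cusp at infinity under `Γ(3)`.
-/

open scoped Real ComplexConjugate

namespace Vale.Agent.P026Z.Vor

open Vale.Agent.P006 Vale.Agent.P006.PO

theorem conj_psi' (c : O) (x : Rs c) : conj (psi c x) = psi c (-x) := by
  obtain ⟨x, rfl⟩ := rs_surj c x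
  rw [← map_neg, psi_rs, psi_rs, map_neg, neg_div, TrC_neg, e_neg]

theorem norm_psi' (c : O) (x : Rs c) : ‖psi c x‖ = 1 := by
  obtain ⟨x, rfl⟩ := rs_surj c x
  rw [psi_rs, norm_e]

/-- **finite Fourier expansion** with Parseval's inequality -/
theorem exists_fourier (R : O) [NeZero R] {F : O → ℂ}
    (hF : ∀ x y : O, R ∣ lam * (x - y) → F x = F y) (hF1 : ∀ x, ‖F x‖ ≤ 1) :
    ∃ γ : Rs R → ℂ, ∑ y, ‖γ y‖ ^ 2 ≤ 1 ∧ ∀ m : O, F m = ∑ y, γ y * psi R (rs R m * y) := by
  classical
  set n0 : ℕ := (Finset.univ.filter fun x : Rs R => rs R lam * x = 0).card with hn0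
  have hn0pos : 0 < n0 := by
    rw [hn0, Finset.card_pos]
    exact ⟨0, by simp⟩
  have hNR : 0 < N R := N_pos (NeZero.ne R)
  have hn0C : (n0 : ℂ) ≠ 0 := by exact_mod_cast hn0pos.ne'
  have hNC : (N R : ℂ) ≠ 0 := by exact_mod_cast hNR.ne'
  set F' : Rs R → ℂ := fun x => F (Quotient.out x) with hF'
  set γ : Rs R → ℂ := fun y => ((n0 : ℂ) * N R)⁻¹ * ∑ x : Rs R, F' x * psi R (-(x * y)) with hγ
  have hinv : ∀ m : O, F m = ∑ y, γ y * psi R (rs R m * y) := by
    intro m
    have h1 : ∀ x : Rs R, ∑ y : Rs R, psi R (-(x * y)) * psi R (rs R m * y) =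
        if rs R lam * (rs R m - x) = 0 then (N R : ℂ) else 0 := by
      intro x
      obtain ⟨x, rfl⟩ := rs_surj R x
      have h2 := sum_psi_mul R (m - x)
      have h3 : ∑ y : Rs R, psi R (-(rs R x * y)) * psi R (rs R m * y) =
          ∑ y : Rs R, psi R (rs R (m - x) * y) := by
        refine Finset.sum_congr rfl fun y _ => ?_
        rw [← AddChar.map_add_eq_mul, map_sub]
        congr 1; ring
      rw [h3, h2, ← map_sub, ← map_mul]
      by_cases h4 : R ∣ lam * (m - x)
      · rw [if_pos h4, if_pos (rs_eq_zero.2 h4)]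
      · rw [if_neg h4, if_neg fun h5 => h4 (rs_eq_zero.1 h5)]
    have h2 : ∑ y, γ y * psi R (rs R m * y) = ((n0 : ℂ) * N R)⁻¹ *
        ∑ x : Rs R, F' x * ∑ y : Rs R, psi R (-(x * y)) * psi R (rs R m * y) := by
      simp only [hγ, Finset.mul_sum, Finset.sum_mul]
      rw [Finset.sum_comm]
      refine Finset.sum_congr rfl fun x _ => Finset.sum_congr rfl fun y _ => by ring
    have h3 : ∀ x : Rs R, F' x * (if rs R lam * (rs R m - x) = 0 then (N R : ℂ) else 0) =
        F m * N R * (if rs R lam * (rs R m - x) = 0 then 1 else 0) := by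
      intro x
      split_ifs with hx
      · have : F' x = F m := by
          refine (hF _ _ ?_).symm
          rw [← rs_eq_zero, map_mul, map_sub, V1.rs_out]
          exact hx
        rw [this, mul_one]
      · simp
    have h4 : ∑ x : Rs R, (if rs R lam * (rs R m - x) = 0 then (1 : ℂ) else 0) = n0 := by
      rw [← Equiv.sum_comp (Equiv.subLeft (rs R m))]
      simp only [Equiv.subLeft_apply, sub_sub_cancel]
      rw [Finset.sum_boole]
    simp only [h2, h1, h3]
    rw [← Finset.mul_sum, h4]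
    field_simp
  refine ⟨γ, ?_, hinv⟩
  have h1 : ((∑ y, ‖γ y‖ ^ 2 : ℝ) : ℂ) = ((n0 : ℂ) * N R)⁻¹ * ∑ x : Rs R, conj (F' x) * F' x := by
    push_cast
    have h2 : ∀ y, (‖γ y‖ : ℂ) ^ 2 = ((n0 : ℂ) * N R)⁻¹ *
        ∑ x : Rs R, conj (F' x) * (γ y * psi R (x * y)) := by
      intro y
      rw [← Complex.conj_mul']
      conv_lhs => rw [show conj (γ y) = ((n0 : ℂ) * N R)⁻¹ *
        ∑ x : Rs R, conj (F' x) * psi R (x * y) by
          simp only [hγ, map_mul, map_sum, map_inv₀, conj_psi', neg_neg, map_natCast]]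
      rw [mul_assoc, Finset.sum_mul]
      congr 1
      refine Finset.sum_congr rfl fun x _ => by ring
    simp only [h2]
    rw [← Finset.mul_sum, Finset.sum_comm]
    congr 1
    refine Finset.sum_congr rfl fun x _ => ?_
    rw [← Finset.mul_sum]
    congr 1
    have := hinv (Quotient.out x)
    rw [V1.rs_out] at this
    exact this.symm
  have h2 : ∑ x : Rs R, conj (F' x) * F' x = ((∑ x : Rs R, ‖F' x‖ ^ 2 : ℝ) : ℂ) := by
    push_cast
    exact Finset.sum_congr rfl fun x _ => Complex.conj_mul' _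
  have h3 : ∑ x : Rs R, ‖F' x‖ ^ 2 ≤ N R := by
    calc ∑ x : Rs R, ‖F' x‖ ^ 2 ≤ ∑ x : Rs R, (1 : ℝ) :=
          Finset.sum_le_sum fun x _ => pow_le_one₀ (norm_nonneg _) (hF1 _)
      _ = N R := by rw [Finset.sum_const, Finset.card_univ, fcard_Rs]; simp
  rw [h2] at h1
  have h4 : ∑ y, ‖γ y‖ ^ 2 = ((n0 : ℝ) * N R)⁻¹ * ∑ x : Rs R, ‖F' x‖ ^ 2 := by
    apply Complex.ofReal_injective
    rw [h1, Complex.ofReal_mul, Complex.ofReal_inv, Complex.ofReal_mul, Complex.ofReal_natCast,
      Complex.ofReal_natCast]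
  have hNr : (0 : ℝ) < N R := by exact_mod_cast hNR
  have hn1 : (1 : ℝ) ≤ n0 := by exact_mod_cast hn0pos
  have hpos : (0 : ℝ) < n0 * N R := mul_pos (by linarith) hNr
  rw [h4, inv_mul_le_iff₀ hpos]
  nlinarith

/-- the data of a frequency `√-3 y / (9 M) = a / c` equivalent to infinity under `Γ(3)` -/
def Good (M y : O) (p : O × O × O) : Prop :=
  Primary p.1 ∧ (3 : O) ∣ p.2.1 ∧ p.2.1 ∣ 9 * M ∧ 3 * p.2.1 ∣ p.1 * p.2.2 - 1 ∧
    p.1 * (9 * M) = p.2.1 * (rt3 * y)

theorem nine_mul_ne_zero {M : O} (hM : M ≠ 0) : 9 * M ≠ 0 :=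
  mul_ne_zero (by decide) hM

/-- either the frequency is good, or it is killed by the shift -/
theorem good_or {M μ M0 : O} (hM : M ≠ 0) (hμ : TH.Ram μ) (hMe : M = μ * M0)
    (y : O) : (∃ p, Good M y p) ∨ 9 * M ∣ lam * M0 * (rt3 * y) := by
  have h9 := nine_mul_ne_zero hM
  set g := EuclideanDomain.gcd (rt3 * y) (9 * M) with hg
  have hg0 : g ≠ 0 := by
    rw [hg, Ne, EuclideanDomain.gcd_eq_zero_iff]
    exact fun h => h9 h.2
  obtain ⟨a1, ha1⟩ : g ∣ rt3 * y := EuclideanDomain.gcd_dvd_left _ _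
  obtain ⟨c1, hc1⟩ : g ∣ 9 * M := EuclideanDomain.gcd_dvd_right _ _
  have hcop : IsCoprime a1 c1 := by
    have h := EuclideanDomain.gcd_eq_gcd_ab (rt3 * y) (9 * M)
    rw [← hg] at h
    refine ⟨EuclideanDomain.gcdA (rt3 * y) (9 * M), EuclideanDomain.gcdB (rt3 * y) (9 * M), ?_⟩
    apply mul_left_cancel₀ hg0
    rw [mul_one]
    conv_rhs => rw [h]
    rw [ha1, hc1]
    ring
  have hc10 : c1 ≠ 0 := by
    rintro rfl
    rw [mul_zero] at hc1
    exact h9 hc1
  by_cases h3 : (3 : O) ∣ c1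
  · left
    have hla : ¬ lam ∣ a1 := fun h =>
      prime_lam.not_isUnit (hcop.isUnit_of_dvd' h (lam_dvd_three.trans h3))
    obtain ⟨u, hu, hpa⟩ := exists_unit_mul_primary hla
    have hcop2 : IsCoprime (u * a1) (3 * (u * c1)) := by
      refine IsCoprime.mul_right hpa.isCoprime_three.symm ?_
      exact (isCoprime_mul_unit_left hu a1 c1).2 hcop
    obtain ⟨d, t, hdt⟩ := hcop2
    refine ⟨(u * a1, u * c1, d), hpa, h3.mul_left u, ?_, ⟨-t, ?_⟩, ?_⟩
    · exact (hu.mul_left_dvd).2 ⟨g, by rw [hc1]; ring⟩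
    · show u * a1 * d - 1 = 3 * (u * c1) * -t
      linear_combination hdt
    · show u * a1 * (9 * M) = u * c1 * (rt3 * y)
      rw [ha1, hc1]; ring
  · right
    obtain ⟨μ', c2, ⟨u, j, hu, hμ'⟩, hc2, hc1e⟩ := TH.exists_ram_mul hc10
    have hj : j ≤ 1 := by
      by_contra hj
      push Not at hj
      apply h3
      obtain ⟨i, rfl⟩ := Nat.exists_eq_add_of_le hj
      refine ⟨-om * (u * lam ^ i * c2), ?_⟩
      rw [hc1e, hμ', three_eq]
      have := om_cube
      linear_combination (-(u * lam ^ i * c2 * lam ^ 2)) * this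
    have hc2M : c2 ∣ M0 := by
      have h1 : c2 ∣ (9 * μ) * M0 := ⟨g * μ', by
        rw [mul_assoc, ← hMe, hc1, hc1e]; ring⟩
      have h2 : IsCoprime c2 (9 * μ) := by
        have h9' : TH.Ram (9 * μ) := by
          have := (TH.ram_three.mul TH.ram_three).mul hμ
          rwa [show (3 : O) * 3 = 9 by norm_num] at this
        exact (h9'.isCoprime hc2).symm
      exact h2.dvd_of_dvd_mul_left h1
    have hc1d : c1 ∣ lam * M0 := by
      rw [hc1e, hμ', mul_assoc]
      refine (hu.mul_left_dvd).2 (mul_dvd_mul ?_ hc2M)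
      interval_cases j
      · simp
      · simp
    obtain ⟨t, ht⟩ := hc1d
    exact ⟨t * a1, by rw [ht, ha1, hc1]; ring⟩

theorem r3_ne_zero : (3 * rt3 : O) ≠ 0 := by decide

open Classical in
/-- the function `f` on the primary numbers, transported to the indices `3 √-3 k` -/
noncomputable def cut (f : O → ℂ) (k : O) : ℂ :=
  if 3 * rt3 ∣ k ∧ Primary (k / (3 * rt3)) then f (k / (3 * rt3)) else 0

theorem cut_mul (f : O → ℂ) (k : O) : cut f (3 * rt3 * k) = if Primary k then f k else 0 := by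
  rw [cut, mul_div_cancel_left₀ _ r3_ne_zero]
  simp

theorem cut_of_not_dvd (f : O → ℂ) {k : O} (hk : ¬ 3 * rt3 ∣ k) : cut f k = 0 := by
  rw [cut, if_neg fun h => hk h.1]

theorem norm_cut_le {f : O → ℂ} (hf : ∀ x, ‖f x‖ ≤ 1) (k : O) : ‖cut f k‖ ≤ 1 := by
  rw [cut]
  split_ifs
  · exact hf _
  · simp

theorem cut_per {M : O} {f : O → ℂ} (hf : V1.Per M f) {x y : O} (h : 27 * M ∣ lam * (x - y)) :
    cut f x = cut f y := by
  obtain ⟨t, ht⟩ := h
  have h1 : x - y = 3 * rt3 * (3 * M * (-om * t)) := by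
    apply mul_left_cancel₀ prime_lam.ne_zero
    rw [ht]
    have : lam * rt3 * -om = 3 := by decide
    linear_combination (-(9 * M * t)) * this
  by_cases hy : 3 * rt3 ∣ y
  · obtain ⟨y', rfl⟩ := hy
    have h2 : x = 3 * rt3 * (y' + 3 * M * (-om * t)) := by linear_combination h1
    rw [h2, cut_mul, cut_mul]
    have h3 : Primary (y' + 3 * M * (-om * t)) ↔ Primary y' := by
      have e : y' + 3 * M * (-om * t) - 1 = (y' - 1) + 3 * (M * (-om * t)) := by ring
      rw [Primary, Primary, e]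
      exact (dvd_add_left (dvd_mul_right _ _))
    have h4 : f (y' + 3 * M * (-om * t)) = f y' := hf _ _ ⟨3 * (-om * t), by ring⟩
    simp only [h3, h4]
  · have hx : ¬ 3 * rt3 ∣ x := by
      intro hx
      apply hy
      have : y = x - 3 * rt3 * (3 * M * (-om * t)) := by linear_combination -h1
      rw [this]
      exact dvd_sub hx (dvd_mul_right _ _)
    rw [cut_of_not_dvd f hx, cut_of_not_dvd f hy]

theorem psi_rs_eT {R : O} (x : O) : psi R (rs R x) = eT (toC x / toC R) := rfl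

theorem eT_toC (x : O) : eT (toC x) = 1 := e_TrC_toC x

/-- **Fourier layer**: a family of good frequencies independent of `f` and of the dilation `h'` -/
theorem exists_expansion {M : O} (hM : M ≠ 0) :
    ∃ (I : Finset O) (a c d : O → O) (s : O), I.card ≤ 729 * N M ∧ (3 : O) ∣ s - lam ∧
      (∀ i ∈ I, Primary (a i) ∧ (3 : O) ∣ c i ∧ c i ∣ 9 * M ∧ 3 * c i ∣ a i * d i - 1) ∧
      ∀ (f : O → ℂ), V1.Per M f → (∀ x, ‖f x‖ ≤ 1) → ∀ h h' : O, 27 * M ∣ h' * h - 1 →
        ∃ β : O → ℂ, ∑ i ∈ I, ‖β i‖ ^ 2 ≤ 4 ∧ ∀ k : O, cut f k - cut f (k + 3 * rt3 * s) =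
          ∑ i ∈ I, β i * eT (nu k * (toC (h' * a i) / toC (c i))) := by
  classical
  have hR : (27 * M : O) ≠ 0 := mul_ne_zero (by decide) hM
  have : NeZero (27 * M) := ⟨hR⟩
  obtain ⟨μ, M0, hμ, hM0, hMe⟩ := TH.exists_ram_mul hM
  set J : Finset (Rs (27 * M)) := Finset.univ.filter fun y => ∃ p, Good M (Quotient.out y) p
    with hJ
  have hout : Function.Injective (fun y : Rs (27 * M) => (Quotient.out y : O)) :=
    Quotient.out_injective
  set I : Finset O := J.map ⟨_, hout⟩ with hI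
  set pp : O → O × O × O := fun y => if h : ∃ p, Good M y p then h.choose else 0 with hpp
  have hpp' : ∀ y, (∃ p, Good M y p) → Good M y (pp y) := by
    intro y hy
    simp only [hpp, dif_pos hy]
    exact hy.choose_spec
  have hIg : ∀ i ∈ I, Good M i (pp i) := by
    intro i hi
    obtain ⟨y, hy, rfl⟩ := Finset.mem_map.1 hi
    exact hpp' _ (Finset.mem_filter.1 hy).2
  refine ⟨I, fun i => (pp i).1, fun i => (pp i).2.1, fun i => (pp i).2.2, lam * M0, ?_, ?_, ?_, ?_⟩
  · rw [hI, Finset.card_map]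
    refine (Finset.card_filter_le _ _).trans ?_
    rw [Finset.card_univ, fcard_Rs, N_mul, show N (27 : O) = 729 by decide]
  · have e : lam * M0 - lam = lam * (M0 - 1) := by ring
    rw [e]
    exact Dvd.dvd.mul_left hM0 _
  · intro i hi
    obtain ⟨h1, h2, h3, h4, -⟩ := hIg i hi
    exact ⟨h1, h2, h3, h4⟩
  intro f hf hf1 h h' hh
  obtain ⟨γ, hγ1, hγ⟩ := exists_fourier (27 * M) (F := fun m => cut f (h * m))
    (fun x y hxy => cut_per hf (by
      have e : lam * (h * x - h * y) = h * (lam * (x - y)) := by ring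
      rw [e]; exact hxy.mul_left h))
    (fun x => norm_cut_le hf1 _)
  set s := lam * M0 with hs
  set β' : Rs (27 * M) → ℂ := fun y =>
    γ y * (1 - psi (27 * M) (rs (27 * M) (h' * (3 * rt3 * s)) * y)) with hβ'
  have hexp : ∀ k : O, cut f k - cut f (k + 3 * rt3 * s) =
      ∑ y, β' y * psi (27 * M) (rs (27 * M) (h' * k) * y) := by
    intro k
    have hper : ∀ m : O, cut f m = cut f (h * (h' * m)) := by
      intro m
      refine cut_per hf ?_
      have e : lam * (m - h * (h' * m)) = (h' * h - 1) * (-(lam * m)) := by ring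
      rw [e]; exact hh.mul_right _
    rw [hper k, hper (k + 3 * rt3 * s), hγ (h' * k), hγ (h' * (k + 3 * rt3 * s)),
      ← Finset.sum_sub_distrib]
    refine Finset.sum_congr rfl fun y _ => ?_
    simp only [hβ']
    rw [mul_add, map_add, add_mul, AddChar.map_add_eq_mul]
    ring
  have hM' : toC M ≠ 0 := by simpa using hM
  have hrt := toC_rt3_ne_zero
  have hbad : ∀ y : Rs (27 * M), y ∉ J → β' y = 0 := by
    intro y hy
    have h1 : ¬ ∃ p, Good M (Quotient.out y) p := fun h1 =>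
      hy (Finset.mem_filter.2 ⟨Finset.mem_univ _, h1⟩)
    obtain ⟨t, ht⟩ := (good_or hM hμ hMe (Quotient.out y)).resolve_left h1
    have h2 : psi (27 * M) (rs (27 * M) (h' * (3 * rt3 * s)) * y) = 1 := by
      conv_lhs => rw [← V1.rs_out y]
      rw [← map_mul]
      have e : h' * (3 * rt3 * s) * Quotient.out y = 27 * M * (h' * t) := by
        rw [hs]; linear_combination (3 * h') * ht
      rw [e, (rs_eq_zero).2 (dvd_mul_right _ _), AddChar.map_zero_eq_one]
    simp only [hβ', h2, sub_self, mul_zero]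
  refine ⟨fun i => β' (rs (27 * M) i), ?_, fun k => ?_⟩
  · rw [hI, Finset.sum_map]
    simp only [Function.Embedding.coeFn_mk, V1.rs_out]
    calc ∑ y ∈ J, ‖β' y‖ ^ 2 ≤ ∑ y, ‖β' y‖ ^ 2 :=
          Finset.sum_le_sum_of_subset_of_nonneg (Finset.subset_univ _) fun _ _ _ => by positivity
      _ ≤ ∑ y, 4 * ‖γ y‖ ^ 2 := by
          refine Finset.sum_le_sum fun y _ => ?_
          have h1 : ‖β' y‖ ≤ ‖γ y‖ * 2 := by
            simp only [hβ']
            rw [norm_mul]
            refine mul_le_mul_of_nonneg_left ((norm_sub_le _ _).trans ?_) (norm_nonneg _)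
            rw [norm_one, norm_psi']; norm_num
          calc ‖β' y‖ ^ 2 ≤ (‖γ y‖ * 2) ^ 2 := by gcongr
            _ = _ := by ring
      _ ≤ 4 := by rw [← Finset.mul_sum]; linarith
  · rw [hexp k, hI, Finset.sum_map, ← Finset.sum_subset (Finset.subset_univ J)
      (fun y _ hy => by rw [hbad y hy, zero_mul])]
    refine Finset.sum_congr rfl fun y hy => ?_
    simp only [Function.Embedding.coeFn_mk, V1.rs_out]
    congr 1
    obtain ⟨-, h2, h3, -, h5⟩ := hpp' _ (Finset.mem_filter.1 hy).2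
    have hc0 : (pp (Quotient.out y)).2.1 ≠ 0 := by
      intro h0
      rw [h0, zero_dvd_iff] at h3
      exact nine_mul_ne_zero hM h3
    have hc0' : toC (pp (Quotient.out y)).2.1 ≠ 0 := by simpa using hc0
    have h6 := congrArg toC h5
    simp only [map_mul, map_ofNat] at h6
    conv_lhs => rw [← V1.rs_out y]
    rw [← map_mul, psi_rs_eT]
    congr 1
    simp only [nu, map_mul, map_ofNat]
    field_simp
    linear_combination (-(3 * toC h' * toC k)) * h6

end Vale.Agent.P026Z.Vor
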