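import Vale.Agent.P026Z.Vor.Shift
import Vale.Agent.P026Z.Vor.Defs
import Mathlib.Analysis.MellinTransform

/-!
P026, block VOR: the kernel `Kc y = y^{1/3} G(y)`, its Mellin transform
`Γ(s+1/3) Γ(s+2/3)`, and the Gamma ratio of the functional equation.
-/

namespace Vale.Agent.P026Z.Vor

open MeasureTheory Filter Topology Set Complex Asymptotics
open Vale.Agent.P006.SG (G F fker)
open scoped Real

/-- the kernel `y^{1/3} G(y)` -/
noncomputable def Kc (y : ℝ) : ℂ := (KK y : ℂ)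

/-- `Γ(s+1/3) Γ(s+2/3)` -/
noncomputable def gam (s : ℂ) : ℂ := Gamma (s + 1 / 3) * Gamma (s + 2 / 3)

/-- `1 / gam` -/
noncomputable def gamInv (s : ℂ) : ℂ := (Gamma (s + 1 / 3))⁻¹ * (Gamma (s + 2 / 3))⁻¹

/-- the ratio `gam (1-s) / gam s` -/
noncomputable def Gr (s : ℂ) : ℂ := gam (1 - s) * gamInv s

theorem G_nonneg (y : ℝ) : 0 ≤ G y := P006.SG.F_nonneg _ _

theorem continuousOn_Kc : ContinuousOn Kc (Ioi 0) := by
  unfold Kc KK
  refine continuous_ofReal.comp_continuousOn (ContinuousOn.mul ?_ ?_)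
  · intro y hy
    exact (Real.continuousAt_rpow_const _ _ (Or.inl (ne_of_gt hy))).continuousWithinAt
  · exact P006.SG.continuousOn_G.mono Ioi_subset_Ici_self

theorem norm_Kc {y : ℝ} (hy : 0 < y) : ‖Kc y‖ = y ^ (1 / 3 : ℝ) * G y := by
  rw [Kc, KK, norm_real, Real.norm_of_nonneg (mul_nonneg (by positivity) (G_nonneg y))]

/-- `Kc y ≤ C y^{-2}` and `Kc y ≤ C y^{1/3}` -/
theorem exists_Kc_bound : ∃ C : ℝ, 0 ≤ C ∧ ∀ y : ℝ, 0 < y →
    ‖Kc y‖ ≤ C * y ^ (-2 : ℝ) ∧ ‖Kc y‖ ≤ C * y ^ (1 / 3 : ℝ) := by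
  obtain ⟨C, hC0, hC⟩ := P006.SG.F_le_exp (a := 1 / 3) (by norm_num)
  refine ⟨C * 720, by positivity, fun y hy => ?_⟩
  have h1 : G y ≤ C * Real.exp (-√y) := hC y hy.le
  have hs : 0 ≤ √y := Real.sqrt_nonneg y
  have h2 : Real.exp (-√y) ≤ 1 := Real.exp_le_one_iff.2 (by linarith)
  have hy3 : 0 < y ^ (1 / 3 : ℝ) := by positivity
  rw [norm_Kc hy]
  constructor
  · rcases le_total y 1 with h | h
    · have h3 : y ^ (1 / 3 : ℝ) ≤ y ^ (-2 : ℝ) :=
        Real.rpow_le_rpow_of_exponent_ge hy h (by norm_num)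
      calc y ^ (1 / 3 : ℝ) * G y ≤ y ^ (-2 : ℝ) * (C * 1) := by
            refine mul_le_mul h3 (h1.trans (by gcongr)) (G_nonneg y) (by positivity)
        _ ≤ _ := by
            have : 0 ≤ C * y ^ (-2 : ℝ) := by positivity
            nlinarith
    · have h3 : y ^ (1 / 3 : ℝ) ≤ y ^ (1 : ℝ) := Real.rpow_le_rpow_of_exponent_le h (by norm_num)
      rw [Real.rpow_one] at h3
      have h4 : √y ^ 6 / (Nat.factorial 6 : ℝ) ≤ Real.exp √y := Real.pow_div_factorial_le_exp _ hs 6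
      have h5 : √y ^ 6 = y ^ 3 := by
        rw [show 6 = 2 * 3 from rfl, pow_mul, Real.sq_sqrt hy.le]
      rw [h5] at h4
      have h6 : Real.exp (-√y) ≤ 720 / y ^ 3 := by
        rw [Real.exp_neg, inv_le_comm₀ (Real.exp_pos _) (by positivity), inv_div]
        simpa [Nat.factorial] using h4
      have h7 : y ^ (-2 : ℝ) = y / y ^ 3 := by
        rw [Real.rpow_neg hy.le, show (2 : ℝ) = ((2 : ℕ) : ℝ) by norm_num, Real.rpow_natCast]
        field_simp
      calc y ^ (1 / 3 : ℝ) * G y ≤ y * (C * (720 / y ^ 3)) := by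
            refine mul_le_mul h3 (h1.trans (by gcongr)) (G_nonneg y) hy.le
        _ = _ := by rw [h7]; ring
  · calc y ^ (1 / 3 : ℝ) * G y ≤ y ^ (1 / 3 : ℝ) * (C * 1) := by
          gcongr
          exact h1.trans (by gcongr)
      _ ≤ _ := by
          have : 0 ≤ C * y ^ (1 / 3 : ℝ) := by positivity
          nlinarith

theorem mellinConvergent_Kc {s : ℂ} (h0 : 0 < s.re) (h2 : s.re < 2) : MellinConvergent Kc s := by
  obtain ⟨C, hC0, hC⟩ := exists_Kc_bound
  refine mellinConvergent_of_isBigO_rpow (a := 2) (b := -(1 / 3))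
    (continuousOn_Kc.locallyIntegrableOn measurableSet_Ioi) ?_ h2 ?_ (by linarith)
  · refine IsBigO.of_bound C ?_
    filter_upwards [eventually_gt_atTop 0] with y hy
    rw [Real.norm_of_nonneg (by positivity)]
    exact (hC y hy).1
  · refine IsBigO.of_bound C ?_
    filter_upwards [self_mem_nhdsWithin] with y hy
    have hy : 0 < y := hy
    rw [Real.norm_of_nonneg (by positivity), neg_neg]
    exact (hC y hy).2

theorem mellin_Kc {s : ℂ} (h0 : 0 < s.re) : mellin Kc s = gam s := by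
  set w : ℂ := s + 1 / 3 with hw
  have hwre : 0 < w.re := by simp [hw]; linarith
  set f : ℝ → ℝ → ℂ := fun y r => (y : ℂ) ^ (w - 1) * ((fker (1 / 3) y r : ℝ) : ℂ) with hf
  have e1 : mellin Kc s = ∫ y in Ioi (0 : ℝ), ∫ r in Ioi (0 : ℝ), f y r := by
    rw [mellin]
    refine setIntegral_congr_fun measurableSet_Ioi fun y hy => ?_
    have hy : (0 : ℝ) < y := hy
    simp only [hf]
    rw [integral_const_mul, integral_complex_ofReal, smul_eq_mul, Kc, KK, ofReal_mul,
      ofReal_cpow hy.le, ← mul_assoc, ← cpow_add _ _ (by exact_mod_cast hy.ne')]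
    congr 2
    rw [hw]; push_cast; ring
  have hinner : ∀ r : ℝ, 0 < r → ∀ y : ℝ, 0 < y → f y r =
      ((r ^ ((1 / 3 : ℝ) - 1) * Real.exp (-r) : ℝ) : ℂ) *
        ((y : ℂ) ^ (w - 1) * cexp (-(((1 / r : ℝ) : ℂ) * y))) := by
    intro r hr y hy
    simp only [hf, fker]
    rw [show -r - y / r = -r + -(1 / r * y) by ring, Real.exp_add]
    push_cast
    ring
  have hmeas : AEStronglyMeasurable (Function.uncurry f)
      ((volume.restrict (Ioi (0 : ℝ))).prod (volume.restrict (Ioi (0 : ℝ)))) := by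
    refine Measurable.aestronglyMeasurable ?_
    simp only [hf, fker]
    refine Measurable.mul ?_ (measurable_ofReal.comp (by fun_prop))
    exact (measurable_ofReal.comp measurable_fst).pow_const _
  have hint : Integrable (Function.uncurry f)
      ((volume.restrict (Ioi (0 : ℝ))).prod (volume.restrict (Ioi (0 : ℝ)))) := by
    rw [integrable_prod_iff' hmeas]
    constructor
    · refine (ae_restrict_iff' measurableSet_Ioi).2 (ae_of_all _ fun r hr => ?_)
      have hr : (0 : ℝ) < r := hr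
      have h1 : IntegrableOn (fun y : ℝ => (y : ℂ) ^ (w - 1) * cexp (-(((1 / r : ℝ) : ℂ) * y)))
          (Ioi 0) := by
        have h2 := integrableOn_rpow_mul_exp_neg_mul_rpow (s := w.re - 1) (p := 1) (b := 1 / r)
          (by linarith) one_pos (by positivity)
        refine Integrable.mono' h2 ?_ ?_
        · refine Measurable.aestronglyMeasurable ?_
          exact (measurable_ofReal.pow_const _).mul (by fun_prop)
        · refine (ae_restrict_iff' measurableSet_Ioi).2 (ae_of_all _ fun y hy => ?_)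
          have hy : (0 : ℝ) < y := hy
          rw [norm_mul, norm_cpow_eq_rpow_re_of_pos hy, norm_exp]
          simp
      refine IntegrableOn.congr_fun (h1.const_mul
        ((r ^ ((1 / 3 : ℝ) - 1) * Real.exp (-r) : ℝ) : ℂ)) (fun y hy => ?_) measurableSet_Ioi
      exact (hinner r hr y hy).symm
    · have h1 : IntegrableOn (fun r : ℝ => Real.Gamma w.re *
          (Real.exp (-r) * r ^ ((w.re + 1 / 3) - 1))) (Ioi 0) :=
        (Real.GammaIntegral_convergent (by linarith)).const_mul _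
      refine IntegrableOn.congr_fun h1 (fun r hr => ?_) measurableSet_Ioi
      have hr : (0 : ℝ) < r := hr
      have h2 : ∫ y in Ioi (0 : ℝ), ‖Function.uncurry f (y, r)‖ =
          ∫ y in Ioi (0 : ℝ), (r ^ ((1 / 3 : ℝ) - 1) * Real.exp (-r)) *
            (y ^ (w.re - 1) * Real.exp (-(1 / r * y))) := by
        refine setIntegral_congr_fun measurableSet_Ioi fun y hy => ?_
        have hy : (0 : ℝ) < y := hy
        simp only [Function.uncurry]
        rw [hinner r hr y hy, norm_mul, norm_mul, norm_cpow_eq_rpow_re_of_pos hy, norm_exp,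
          norm_real, Real.norm_of_nonneg (by positivity)]
        simp
      show _ = ∫ y in Ioi (0 : ℝ), ‖Function.uncurry f (y, r)‖
      rw [h2, integral_const_mul, Real.integral_rpow_mul_exp_neg_mul_Ioi hwre (by positivity),
        one_div_one_div, show w.re + 1 / 3 - 1 = (1 / 3 - 1) + w.re by ring, Real.rpow_add hr]
      ring
  rw [e1, integral_integral_swap hint]
  have e2 : ∫ r in Ioi (0 : ℝ), ∫ y in Ioi (0 : ℝ), f y r =
      ∫ r in Ioi (0 : ℝ), Gamma w * (((Real.exp (-r) : ℝ) : ℂ) * (r : ℂ) ^ ((w + 1 / 3) - 1)) := by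
    refine setIntegral_congr_fun measurableSet_Ioi fun r hr => ?_
    have hr : (0 : ℝ) < r := hr
    show ∫ y in Ioi (0 : ℝ), f y r = _
    rw [setIntegral_congr_fun measurableSet_Ioi (fun y hy => hinner r hr y hy), integral_const_mul,
      integral_cpow_mul_exp_neg_mul_Ioi hwre (by positivity)]
    have hr' : (r : ℂ) ≠ 0 := by exact_mod_cast hr.ne'
    rw [show w + 1 / 3 - 1 = (((1 / 3 : ℝ) - 1 : ℝ) : ℂ) + w by push_cast; ring, cpow_add _ _ hr',
      ← ofReal_cpow hr.le]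
    have : (1 / ((1 / r : ℝ) : ℂ)) = r := by push_cast; rw [one_div_one_div]
    rw [this]
    push_cast
    ring
  rw [e2, integral_const_mul, gam, ← hw]
  congr 1
  have h3 : 0 < (w + 1 / 3).re := by simp; linarith
  rw [show s + 2 / 3 = w + 1 / 3 by rw [hw]; ring, Gamma_eq_integral h3, GammaIntegral]

/-! ### the Gamma factors -/

theorem differentiable_gamInv : Differentiable ℂ gamInv := by
  unfold gamInv
  exact (differentiable_one_div_Gamma.comp (by fun_prop)).mul
    (differentiable_one_div_Gamma.comp (by fun_prop))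

theorem differentiableAt_gam {s : ℂ} (hs : 0 < s.re) : DifferentiableAt ℂ gam s := by
  unfold gam
  have h : ∀ c : ℂ, 0 ≤ c.re → DifferentiableAt ℂ (fun s => Gamma (s + c)) s := by
    intro c hc
    refine (differentiableAt_Gamma _ fun m hm => ?_).comp s (f := fun s => s + c) (by fun_prop)
    have := congrArg Complex.re hm
    simp at this
    have h2 : (0 : ℝ) ≤ m := Nat.cast_nonneg m
    linarith
  exact (h _ (by norm_num)).mul (h _ (by norm_num))

theorem gam_mul_gamInv {s : ℂ} (hs : 0 < s.re) : gam s * gamInv s = 1 := by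
  have h1 : Gamma (s + 1 / 3) ≠ 0 := Gamma_ne_zero_of_re_pos (by simp; linarith)
  have h2 : Gamma (s + 2 / 3) ≠ 0 := Gamma_ne_zero_of_re_pos (by simp; linarith)
  rw [gam, gamInv, mul_mul_mul_comm, mul_inv_cancel₀ h1, mul_inv_cancel₀ h2, mul_one]

theorem exists_gamInv_bound : ∃ C : ℝ, 0 ≤ C ∧ ∀ s : ℂ, -1 ≤ s.re → s.re ≤ 2 → 1 ≤ |s.im| →
    ‖gamInv s‖ ≤ C * Real.exp (2 * π * |s.im|) := by
  obtain ⟨C, hC0, hC⟩ := exists_inv_Gamma_bound
  refine ⟨C * C, by positivity, fun s h1 h2 h3 => ?_⟩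
  have a1 := hC (s + 1 / 3) (by simp; linarith) (by simp; linarith) (by simpa using h3)
  have a2 := hC (s + 2 / 3) (by simp; linarith) (by simp; linarith) (by simpa using h3)
  have e1 : (s + 1 / 3).im = s.im := by simp
  have e2 : (s + 2 / 3).im = s.im := by simp
  rw [e1] at a1
  rw [e2] at a2
  rw [gamInv, norm_mul]
  calc _ ≤ (C * Real.exp (π * |s.im|)) * (C * Real.exp (π * |s.im|)) := by gcongr
    _ = _ := by rw [show 2 * π * |s.im| = π * |s.im| + π * |s.im| by ring, Real.exp_add]; ring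

theorem exists_gam_bound : ∃ C : ℝ, 0 ≤ C ∧ ∀ s : ℂ, 1 / 2 ≤ s.re → s.re ≤ 3 / 2 → ‖gam s‖ ≤ C := by
  obtain ⟨C, hC0, hC⟩ := exists_Gamma_bound (a := 1 / 2) (b := 3) (by norm_num)
  refine ⟨C * C, by positivity, fun s h1 h2 => ?_⟩
  have a1 := hC (s + 1 / 3) (by simp; linarith) (by simp; linarith)
  have a2 := hC (s + 2 / 3) (by simp; linarith) (by simp; linarith)
  rw [gam, norm_mul]
  gcongr

theorem differentiableAt_Gr {s : ℂ} (hs : s.re < 1) : DifferentiableAt ℂ Gr s := by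
  unfold Gr
  refine DifferentiableAt.mul ?_ (differentiable_gamInv s)
  exact (differentiableAt_gam (by simp; linarith)).comp s (f := fun s => 1 - s) (by fun_prop)

theorem norm_Gamma_conj (z : ℂ) : ‖Gamma ((starRingEnd ℂ) z)‖ = ‖Gamma z‖ := by
  rw [Gamma_conj, norm_conj]

theorem norm_Gr_half (t : ℝ) : ‖Gr ((1 / 2 : ℝ) + t * I)‖ ≤ 1 := by
  have h : ∀ c : ℝ, ‖Gamma (1 - ((1 / 2 : ℝ) + t * I) + c)‖ *
      ‖(Gamma (((1 / 2 : ℝ) + t * I) + c))⁻¹‖ ≤ 1 := by
    intro c
    have e : 1 - ((1 / 2 : ℝ) + t * I) + c = (starRingEnd ℂ) (((1 / 2 : ℝ) + t * I) + c) := by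
      apply Complex.ext <;> simp
      norm_num
    rw [e, norm_Gamma_conj, norm_inv]
    exact mul_inv_le_one
  have h1 := h (1 / 3)
  have h2 := h (2 / 3)
  push_cast at h1 h2
  rw [Gr, gam, gamInv, norm_mul, norm_mul, norm_mul]
  push_cast
  calc _ = (‖Gamma (1 - (1 / 2 + t * I) + 1 / 3)‖ * ‖(Gamma (1 / 2 + t * I + 1 / 3))⁻¹‖) *
      (‖Gamma (1 - (1 / 2 + t * I) + 2 / 3)‖ * ‖(Gamma (1 / 2 + t * I + 2 / 3))⁻¹‖) := by ring
    _ ≤ 1 * 1 := by gcongr
    _ = 1 := by ring

theorem norm_Gr_neg_half (t : ℝ) : ‖Gr ((-1 / 2 : ℝ) + t * I)‖ ≤ (2 * (1 + |t|)) ^ 4 := by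
  have h : ∀ c : ℝ, 0 < c → c < 1 → c ≠ 1 / 2 → ‖Gamma (1 - ((-1 / 2 : ℝ) + t * I) + c)‖ *
      ‖(Gamma (((-1 / 2 : ℝ) + t * I) + c))⁻¹‖ ≤ (2 * (1 + |t|)) ^ 2 := by
    intro c hc0 hc1 hc
    set z : ℂ := ((-1 / 2 : ℝ) + t * I) + c with hz
    have e : 1 - ((-1 / 2 : ℝ) + t * I) + c = (starRingEnd ℂ) (z + 1 + 1) := by
      rw [hz]
      simp only [map_add, map_mul, conj_ofReal, conj_I, map_one]
      push_cast
      ring
    have hzre : z.re = -1 / 2 + c := by
      rw [hz, add_re, add_re, ofReal_re, ofReal_re]; simp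
    have hzim : z.im = t := by
      rw [hz, add_im, add_im, ofReal_im, ofReal_im]; simp
    have hz0 : z ≠ 0 := by
      intro h0
      rw [h0] at hzre
      simp at hzre
      apply hc
      linarith
    have hz1 : z + 1 ≠ 0 := by
      intro h0
      have := congrArg Complex.re h0
      simp [hzre] at this
      linarith
    rw [e, norm_Gamma_conj, Gamma_add_one _ hz1, Gamma_add_one _ hz0, norm_mul, norm_mul, norm_inv]
    have n0 : ‖z‖ ≤ 2 * (1 + |t|) := by
      refine (norm_le_abs_re_add_abs_im z).trans ?_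
      rw [hzre, hzim]
      have : |-1 / 2 + c| ≤ 2 := abs_le.2 ⟨by linarith, by linarith⟩
      linarith [abs_nonneg t]
    have n1 : ‖z + 1‖ ≤ 2 * (1 + |t|) := by
      refine (norm_le_abs_re_add_abs_im _).trans ?_
      rw [add_re, add_im, hzre, hzim, one_re, one_im, add_zero]
      have : |-1 / 2 + c + 1| ≤ 2 := abs_le.2 ⟨by linarith, by linarith⟩
      linarith [abs_nonneg t]
    calc _ = ‖z + 1‖ * ‖z‖ * (‖Gamma z‖ * ‖Gamma z‖⁻¹) := by ring
      _ ≤ (2 * (1 + |t|)) * (2 * (1 + |t|)) * 1 := by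
          gcongr
          exact mul_inv_le_one
      _ = _ := by ring
  have h1 := h (1 / 3) (by norm_num) (by norm_num) (by norm_num)
  have h2 := h (2 / 3) (by norm_num) (by norm_num) (by norm_num)
  push_cast at h1 h2
  rw [Gr, gam, gamInv, norm_mul, norm_mul, norm_mul]
  push_cast
  calc _ = (‖Gamma (1 - (-1 / 2 + t * I) + 1 / 3)‖ * ‖(Gamma (-1 / 2 + t * I + 1 / 3))⁻¹‖) *
      (‖Gamma (1 - (-1 / 2 + t * I) + 2 / 3)‖ * ‖(Gamma (-1 / 2 + t * I + 2 / 3))⁻¹‖) := by ring
    _ ≤ (2 * (1 + |t|)) ^ 2 * (2 * (1 + |t|)) ^ 2 := by gcongr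
    _ = _ := by ring

theorem continuous_Gr_line {σ : ℝ} (hσ : σ < 1) : Continuous fun t : ℝ => Gr (σ + t * I) := by
  rw [continuous_iff_continuousAt]
  intro t
  exact ContinuousAt.comp (f := fun t : ℝ => (σ : ℂ) + t * I)
    (differentiableAt_Gr (by simpa using hσ)).continuousAt (by fun_prop)

end Vale.Agent.P026Z.Vor
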