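import Vale.Agent.P026Z.Vor.Four
import Vale.Agent.P026Z.Vor.Iface
import Vale.Agent.P006.H570.Per

/-!
P026, block VOR (V4): the cusp decomposition `V4Stmt`, from the twisted kernel identity at one
cusp.
-/

open scoped Real ComplexConjugate

namespace Vale.Agent.P026Z.Vor

open Vale.Agent.P006 Vale.Agent.P006.PO Vale.Agent.P006.SG Vale.Agent.P026Z.TH

/-- the twisted kernel identity at one cusp -/
def CoreStmt (θ : O → ℂ) : Prop :=
  ∀ (h : O) (χ ρ : O → ℂ), Primary h → CLS.PChar h χ → CLS.PChar h ρ →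
    (∀ y, χ y ^ 2 = toC (sym y h)) → (∀ y, ρ y = χ y ^ 3) →
    ∀ a c d : O, Primary a → (3 : O) ∣ c → c ≠ 0 → IsCoprime c h → 3 * c ∣ a * h ^ 2 * d - 1 →
      ∃ z : ℂ, ‖z‖ = 1 ∧ ∀ U : ℝ, 0 < U →
        ∑' k : O, cf θ k * alp k * conj (χ k) * eT (nu k * (toC a / toC c)) *
            (KK (qq * N k / (N c * N h) * U) : ℂ) =
          z * (U : ℂ)⁻¹ * ∑' k : O, bd θ c d ρ k * (KK (qq * N k / (N c * N h) / U) : ℂ)

theorem th_r3 {k : O} (hk : k ≠ 0) : th (3 * rt3 * k) = th k := by
  have e : (3 * rt3 : O) = (-rt3) ^ 3 := by decide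
  have h : Ram (-rt3) := by
    have := (ram_unit isUnit_one.neg).mul ram_rt3
    rwa [neg_one_mul] at this
  rw [e, th_ram_cube h hk]

theorem N_r3 : N (3 * rt3 : O) = 27 := by decide

theorem cf_r3 {k : O} (hk : k ≠ 0) :
    cf th (3 * rt3 * k) = (((27 : ℝ) ^ (1 / 6 : ℝ) : ℝ) : ℂ) * cf th k := by
  rw [cf, cf, th_r3 hk, N_mul, N_r3, Nat.cast_mul, Real.mul_rpow (by positivity) (by positivity)]
  push_cast
  ring

/-- the shifted copy does not meet the support of the theta coefficients -/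
theorem th_mul_cut {s : O} (hs : (3 : O) ∣ s - lam) (f : O → ℂ) (k : O) :
    th k * cut f (k + 3 * rt3 * s) = 0 := by
  by_cases hk : 3 * rt3 ∣ k + 3 * rt3 * s
  · obtain ⟨m, hm⟩ := hk
    rw [hm, cut_mul]
    split_ifs with hP
    · have e : k = 3 * rt3 * (m - s) := by linear_combination hm
      have h3 : (3 : O) ∣ (m - s) - om := by
        have e2 : (m - s) - om = (m - 1) - (s - lam) := by
          have : lam = 1 - om := by decide
          rw [this]; ring
        rw [e2]; exact dvd_sub hP hs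
      have hne : m - s ≠ 0 := by
        intro h0
        rw [h0] at h3
        revert h3; decide
      rw [e, th_r3 hne, th_eq_zero_of_om h3, zero_mul]
    · rw [mul_zero]
  · rw [cut_of_not_dvd f hk, mul_zero]

theorem summable_of_vanish {g : ℝ → ℂ} (hg : ∃ B : ℝ, ∀ x, B < x → g x = 0) (a : O → ℂ) :
    Summable fun k : O => a k * g (N k) := by
  obtain ⟨B, hB⟩ := hg
  refine summable_of_ne_finset_zero (s := H570.nb (max B 0)) fun k hk => ?_
  rw [H570.mem_nb (le_max_right _ _), not_le] at hk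
  rw [hB _ ((le_max_left _ _).trans_lt hk), mul_zero]

/-- **the cusp decomposition**, from the identity at one cusp -/
theorem v4_of_core (hcore : CoreStmt th) : V4Stmt th := by
  classical
  refine ⟨729, fun M hM => ?_⟩
  obtain ⟨I, a, c, d, s, hcard, hs, hI, hexp⟩ := exists_expansion hM
  have h9 := nine_mul_ne_zero hM
  have hc0 : ∀ i ∈ I, c i ≠ 0 := by
    intro i hi h0
    have := (hI i hi).2.2.1
    rw [h0, zero_dvd_iff] at this
    exact h9 this
  refine ⟨I, c, d, by exact_mod_cast hcard, fun i hi => ⟨hc0 i hi, ?_⟩, ?_⟩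
  · have h1 := Nat.le_of_dvd (N_pos h9) (N_dvd_N (hI i hi).2.2.1)
    rw [N_mul, show N (9 : O) = 81 by decide] at h1
    have h2 : (N (c i) : ℝ) ≤ 81 * N M := by exact_mod_cast h1
    have h3 : (0 : ℝ) ≤ N M := Nat.cast_nonneg _
    linarith
  intro h χ ρ hh hhM hχ hρ hsq hcube f hf hf1
  have h3h : IsCoprime h 3 := hh.isCoprime_three.symm
  have hcop : IsCoprime (h ^ 2) (27 * M) := by
    refine IsCoprime.pow_left (IsCoprime.mul_right ?_ hhM)
    have := h3h.pow_right (n := 3)
    rwa [show (3 : O) ^ 3 = 27 by norm_num] at this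
  obtain ⟨h', t, hht⟩ := hcop
  have hh' : 27 * M ∣ h' * h ^ 2 - 1 := ⟨-t, by linear_combination hht⟩
  have hh'p : Primary h' := by
    have h1 : Primary (h ^ 2 * h') := by
      show (3 : O) ∣ h ^ 2 * h' - 1
      rw [mul_comm]
      exact (Dvd.intro (9 * M) (by ring)).trans hh'
    exact (hh.pow 2).of_mul h1
  obtain ⟨β, hβ, hβe⟩ := hexp f hf hf1 (h ^ 2) h' hh'
  have hz : ∀ i, ∃ z : ℂ, ‖z‖ = 1 ∧ (i ∈ I → ∀ U : ℝ, 0 < U →
      ∑' k : O, cf th k * alp k * conj (χ k) * eT (nu k * (toC (h' * a i) / toC (c i))) *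
          (KK (qq * N k / (N (c i) * N h) * U) : ℂ) =
        z * (U : ℂ)⁻¹ * ∑' k : O, bd th (c i) (d i) ρ k *
          (KK (qq * N k / (N (c i) * N h) / U) : ℂ)) := by
    intro i
    by_cases hi : i ∈ I
    · obtain ⟨h1, h2, h3, h4⟩ := hI i hi
      have h5 : IsCoprime (c i) h := by
        refine IsCoprime.of_isCoprime_of_dvd_left (IsCoprime.mul_left ?_ hhM.symm) h3
        have := (h3h.pow_right (n := 2)).symm
        rwa [show (3 : O) ^ 2 = 9 by norm_num] at this
      have h6 : 3 * c i ∣ h' * a i * h ^ 2 * d i - 1 := by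
        have e : h' * a i * h ^ 2 * d i - 1 =
            (h' * h ^ 2 - 1) * (a i * d i) + (a i * d i - 1) := by ring
        rw [e]
        refine dvd_add (Dvd.dvd.mul_right (dvd_trans ?_ hh') _) h4
        rw [show (27 : O) * M = 3 * (9 * M) by ring]
        exact mul_dvd_mul_left 3 h3
      obtain ⟨z, hz1, hz2⟩ := hcore h χ ρ hh hχ hρ hsq hcube (h' * a i) (c i) (d i) (hh'p.mul h1) h2
        (hc0 i hi) h5 h6
      exact ⟨z, hz1, fun _ => hz2⟩
    · exact ⟨1, norm_one, fun h => absurd h hi⟩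
  choose z hz1 hz2 using hz
  have hzz : ∀ i, conj (z i) * z i = 1 := fun i => by
    rw [Complex.conj_mul', hz1]; simp
  -- the constant
  set L : ℂ := (((27 : ℝ) ^ (1 / 6 : ℝ) : ℝ) : ℂ) * alp (3 * rt3) * conj (χ (3 * rt3)) with hL
  have h27 : (1 : ℝ) ≤ (27 : ℝ) ^ (1 / 6 : ℝ) := Real.one_le_rpow (by norm_num) (by norm_num)
  have hLn : 1 ≤ ‖L‖ := by
    have h1 : IsCoprime (3 * rt3) h := (ram_three.mul ram_rt3).isCoprime hh
    rw [hL, norm_mul, norm_mul, norm_alp r3_ne_zero, RCLike.norm_conj, hχ.norm _ h1,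
      Complex.norm_real, Real.norm_of_nonneg (by positivity)]
    linarith
  have hL0 : L ≠ 0 := by
    intro h0; rw [h0, norm_zero] at hLn; linarith
  refine ⟨fun i => L⁻¹ * z i * β i, fun i k => conj (z i) *
    (cf th k * alp k * conj (χ k) * eT (nu k * (toC (h' * a i) / toC (c i)))), ?_, ?_, ?_, ?_, ?_⟩
  · refine le_trans (Finset.sum_le_sum fun i _ => ?_) (hβ.trans (by norm_num))
    rw [norm_mul, norm_mul, hz1, mul_one, norm_inv]
    have h1 : ‖L‖⁻¹ ≤ 1 := inv_le_one_of_one_le₀ hLn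
    have h2 : ‖L‖⁻¹ * ‖β i‖ ≤ ‖β i‖ := mul_le_of_le_one_left (norm_nonneg _) h1
    gcongr
  · intro i k
    rw [norm_mul, norm_mul, norm_mul, norm_mul, RCLike.norm_conj, RCLike.norm_conj, hz1, norm_eT,
      one_mul, mul_one]
    have h1 := norm_alp_le k
    have h2 := hχ.norm_le k
    calc ‖cf th k‖ * ‖alp k‖ * ‖χ k‖ ≤ ‖cf th k‖ * 1 * 1 := by gcongr
      _ = _ := by ring
  · intro i; simp
  · intro g hg
    have h1 : ∑ i ∈ I, L⁻¹ * z i * β i * ∑' k : O, conj (z i) *
        (cf th k * alp k * conj (χ k) * eT (nu k * (toC (h' * a i) / toC (c i)))) * g (N k) =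
        ∑' k : O, L⁻¹ * (cf th k * alp k * conj (χ k) * cut f k) * g (N k) := by
      simp only [← tsum_mul_left]
      rw [← Summable.tsum_finsetSum fun i _ => (summable_of_vanish hg _).mul_left _]
      refine tsum_congr fun k => ?_
      have h2 : cf th k * cut f k = cf th k * (cut f k - cut f (k + 3 * rt3 * s)) := by
        have := th_mul_cut hs f k
        rw [cf]
        linear_combination (((N k : ℝ) ^ (1 / 6 : ℝ) : ℝ) : ℂ) * this
      calc ∑ i ∈ I, L⁻¹ * z i * β i * (conj (z i) * (cf th k * alp k * conj (χ k) *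
            eT (nu k * (toC (h' * a i) / toC (c i)))) * g (N k))
          = L⁻¹ * (alp k * conj (χ k) * (cf th k *
            ∑ i ∈ I, β i * eT (nu k * (toC (h' * a i) / toC (c i))))) * g (N k) := by
            simp only [Finset.mul_sum, Finset.sum_mul]
            refine Finset.sum_congr rfl fun i _ => ?_
            linear_combination (L⁻¹ * β i * (cf th k * alp k * conj (χ k) *
              eT (nu k * (toC (h' * a i) / toC (c i)))) * g (N k)) * hzz i
        _ = _ := by rw [← hβe k, ← h2]; ring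
    rw [h1]
    have hinj : Function.Injective fun k : O => 3 * rt3 * k := mul_right_injective₀ r3_ne_zero
    rw [← hinj.tsum_eq (f := fun k : O => L⁻¹ * (cf th k * alp k * conj (χ k) * cut f k) * g (N k))]
    · refine tsum_congr fun k => ?_
      simp only [cut_mul]
      split_ifs with hk
      · rw [cf_r3 hk.ne_zero, alp_mul, hχ.mul, map_mul, N_mul, N_r3, Nat.cast_mul]
        have e : ∀ x : ℂ, x = L⁻¹ * (L * x) := fun x => by field_simp
        rw [e (cf th k * alp k * f k * conj (χ k) * g (27 * N k)), hL]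
        push_cast
        ring
      · simp
    · intro k hk
      by_contra hn
      apply hk
      have : ¬ 3 * rt3 ∣ k := fun ⟨m, hm⟩ => hn ⟨m, hm.symm⟩
      simp [cut_of_not_dvd f this]
  · intro i hi U hU
    have h1 := hz2 i hi U hU
    simp only [mul_assoc (conj (z i)), tsum_mul_left]
    rw [h1]
    linear_combination ((U : ℂ)⁻¹ * ∑' k : O, bd th (c i) (d i) ρ k *
      (KK (qq * N k / (N (c i) * N h) / U) : ℂ)) * hzz i

end Vale.Agent.P026Z.Vor
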