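import Vale.Agent.P026Z.Vor.Ker
import Vale.Agent.P006.TI.Mel

/-!
P026, block VOR: Mellin transforms of smooth compactly supported weights on all vertical lines.
-/

namespace Vale.Agent.P026Z.Vor

open MeasureTheory Filter Topology Set Complex Asymptotics
open Vale.Agent.P006.KER (Nice)
open scoped Real ContDiff

/-- a Mellin transform is bounded in the closed strip between two lines of convergence -/
theorem exists_mellin_bound {f : ℝ → ℂ} {σ0 σ1 : ℝ} (h0 : MellinConvergent f σ0)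
    (h1 : MellinConvergent f σ1) : ∃ C : ℝ, 0 ≤ C ∧ ∀ s : ℂ, σ0 ≤ s.re → s.re ≤ σ1 →
      ‖mellin f s‖ ≤ C := by
  refine ⟨∫ x in Ioi (0 : ℝ), (‖(x : ℂ) ^ ((σ0 : ℂ) - 1) • f x‖ + ‖(x : ℂ) ^ ((σ1 : ℂ) - 1) • f x‖),
    integral_nonneg fun x => by positivity, fun s hs0 hs1 => ?_⟩
  rw [mellin]
  refine norm_integral_le_of_norm_le (h0.norm.add h1.norm) ?_
  refine (ae_restrict_iff' measurableSet_Ioi).2 (ae_of_all _ fun x hx => ?_)
  have hx : (0 : ℝ) < x := hx
  simp only [norm_smul, norm_cpow_eq_rpow_re_of_pos hx, sub_re, one_re, ofReal_re]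
  rw [← add_mul]
  refine mul_le_mul_of_nonneg_right ?_ (norm_nonneg _)
  have a0 : 0 ≤ x ^ (σ0 - 1) := by positivity
  have a1 : 0 ≤ x ^ (σ1 - 1) := by positivity
  rcases le_total x 1 with h | h
  · have := Real.rpow_le_rpow_of_exponent_ge hx h (show σ0 - 1 ≤ s.re - 1 by linarith)
    linarith
  · have := Real.rpow_le_rpow_of_exponent_le h (show s.re - 1 ≤ σ1 - 1 by linarith)
    linarith

section
variable {W : ℝ → ℂ} {a b : ℝ}

theorem nice_isBigO_top (H : Nice W a b) (c : ℝ) : W =O[atTop] fun x : ℝ => x ^ c := by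
  refine IsBigO.of_bound 0 ?_
  filter_upwards [eventually_gt_atTop b] with x hx
  rw [H.supp x (fun h => absurd h.2 (not_le.2 hx))]
  simp

theorem nice_isBigO_bot (H : Nice W a b) (c : ℝ) : W =O[𝓝[>] 0] fun x : ℝ => x ^ c := by
  refine IsBigO.of_bound 0 ?_
  filter_upwards [mem_nhdsWithin_of_mem_nhds (Iio_mem_nhds H.pos)] with x hx
  rw [H.supp x (fun h => absurd h.1 (not_le.2 hx))]
  simp

theorem nice_mellinConvergent (H : Nice W a b) (s : ℂ) : MellinConvergent W s :=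
  mellinConvergent_of_isBigO_rpow (a := s.re + 1) (b := s.re - 1)
    (H.cont.locallyIntegrable.locallyIntegrableOn _) (nice_isBigO_top H _) (by linarith)
    (nice_isBigO_bot H _) (by linarith)

theorem nice_differentiable (H : Nice W a b) : Differentiable ℂ (mellin W) := fun s =>
  mellin_differentiableAt_of_isBigO_rpow (a := s.re + 1) (b := s.re - 1)
    (H.cont.locallyIntegrable.locallyIntegrableOn _) (nice_isBigO_top H _) (by linarith)
    (nice_isBigO_bot H _) (by linarith)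

theorem nice_continuous_line (H : Nice W a b) (σ : ℝ) :
    Continuous fun t : ℝ => mellin W (σ + t * I) :=
  (nice_differentiable H).continuous.comp (by fun_prop)

theorem nice_strip_bound (H : Nice W a b) (σ0 σ1 : ℝ) : ∃ C : ℝ, 0 ≤ C ∧ ∀ s : ℂ, σ0 ≤ s.re →
    s.re ≤ σ1 → ‖mellin W s‖ ≤ C :=
  exists_mellin_bound (nice_mellinConvergent H _) (nice_mellinConvergent H _)

/-- rapid decay on every vertical line -/
theorem nice_decay (H : Nice W a b) (σ : ℝ) (k : ℕ) : ∃ C : ℝ, 0 ≤ C ∧ ∀ t : ℝ,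
    ‖mellin W (σ + t * I)‖ * (1 + |t|) ^ k ≤ C := by
  set U : ℝ → ℂ := fun x => ((x ^ (σ - 1) : ℝ) : ℂ) * W x with hU
  have HU : Nice U a b := by
    refine P006.TI.nice_mul H fun x hx => ?_
    exact ofRealCLM.contDiff.contDiffAt.comp x (Real.contDiffAt_rpow_const_of_ne hx.ne')
  obtain ⟨C, hC0, hC⟩ := nice_strip_bound (P006.TI.nice_iteratedDeriv HU k) (1 + k) (1 + k)
  refine ⟨C * 2 ^ k, by positivity, fun t => ?_⟩
  have e : mellin W (σ + t * I) = mellin U ((1 : ℝ) + t * I) := by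
    have h := mellin_cpow_smul W ((1 : ℝ) + t * I) ((σ - 1 : ℝ) : ℂ)
    rw [show ((1 : ℝ) : ℂ) + t * I + ((σ - 1 : ℝ) : ℂ) = σ + t * I by push_cast; ring] at h
    rw [← h]
    refine setIntegral_congr_fun measurableSet_Ioi fun x hx => ?_
    have hx : (0 : ℝ) < x := hx
    simp only [hU, smul_eq_mul]
    rw [ofReal_cpow hx.le]
  have h1 := P006.TI.mellin_decay_pow HU k t
  have h2 := hC (((1 + k : ℝ) : ℂ) + t * I) (by simp) (by simp)
  rw [e]
  have h3 := h1.trans h2
  rw [div_pow, ← mul_div_assoc, div_le_iff₀ (by positivity)] at h3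
  exact h3

theorem one_add_abs_sq_ge (t : ℝ) : 1 + t ^ 2 ≤ (1 + |t|) ^ 2 := by
  have := abs_nonneg t
  nlinarith [sq_abs t]

/-- integrability against polynomial weights, uniformly in a vertical translation -/
theorem nice_poly (H : Nice W a b) (σ : ℝ) (k : ℕ) : ∃ C : ℝ, 0 ≤ C ∧ ∀ t0 t : ℝ,
    ‖mellin W (σ + ((t + t0 : ℝ) : ℂ) * I)‖ * (1 + |t|) ^ k ≤
      C * (1 + |t0|) ^ k * (1 + (t + t0) ^ 2)⁻¹ := by
  obtain ⟨C, hC0, hC⟩ := nice_decay H σ (k + 2)
  refine ⟨C, hC0, fun t0 t => ?_⟩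
  have h1 := hC (t + t0)
  have h2 : 1 + |t| ≤ (1 + |t + t0|) * (1 + |t0|) := by
    have h3 : |t| ≤ |t + t0| + |t0| := by
      have := abs_sub (t + t0) t0
      rwa [add_sub_cancel_right] at this
    have := mul_nonneg (abs_nonneg (t + t0)) (abs_nonneg t0)
    nlinarith
  have h3 := one_add_abs_sq_ge (t + t0)
  rw [← div_eq_mul_inv, le_div_iff₀ (by positivity)]
  calc ‖mellin W (σ + ((t + t0 : ℝ) : ℂ) * I)‖ * (1 + |t|) ^ k * (1 + (t + t0) ^ 2)
      ≤ ‖mellin W (σ + ((t + t0 : ℝ) : ℂ) * I)‖ * ((1 + |t + t0|) * (1 + |t0|)) ^ k *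
          (1 + |t + t0|) ^ 2 := by gcongr
    _ = (‖mellin W (σ + ((t + t0 : ℝ) : ℂ) * I)‖ * (1 + |t + t0|) ^ (k + 2)) * (1 + |t0|) ^ k := by
        rw [mul_pow]; ring
    _ ≤ _ := by gcongr

theorem nice_integrable_poly (H : Nice W a b) (σ : ℝ) (k : ℕ) :
    Integrable fun t : ℝ => ‖mellin W (σ + t * I)‖ * (1 + |t|) ^ k := by
  obtain ⟨C, hC0, hC⟩ := nice_poly H σ k
  refine (integrable_inv_one_add_sq.const_mul C).mono' ?_ (ae_of_all _ fun t => ?_)
  · exact ((nice_continuous_line H σ).norm.mul (by fun_prop)).aestronglyMeasurable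
  · have := hC 0 t
    rw [Real.norm_of_nonneg (by positivity)]
    simpa using this

theorem nice_integrable_line (H : Nice W a b) (σ : ℝ) :
    Integrable fun t : ℝ => mellin W (σ + t * I) := by
  have h := nice_integrable_poly H σ 0
  simp only [pow_zero, mul_one] at h
  exact (integrable_norm_iff (nice_continuous_line H σ).aestronglyMeasurable).1 h

theorem nice_inversion (H : Nice W a b) (σ : ℝ) {x : ℝ} (hx : 0 < x) :
    W x = ((1 / (2 * π) : ℝ) : ℂ) *
      ∫ t : ℝ, mellin W (σ + t * I) * (x : ℂ) ^ (-((σ : ℂ) + t * I)) := by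
  have h3 := mellinInv_mellin_eq σ W hx (nice_mellinConvergent H _) (nice_integrable_line H σ)
    H.cont.continuousAt
  rw [mellinInv] at h3
  rw [← h3, Complex.real_smul]
  congr 1
  refine integral_congr_ae (ae_of_all _ fun t => ?_)
  simp only [smul_eq_mul]
  ring

end

end Vale.Agent.P026Z.Vor
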